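import Vale.Agent.P154.Checker
import Vale.Agent.P154.Data.D2K1_0
import Vale.Agent.P154.Data.D2K1_1
import Vale.Agent.P154.Data.D3K1_0
import Vale.Agent.P154.Data.D3K1_1
import Vale.Agent.P154.Data.D3K1_2
import Vale.Agent.P154.Data.D3K2_0
import Vale.Agent.P154.Data.D3K2_1
import Vale.Agent.P154.Data.D4K1_0
import Vale.Agent.P154.Data.D4K1_1
import Vale.Agent.P154.Data.D4K1_2
import Vale.Agent.P154.Data.D4K1_3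
import Vale.Agent.P154.Data.D4K2_0
import Vale.Agent.P154.Data.D4K2_1
import Vale.Agent.P154.Data.D4K2_2
import Vale.Agent.P154.Data.D4K3_0
import Vale.Agent.P154.Data.D4K3_1
import Vale.Agent.P154.Data.D5K1_0
import Vale.Agent.P154.Data.D5K1_1
import Vale.Agent.P154.Data.D5K1_2
import Vale.Agent.P154.Data.D5K2_0
import Vale.Agent.P154.Data.D5K2_1
import Vale.Agent.P154.Data.D5K2_2
import Vale.Agent.P154.Data.D5K2_3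
import Vale.Agent.P154.Data.D5K3_0
import Vale.Agent.P154.Data.D5K3_1
import Vale.Agent.P154.Data.D5K4_0
import Vale.Agent.P154.Data.D5K4_1
import Vale.Agent.P154.Data.D6K1_0
import Vale.Agent.P154.Data.D6K1_1
import Vale.Agent.P154.Data.D6K1_2
import Vale.Agent.P154.Data.D6K2_0
import Vale.Agent.P154.Data.D6K2_1
import Vale.Agent.P154.Data.D6K2_2
import Vale.Agent.P154.Data.D6K2_3
import Vale.Agent.P154.Data.D6K2_4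
import Vale.Agent.P154.Data.D6K2_5
import Vale.Agent.P154.Data.D6K2_6
import Vale.Agent.P154.Data.D6K2_7
import Vale.Agent.P154.Data.D6K2_8
import Vale.Agent.P154.Data.D6K3_0
import Vale.Agent.P154.Data.D6K3_1
import Vale.Agent.P154.Data.D6K4_0
import Vale.Agent.P154.Data.D6K4_1
import Vale.Agent.P154.Data.D6K5_0
import Vale.Agent.P154.Data.D7K1_0
import Vale.Agent.P154.Data.D7K1_1
import Vale.Agent.P154.Data.D7K1_2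
import Vale.Agent.P154.Data.D7K2_0
import Vale.Agent.P154.Data.D7K2_1
import Vale.Agent.P154.Data.D7K2_2
import Vale.Agent.P154.Data.D7K2_3
import Vale.Agent.P154.Data.D7K2_4
import Vale.Agent.P154.Data.D7K2_5
import Vale.Agent.P154.Data.D7K2_6
import Vale.Agent.P154.Data.D7K3_0
import Vale.Agent.P154.Data.D7K3_1
import Vale.Agent.P154.Data.D7K4_0
import Vale.Agent.P154.Data.D7K4_1
import Vale.Agent.P154.Data.D7K5_0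
import Vale.Agent.P154.Data.D7K6_0
import Vale.Agent.P154.Data.D8K1_0
import Vale.Agent.P154.Data.D8K1_1
import Vale.Agent.P154.Data.D8K1_2
import Vale.Agent.P154.Data.D8K2_0
import Vale.Agent.P154.Data.D8K2_1
import Vale.Agent.P154.Data.D8K2_2
import Vale.Agent.P154.Data.D8K2_3
import Vale.Agent.P154.Data.D8K2_4
import Vale.Agent.P154.Data.D8K2_5
import Vale.Agent.P154.Data.D8K2_6
import Vale.Agent.P154.Data.D8K3_0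
import Vale.Agent.P154.Data.D8K3_1
import Vale.Agent.P154.Data.D8K4_0
import Vale.Agent.P154.Data.D8K4_1
import Vale.Agent.P154.Data.D8K5_0
import Vale.Agent.P154.Data.D8K6_0
import Vale.Agent.P154.Data.D8K7_0
import Vale.Agent.P154.Data.Star_0
import Vale.Agent.P154.Data.Star_1
import Vale.Agent.P154.Data.Star_2

/-! The certified cells. -/

namespace Vale.Agent.P154

theorem subD2K1 {T : Tr} {x : Cell} (h : chk cfgD2K1 [] T x = true) : CellOK cfgD2K1 x :=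
  chk_sound (by decide) (by decide) (ext := []) (fun _ h => absurd h List.not_mem_nil) _ _ h

theorem certD2K1 : CellOK cfgD2K1 ⟨0, 4096, 0, 4096, -64, 64, -64, 64⟩ :=
  chk_sound (by decide) (by decide) (ext := xsD2K1)
   (List.forall_mem_cons.2 ⟨subD2K1 dD2K1_0, (List.forall_mem_cons.2 ⟨subD2K1 dD2K1_1, (List.forall_mem_cons.2 ⟨subD2K1 dD2K1_2, (List.forall_mem_cons.2 ⟨subD2K1 dD2K1_3, (List.forall_mem_cons.2 ⟨subD2K1 dD2K1_4, (List.forall_mem_cons.2 ⟨subD2K1 dD2K1_5, (List.forall_mem_cons.2 ⟨subD2K1 dD2K1_6, (List.forall_mem_cons.2 ⟨subD2K1 dD2K1_7, (List.forall_mem_cons.2 ⟨subD2K1 dD2K1_8, (List.forall_mem_cons.2 ⟨subD2K1 dD2K1_9, (List.forall_mem_cons.2 ⟨subD2K1 dD2K1_10, (fun _ h => absurd h List.not_mem_nil)⟩)⟩)⟩)⟩)⟩)⟩)⟩)⟩)⟩)⟩)⟩) _ _ dD2K1_top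

theorem subD3K1 {T : Tr} {x : Cell} (h : chk cfgD3K1 [] T x = true) : CellOK cfgD3K1 x :=
  chk_sound (by decide) (by decide) (ext := []) (fun _ h => absurd h List.not_mem_nil) _ _ h

theorem certD3K1 : CellOK cfgD3K1 ⟨0, 4096, 0, 4096, -64, 64, -64, 64⟩ :=
  chk_sound (by decide) (by decide) (ext := xsD3K1)
   (List.forall_mem_cons.2 ⟨subD3K1 dD3K1_0, (List.forall_mem_cons.2 ⟨subD3K1 dD3K1_1, (List.forall_mem_cons.2 ⟨subD3K1 dD3K1_2, (List.forall_mem_cons.2 ⟨subD3K1 dD3K1_3, (List.forall_mem_cons.2 ⟨subD3K1 dD3K1_4, (List.forall_mem_cons.2 ⟨subD3K1 dD3K1_5, (List.forall_mem_cons.2 ⟨subD3K1 dD3K1_6, (List.forall_mem_cons.2 ⟨subD3K1 dD3K1_7, (List.forall_mem_cons.2 ⟨subD3K1 dD3K1_8, (List.forall_mem_cons.2 ⟨subD3K1 dD3K1_9, (List.forall_mem_cons.2 ⟨subD3K1 dD3K1_10, (List.forall_mem_cons.2 ⟨subD3K1 dD3K1_11, (List.forall_mem_cons.2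 ⟨subD3K1 dD3K1_12, (List.forall_mem_cons.2 ⟨subD3K1 dD3K1_13, (List.forall_mem_cons.2 ⟨subD3K1 dD3K1_14, (List.forall_mem_cons.2 ⟨subD3K1 dD3K1_15, (fun _ h => absurd h List.not_mem_nil)⟩)⟩)⟩)⟩)⟩)⟩)⟩)⟩)⟩)⟩)⟩)⟩)⟩)⟩)⟩)⟩) _ _ dD3K1_top

theorem subD3K2 {T : Tr} {x : Cell} (h : chk cfgD3K2 [] T x = true) : CellOK cfgD3K2 x :=
  chk_sound (by decide) (by decide) (ext := []) (fun _ h => absurd h List.not_mem_nil) _ _ h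

theorem certD3K2 : CellOK cfgD3K2 ⟨0, 4096, 0, 4096, -64, 64, -64, 64⟩ :=
  chk_sound (by decide) (by decide) (ext := xsD3K2)
   (List.forall_mem_cons.2 ⟨subD3K2 dD3K2_0, (List.forall_mem_cons.2 ⟨subD3K2 dD3K2_1, (List.forall_mem_cons.2 ⟨subD3K2 dD3K2_2, (List.forall_mem_cons.2 ⟨subD3K2 dD3K2_3, (List.forall_mem_cons.2 ⟨subD3K2 dD3K2_4, (List.forall_mem_cons.2 ⟨subD3K2 dD3K2_5, (List.forall_mem_cons.2 ⟨subD3K2 dD3K2_6, (List.forall_mem_cons.2 ⟨subD3K2 dD3K2_7, (List.forall_mem_cons.2 ⟨subD3K2 dD3K2_8, (List.forall_mem_cons.2 ⟨subD3K2 dD3K2_9, (List.forall_mem_cons.2 ⟨subD3K2 dD3K2_10, (fun _ h => absurd h List.not_mem_nil)⟩)⟩)⟩)⟩)⟩)⟩)⟩)⟩)⟩)⟩)⟩) _ _ dD3K2_top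

theorem subD4K1 {T : Tr} {x : Cell} (h : chk cfgD4K1 [] T x = true) : CellOK cfgD4K1 x :=
  chk_sound (by decide) (by decide) (ext := []) (fun _ h => absurd h List.not_mem_nil) _ _ h

theorem certD4K1 : CellOK cfgD4K1 ⟨0, 4096, 0, 4096, -64, 64, -64, 64⟩ :=
  chk_sound (by decide) (by decide) (ext := xsD4K1)
   (List.forall_mem_cons.2 ⟨subD4K1 dD4K1_0, (List.forall_mem_cons.2 ⟨subD4K1 dD4K1_1, (List.forall_mem_cons.2 ⟨subD4K1 dD4K1_2, (List.forall_mem_cons.2 ⟨subD4K1 dD4K1_3, (List.forall_mem_cons.2 ⟨subD4K1 dD4K1_4, (List.forall_mem_cons.2 ⟨subD4K1 dD4K1_5, (List.forall_mem_cons.2 ⟨subD4K1 dD4K1_6, (List.forall_mem_cons.2 ⟨subD4K1 dD4K1_7, (List.forall_mem_cons.2 ⟨subD4K1 dD4K1_8, (List.forall_mem_cons.2 ⟨subD4K1 dD4K1_9, (List.forall_mem_cons.2 ⟨subD4K1 dD4K1_10, (List.forall_mem_cons.2 ⟨subD4K1 dD4K1_11, (List.forall_mem_cons.2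 ⟨subD4K1 dD4K1_12, (List.forall_mem_cons.2 ⟨subD4K1 dD4K1_13, (List.forall_mem_cons.2 ⟨subD4K1 dD4K1_14, (List.forall_mem_cons.2 ⟨subD4K1 dD4K1_15, (List.forall_mem_cons.2 ⟨subD4K1 dD4K1_16, (List.forall_mem_cons.2 ⟨subD4K1 dD4K1_17, (List.forall_mem_cons.2 ⟨subD4K1 dD4K1_18, (List.forall_mem_cons.2 ⟨subD4K1 dD4K1_19, (List.forall_mem_cons.2 ⟨subD4K1 dD4K1_20, (fun _ h => absurd h List.not_mem_nil)⟩)⟩)⟩)⟩)⟩)⟩)⟩)⟩)⟩)⟩)⟩)⟩)⟩)⟩)⟩)⟩)⟩)⟩)⟩)⟩)⟩) _ _ dD4K1_top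

theorem subD4K2 {T : Tr} {x : Cell} (h : chk cfgD4K2 [] T x = true) : CellOK cfgD4K2 x :=
  chk_sound (by decide) (by decide) (ext := []) (fun _ h => absurd h List.not_mem_nil) _ _ h

theorem certD4K2 : CellOK cfgD4K2 ⟨0, 4096, 0, 4096, -64, 64, -64, 64⟩ :=
  chk_sound (by decide) (by decide) (ext := xsD4K2)
   (List.forall_mem_cons.2 ⟨subD4K2 dD4K2_0, (List.forall_mem_cons.2 ⟨subD4K2 dD4K2_1, (List.forall_mem_cons.2 ⟨subD4K2 dD4K2_2, (List.forall_mem_cons.2 ⟨subD4K2 dD4K2_3, (List.forall_mem_cons.2 ⟨subD4K2 dD4K2_4, (List.forall_mem_cons.2 ⟨subD4K2 dD4K2_5, (List.forall_mem_cons.2 ⟨subD4K2 dD4K2_6, (List.forall_mem_cons.2 ⟨subD4K2 dD4K2_7, (List.forall_mem_cons.2 ⟨subD4K2 dD4K2_8, (List.forall_mem_cons.2 ⟨subD4K2 dD4K2_9, (List.forall_mem_cons.2 ⟨subD4K2 dD4K2_10, (List.forall_mem_cons.2 ⟨subD4K2 dD4K2_11, (List.forall_mem_cons.2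 ⟨subD4K2 dD4K2_12, (List.forall_mem_cons.2 ⟨subD4K2 dD4K2_13, (List.forall_mem_cons.2 ⟨subD4K2 dD4K2_14, (fun _ h => absurd h List.not_mem_nil)⟩)⟩)⟩)⟩)⟩)⟩)⟩)⟩)⟩)⟩)⟩)⟩)⟩)⟩)⟩) _ _ dD4K2_top

theorem subD4K3 {T : Tr} {x : Cell} (h : chk cfgD4K3 [] T x = true) : CellOK cfgD4K3 x :=
  chk_sound (by decide) (by decide) (ext := []) (fun _ h => absurd h List.not_mem_nil) _ _ h

theorem certD4K3 : CellOK cfgD4K3 ⟨0, 4096, 0, 4096, -64, 64, -64, 64⟩ :=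
  chk_sound (by decide) (by decide) (ext := xsD4K3)
   (List.forall_mem_cons.2 ⟨subD4K3 dD4K3_0, (List.forall_mem_cons.2 ⟨subD4K3 dD4K3_1, (List.forall_mem_cons.2 ⟨subD4K3 dD4K3_2, (List.forall_mem_cons.2 ⟨subD4K3 dD4K3_3, (List.forall_mem_cons.2 ⟨subD4K3 dD4K3_4, (List.forall_mem_cons.2 ⟨subD4K3 dD4K3_5, (List.forall_mem_cons.2 ⟨subD4K3 dD4K3_6, (fun _ h => absurd h List.not_mem_nil)⟩)⟩)⟩)⟩)⟩)⟩)⟩) _ _ dD4K3_top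

theorem subD5K1 {T : Tr} {x : Cell} (h : chk cfgD5K1 [] T x = true) : CellOK cfgD5K1 x :=
  chk_sound (by decide) (by decide) (ext := []) (fun _ h => absurd h List.not_mem_nil) _ _ h

theorem certD5K1 : CellOK cfgD5K1 ⟨0, 4096, 0, 4096, -64, 64, -64, 64⟩ :=
  chk_sound (by decide) (by decide) (ext := xsD5K1)
   (List.forall_mem_cons.2 ⟨subD5K1 dD5K1_0, (List.forall_mem_cons.2 ⟨subD5K1 dD5K1_1, (List.forall_mem_cons.2 ⟨subD5K1 dD5K1_2, (List.forall_mem_cons.2 ⟨subD5K1 dD5K1_3, (List.forall_mem_cons.2 ⟨subD5K1 dD5K1_4, (List.forall_mem_cons.2 ⟨subD5K1 dD5K1_5, (List.forall_mem_cons.2 ⟨subD5K1 dD5K1_6, (List.forall_mem_cons.2 ⟨subD5K1 dD5K1_7, (List.forall_mem_cons.2 ⟨subD5K1 dD5K1_8, (List.forall_mem_cons.2 ⟨subD5K1 dD5K1_9, (List.forall_mem_cons.2 ⟨subD5K1 dD5K1_10, (List.forall_mem_cons.2 ⟨subD5K1 dD5K1_11, (List.forall_mem_cons.2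 ⟨subD5K1 dD5K1_12, (List.forall_mem_cons.2 ⟨subD5K1 dD5K1_13, (List.forall_mem_cons.2 ⟨subD5K1 dD5K1_14, (List.forall_mem_cons.2 ⟨subD5K1 dD5K1_15, (List.forall_mem_cons.2 ⟨subD5K1 dD5K1_16, (List.forall_mem_cons.2 ⟨subD5K1 dD5K1_17, (fun _ h => absurd h List.not_mem_nil)⟩)⟩)⟩)⟩)⟩)⟩)⟩)⟩)⟩)⟩)⟩)⟩)⟩)⟩)⟩)⟩)⟩)⟩) _ _ dD5K1_top

theorem subD5K2 {T : Tr} {x : Cell} (h : chk cfgD5K2 [] T x = true) : CellOK cfgD5K2 x :=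
  chk_sound (by decide) (by decide) (ext := []) (fun _ h => absurd h List.not_mem_nil) _ _ h

theorem certD5K2 : CellOK cfgD5K2 ⟨0, 4096, 0, 4096, -64, 64, -64, 64⟩ :=
  chk_sound (by decide) (by decide) (ext := xsD5K2)
   (List.forall_mem_cons.2 ⟨subD5K2 dD5K2_0, (List.forall_mem_cons.2 ⟨subD5K2 dD5K2_1, (List.forall_mem_cons.2 ⟨subD5K2 dD5K2_2, (List.forall_mem_cons.2 ⟨subD5K2 dD5K2_3, (List.forall_mem_cons.2 ⟨subD5K2 dD5K2_4, (List.forall_mem_cons.2 ⟨subD5K2 dD5K2_5, (List.forall_mem_cons.2 ⟨subD5K2 dD5K2_6, (List.forall_mem_cons.2 ⟨subD5K2 dD5K2_7, (List.forall_mem_cons.2 ⟨subD5K2 dD5K2_8, (List.forall_mem_cons.2 ⟨subD5K2 dD5K2_9, (List.forall_mem_cons.2 ⟨subD5K2 dD5K2_10, (List.forall_mem_cons.2 ⟨subD5K2 dD5K2_11, (List.forall_mem_cons.2 ⟨subD5K2 dD5K2_12, (List.forall_mem_cons.2 ⟨subD5K2 dD5K2_13, (List.forall_mem_cons.2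 ⟨subD5K2 dD5K2_14, (List.forall_mem_cons.2 ⟨subD5K2 dD5K2_15, (List.forall_mem_cons.2 ⟨subD5K2 dD5K2_16, (List.forall_mem_cons.2 ⟨subD5K2 dD5K2_17, (List.forall_mem_cons.2 ⟨subD5K2 dD5K2_18, (List.forall_mem_cons.2 ⟨subD5K2 dD5K2_19, (List.forall_mem_cons.2 ⟨subD5K2 dD5K2_20, (List.forall_mem_cons.2 ⟨subD5K2 dD5K2_21, (fun _ h => absurd h List.not_mem_nil)⟩)⟩)⟩)⟩)⟩)⟩)⟩)⟩)⟩)⟩)⟩)⟩)⟩)⟩)⟩)⟩)⟩)⟩)⟩)⟩)⟩)⟩) _ _ dD5K2_top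

theorem subD5K3 {T : Tr} {x : Cell} (h : chk cfgD5K3 [] T x = true) : CellOK cfgD5K3 x :=
  chk_sound (by decide) (by decide) (ext := []) (fun _ h => absurd h List.not_mem_nil) _ _ h

theorem certD5K3 : CellOK cfgD5K3 ⟨0, 4096, 0, 4096, -64, 64, -64, 64⟩ :=
  chk_sound (by decide) (by decide) (ext := xsD5K3)
   (List.forall_mem_cons.2 ⟨subD5K3 dD5K3_0, (List.forall_mem_cons.2 ⟨subD5K3 dD5K3_1, (List.forall_mem_cons.2 ⟨subD5K3 dD5K3_2, (List.forall_mem_cons.2 ⟨subD5K3 dD5K3_3, (List.forall_mem_cons.2 ⟨subD5K3 dD5K3_4, (List.forall_mem_cons.2 ⟨subD5K3 dD5K3_5, (List.forall_mem_cons.2 ⟨subD5K3 dD5K3_6, (List.forall_mem_cons.2 ⟨subD5K3 dD5K3_7, (fun _ h => absurd h List.not_mem_nil)⟩)⟩)⟩)⟩)⟩)⟩)⟩)⟩) _ _ dD5K3_top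

theorem subD5K4 {T : Tr} {x : Cell} (h : chk cfgD5K4 [] T x = true) : CellOK cfgD5K4 x :=
  chk_sound (by decide) (by decide) (ext := []) (fun _ h => absurd h List.not_mem_nil) _ _ h

theorem certD5K4 : CellOK cfgD5K4 ⟨0, 4096, 0, 4096, -64, 64, -64, 64⟩ :=
  chk_sound (by decide) (by decide) (ext := xsD5K4)
   (List.forall_mem_cons.2 ⟨subD5K4 dD5K4_0, (List.forall_mem_cons.2 ⟨subD5K4 dD5K4_1, (List.forall_mem_cons.2 ⟨subD5K4 dD5K4_2, (List.forall_mem_cons.2 ⟨subD5K4 dD5K4_3, (List.forall_mem_cons.2 ⟨subD5K4 dD5K4_4, (List.forall_mem_cons.2 ⟨subD5K4 dD5K4_5, (List.forall_mem_cons.2 ⟨subD5K4 dD5K4_6, (fun _ h => absurd h List.not_mem_nil)⟩)⟩)⟩)⟩)⟩)⟩)⟩) _ _ dD5K4_top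

theorem subD6K1 {T : Tr} {x : Cell} (h : chk cfgD6K1 [] T x = true) : CellOK cfgD6K1 x :=
  chk_sound (by decide) (by decide) (ext := []) (fun _ h => absurd h List.not_mem_nil) _ _ h

theorem certD6K1 : CellOK cfgD6K1 ⟨0, 4096, 0, 4096, -64, 64, -64, 64⟩ :=
  chk_sound (by decide) (by decide) (ext := xsD6K1)
   (List.forall_mem_cons.2 ⟨subD6K1 dD6K1_0, (List.forall_mem_cons.2 ⟨subD6K1 dD6K1_1, (List.forall_mem_cons.2 ⟨subD6K1 dD6K1_2, (List.forall_mem_cons.2 ⟨subD6K1 dD6K1_3, (List.forall_mem_cons.2 ⟨subD6K1 dD6K1_4, (List.forall_mem_cons.2 ⟨subD6K1 dD6K1_5, (List.forall_mem_cons.2 ⟨subD6K1 dD6K1_6, (List.forall_mem_cons.2 ⟨subD6K1 dD6K1_7, (List.forall_mem_cons.2 ⟨subD6K1 dD6K1_8, (List.forall_mem_cons.2 ⟨subD6K1 dD6K1_9, (List.forall_mem_cons.2 ⟨subD6K1 dD6K1_10, (List.forall_mem_cons.2 ⟨subD6K1 dD6K1_11, (List.forall_mem_cons.2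 ⟨subD6K1 dD6K1_12, (List.forall_mem_cons.2 ⟨subD6K1 dD6K1_13, (List.forall_mem_cons.2 ⟨subD6K1 dD6K1_14, (List.forall_mem_cons.2 ⟨subD6K1 dD6K1_15, (List.forall_mem_cons.2 ⟨subD6K1 dD6K1_16, (List.forall_mem_cons.2 ⟨subD6K1 dD6K1_17, (fun _ h => absurd h List.not_mem_nil)⟩)⟩)⟩)⟩)⟩)⟩)⟩)⟩)⟩)⟩)⟩)⟩)⟩)⟩)⟩)⟩)⟩)⟩) _ _ dD6K1_top

theorem subD6K2 {T : Tr} {x : Cell} (h : chk cfgD6K2 [] T x = true) : CellOK cfgD6K2 x :=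
  chk_sound (by decide) (by decide) (ext := []) (fun _ h => absurd h List.not_mem_nil) _ _ h

theorem certD6K2 : CellOK cfgD6K2 ⟨0, 4096, 0, 4096, -64, 64, -64, 64⟩ :=
  chk_sound (by decide) (by decide) (ext := xsD6K2)
   (List.forall_mem_cons.2 ⟨subD6K2 dD6K2_0, (List.forall_mem_cons.2 ⟨subD6K2 dD6K2_1, (List.forall_mem_cons.2 ⟨subD6K2 dD6K2_2, (List.forall_mem_cons.2 ⟨subD6K2 dD6K2_3, (List.forall_mem_cons.2 ⟨subD6K2 dD6K2_4, (List.forall_mem_cons.2 ⟨subD6K2 dD6K2_5, (List.forall_mem_cons.2 ⟨subD6K2 dD6K2_6, (List.forall_mem_cons.2 ⟨subD6K2 dD6K2_7, (List.forall_mem_cons.2 ⟨subD6K2 dD6K2_8, (List.forall_mem_cons.2 ⟨subD6K2 dD6K2_9, (List.forall_mem_cons.2 ⟨subD6K2 dD6K2_10, (List.forall_mem_cons.2 ⟨subD6K2 dD6K2_11, (List.forall_mem_cons.2 ⟨subD6K2 dD6K2_12, (List.forall_mem_cons.2 ⟨subD6K2 dD6K2_13, (List.forall_mem_cons.2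 ⟨subD6K2 dD6K2_14, (List.forall_mem_cons.2 ⟨subD6K2 dD6K2_15, (List.forall_mem_cons.2 ⟨subD6K2 dD6K2_16, (List.forall_mem_cons.2 ⟨subD6K2 dD6K2_17, (List.forall_mem_cons.2 ⟨subD6K2 dD6K2_18, (List.forall_mem_cons.2 ⟨subD6K2 dD6K2_19, (List.forall_mem_cons.2 ⟨subD6K2 dD6K2_20, (List.forall_mem_cons.2 ⟨subD6K2 dD6K2_21, (List.forall_mem_cons.2 ⟨subD6K2 dD6K2_22, (List.forall_mem_cons.2 ⟨subD6K2 dD6K2_23, (List.forall_mem_cons.2 ⟨subD6K2 dD6K2_24, (List.forall_mem_cons.2 ⟨subD6K2 dD6K2_25, (List.forall_mem_cons.2 ⟨subD6K2 dD6K2_26, (List.forall_mem_cons.2 ⟨subD6K2 dD6K2_27, (List.forall_mem_cons.2 ⟨subD6K2 dD6K2_28, (List.forall_mem_cons.2 ⟨subD6K2 dD6K2_29, (List.forall_mem_cons.2 ⟨subD6K2 dD6K2_30, (List.forall_mem_cons.2 ⟨subD6K2 dD6K2_31, (List.forall_mem_cons.2 ⟨subD6K2 dD6K2_32, (List.forall_mem_cons.2 ⟨subD6K2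 dD6K2_33, (List.forall_mem_cons.2 ⟨subD6K2 dD6K2_34, (List.forall_mem_cons.2 ⟨subD6K2 dD6K2_35, (List.forall_mem_cons.2 ⟨subD6K2 dD6K2_36, (List.forall_mem_cons.2 ⟨subD6K2 dD6K2_37, (List.forall_mem_cons.2 ⟨subD6K2 dD6K2_38, (List.forall_mem_cons.2 ⟨subD6K2 dD6K2_39, (List.forall_mem_cons.2 ⟨subD6K2 dD6K2_40, (List.forall_mem_cons.2 ⟨subD6K2 dD6K2_41, (List.forall_mem_cons.2 ⟨subD6K2 dD6K2_42, (List.forall_mem_cons.2 ⟨subD6K2 dD6K2_43, (List.forall_mem_cons.2 ⟨subD6K2 dD6K2_44, (List.forall_mem_cons.2 ⟨subD6K2 dD6K2_45, (List.forall_mem_cons.2 ⟨subD6K2 dD6K2_46, (List.forall_mem_cons.2 ⟨subD6K2 dD6K2_47, (List.forall_mem_cons.2 ⟨subD6K2 dD6K2_48, (List.forall_mem_cons.2 ⟨subD6K2 dD6K2_49, (List.forall_mem_cons.2 ⟨subD6K2 dD6K2_50, (List.forall_mem_cons.2 ⟨subD6K2 dD6K2_51, (fun _ h => absurd h List.not_mem_nil)⟩)⟩)⟩)⟩)⟩)⟩)⟩)⟩)⟩)⟩)⟩)⟩)⟩)⟩)⟩)⟩)⟩)⟩)⟩)⟩)⟩)⟩)⟩)⟩)⟩)⟩)⟩)⟩)⟩)⟩)⟩)⟩)⟩)⟩)⟩)⟩)⟩)⟩)⟩)⟩)⟩)⟩)⟩)⟩)⟩)⟩)⟩)⟩)⟩)⟩)⟩)⟩)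 _ _ dD6K2_top

theorem subD6K3 {T : Tr} {x : Cell} (h : chk cfgD6K3 [] T x = true) : CellOK cfgD6K3 x :=
  chk_sound (by decide) (by decide) (ext := []) (fun _ h => absurd h List.not_mem_nil) _ _ h

theorem certD6K3 : CellOK cfgD6K3 ⟨0, 4096, 0, 4096, -64, 64, -64, 64⟩ :=
  chk_sound (by decide) (by decide) (ext := xsD6K3)
   (List.forall_mem_cons.2 ⟨subD6K3 dD6K3_0, (List.forall_mem_cons.2 ⟨subD6K3 dD6K3_1, (List.forall_mem_cons.2 ⟨subD6K3 dD6K3_2, (List.forall_mem_cons.2 ⟨subD6K3 dD6K3_3, (List.forall_mem_cons.2 ⟨subD6K3 dD6K3_4, (List.forall_mem_cons.2 ⟨subD6K3 dD6K3_5, (List.forall_mem_cons.2 ⟨subD6K3 dD6K3_6, (List.forall_mem_cons.2 ⟨subD6K3 dD6K3_7, (fun _ h => absurd h List.not_mem_nil)⟩)⟩)⟩)⟩)⟩)⟩)⟩)⟩) _ _ dD6K3_top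

theorem subD6K4 {T : Tr} {x : Cell} (h : chk cfgD6K4 [] T x = true) : CellOK cfgD6K4 x :=
  chk_sound (by decide) (by decide) (ext := []) (fun _ h => absurd h List.not_mem_nil) _ _ h

theorem certD6K4 : CellOK cfgD6K4 ⟨0, 4096, 0, 4096, -64, 64, -64, 64⟩ :=
  chk_sound (by decide) (by decide) (ext := xsD6K4)
   (List.forall_mem_cons.2 ⟨subD6K4 dD6K4_0, (List.forall_mem_cons.2 ⟨subD6K4 dD6K4_1, (List.forall_mem_cons.2 ⟨subD6K4 dD6K4_2, (List.forall_mem_cons.2 ⟨subD6K4 dD6K4_3, (List.forall_mem_cons.2 ⟨subD6K4 dD6K4_4, (List.forall_mem_cons.2 ⟨subD6K4 dD6K4_5, (List.forall_mem_cons.2 ⟨subD6K4 dD6K4_6, (fun _ h => absurd h List.not_mem_nil)⟩)⟩)⟩)⟩)⟩)⟩)⟩) _ _ dD6K4_top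

theorem subD6K5 {T : Tr} {x : Cell} (h : chk cfgD6K5 [] T x = true) : CellOK cfgD6K5 x :=
  chk_sound (by decide) (by decide) (ext := []) (fun _ h => absurd h List.not_mem_nil) _ _ h

theorem certD6K5 : CellOK cfgD6K5 ⟨0, 4096, 0, 4096, -64, 64, -64, 64⟩ :=
  chk_sound (by decide) (by decide) (ext := xsD6K5)
   (List.forall_mem_cons.2 ⟨subD6K5 dD6K5_0, (List.forall_mem_cons.2 ⟨subD6K5 dD6K5_1, (List.forall_mem_cons.2 ⟨subD6K5 dD6K5_2, (List.forall_mem_cons.2 ⟨subD6K5 dD6K5_3, (List.forall_mem_cons.2 ⟨subD6K5 dD6K5_4, (List.forall_mem_cons.2 ⟨subD6K5 dD6K5_5, (fun _ h => absurd h List.not_mem_nil)⟩)⟩)⟩)⟩)⟩)⟩) _ _ dD6K5_top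

theorem subD7K1 {T : Tr} {x : Cell} (h : chk cfgD7K1 [] T x = true) : CellOK cfgD7K1 x :=
  chk_sound (by decide) (by decide) (ext := []) (fun _ h => absurd h List.not_mem_nil) _ _ h

theorem certD7K1 : CellOK cfgD7K1 ⟨0, 4096, 0, 4096, -64, 64, -64, 64⟩ :=
  chk_sound (by decide) (by decide) (ext := xsD7K1)
   (List.forall_mem_cons.2 ⟨subD7K1 dD7K1_0, (List.forall_mem_cons.2 ⟨subD7K1 dD7K1_1, (List.forall_mem_cons.2 ⟨subD7K1 dD7K1_2, (List.forall_mem_cons.2 ⟨subD7K1 dD7K1_3, (List.forall_mem_cons.2 ⟨subD7K1 dD7K1_4, (List.forall_mem_cons.2 ⟨subD7K1 dD7K1_5, (List.forall_mem_cons.2 ⟨subD7K1 dD7K1_6, (List.forall_mem_cons.2 ⟨subD7K1 dD7K1_7, (List.forall_mem_cons.2 ⟨subD7K1 dD7K1_8, (List.forall_mem_cons.2 ⟨subD7K1 dD7K1_9, (List.forall_mem_cons.2 ⟨subD7K1 dD7K1_10, (List.forall_mem_cons.2 ⟨subD7K1 dD7K1_11, (List.forall_mem_cons.2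 ⟨subD7K1 dD7K1_12, (List.forall_mem_cons.2 ⟨subD7K1 dD7K1_13, (List.forall_mem_cons.2 ⟨subD7K1 dD7K1_14, (List.forall_mem_cons.2 ⟨subD7K1 dD7K1_15, (fun _ h => absurd h List.not_mem_nil)⟩)⟩)⟩)⟩)⟩)⟩)⟩)⟩)⟩)⟩)⟩)⟩)⟩)⟩)⟩)⟩) _ _ dD7K1_top

theorem subD7K2 {T : Tr} {x : Cell} (h : chk cfgD7K2 [] T x = true) : CellOK cfgD7K2 x :=
  chk_sound (by decide) (by decide) (ext := []) (fun _ h => absurd h List.not_mem_nil) _ _ h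

theorem certD7K2 : CellOK cfgD7K2 ⟨0, 4096, 0, 4096, -64, 64, -64, 64⟩ :=
  chk_sound (by decide) (by decide) (ext := xsD7K2)
   (List.forall_mem_cons.2 ⟨subD7K2 dD7K2_0, (List.forall_mem_cons.2 ⟨subD7K2 dD7K2_1, (List.forall_mem_cons.2 ⟨subD7K2 dD7K2_2, (List.forall_mem_cons.2 ⟨subD7K2 dD7K2_3, (List.forall_mem_cons.2 ⟨subD7K2 dD7K2_4, (List.forall_mem_cons.2 ⟨subD7K2 dD7K2_5, (List.forall_mem_cons.2 ⟨subD7K2 dD7K2_6, (List.forall_mem_cons.2 ⟨subD7K2 dD7K2_7, (List.forall_mem_cons.2 ⟨subD7K2 dD7K2_8, (List.forall_mem_cons.2 ⟨subD7K2 dD7K2_9, (List.forall_mem_cons.2 ⟨subD7K2 dD7K2_10, (List.forall_mem_cons.2 ⟨subD7K2 dD7K2_11, (List.forall_mem_cons.2 ⟨subD7K2 dD7K2_12, (List.forall_mem_cons.2 ⟨subD7K2 dD7K2_13, (List.forall_mem_cons.2 ⟨subD7K2 dD7K2_14, (List.forall_mem_cons.2 ⟨subD7K2 dD7K2_15, (List.forall_mem_cons.2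 ⟨subD7K2 dD7K2_16, (List.forall_mem_cons.2 ⟨subD7K2 dD7K2_17, (List.forall_mem_cons.2 ⟨subD7K2 dD7K2_18, (List.forall_mem_cons.2 ⟨subD7K2 dD7K2_19, (List.forall_mem_cons.2 ⟨subD7K2 dD7K2_20, (List.forall_mem_cons.2 ⟨subD7K2 dD7K2_21, (List.forall_mem_cons.2 ⟨subD7K2 dD7K2_22, (List.forall_mem_cons.2 ⟨subD7K2 dD7K2_23, (List.forall_mem_cons.2 ⟨subD7K2 dD7K2_24, (List.forall_mem_cons.2 ⟨subD7K2 dD7K2_25, (List.forall_mem_cons.2 ⟨subD7K2 dD7K2_26, (List.forall_mem_cons.2 ⟨subD7K2 dD7K2_27, (List.forall_mem_cons.2 ⟨subD7K2 dD7K2_28, (List.forall_mem_cons.2 ⟨subD7K2 dD7K2_29, (List.forall_mem_cons.2 ⟨subD7K2 dD7K2_30, (List.forall_mem_cons.2 ⟨subD7K2 dD7K2_31, (List.forall_mem_cons.2 ⟨subD7K2 dD7K2_32, (List.forall_mem_cons.2 ⟨subD7K2 dD7K2_33, (List.forall_mem_cons.2 ⟨subD7K2 dD7K2_34, (List.forall_mem_cons.2 ⟨subD7K2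 dD7K2_35, (List.forall_mem_cons.2 ⟨subD7K2 dD7K2_36, (List.forall_mem_cons.2 ⟨subD7K2 dD7K2_37, (List.forall_mem_cons.2 ⟨subD7K2 dD7K2_38, (List.forall_mem_cons.2 ⟨subD7K2 dD7K2_39, (List.forall_mem_cons.2 ⟨subD7K2 dD7K2_40, (fun _ h => absurd h List.not_mem_nil)⟩)⟩)⟩)⟩)⟩)⟩)⟩)⟩)⟩)⟩)⟩)⟩)⟩)⟩)⟩)⟩)⟩)⟩)⟩)⟩)⟩)⟩)⟩)⟩)⟩)⟩)⟩)⟩)⟩)⟩)⟩)⟩)⟩)⟩)⟩)⟩)⟩)⟩)⟩)⟩)⟩) _ _ dD7K2_top

theorem subD7K3 {T : Tr} {x : Cell} (h : chk cfgD7K3 [] T x = true) : CellOK cfgD7K3 x :=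
  chk_sound (by decide) (by decide) (ext := []) (fun _ h => absurd h List.not_mem_nil) _ _ h

theorem certD7K3 : CellOK cfgD7K3 ⟨0, 4096, 0, 4096, -64, 64, -64, 64⟩ :=
  chk_sound (by decide) (by decide) (ext := xsD7K3)
   (List.forall_mem_cons.2 ⟨subD7K3 dD7K3_0, (List.forall_mem_cons.2 ⟨subD7K3 dD7K3_1, (List.forall_mem_cons.2 ⟨subD7K3 dD7K3_2, (List.forall_mem_cons.2 ⟨subD7K3 dD7K3_3, (List.forall_mem_cons.2 ⟨subD7K3 dD7K3_4, (List.forall_mem_cons.2 ⟨subD7K3 dD7K3_5, (List.forall_mem_cons.2 ⟨subD7K3 dD7K3_6, (List.forall_mem_cons.2 ⟨subD7K3 dD7K3_7, (fun _ h => absurd h List.not_mem_nil)⟩)⟩)⟩)⟩)⟩)⟩)⟩)⟩) _ _ dD7K3_top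

theorem subD7K4 {T : Tr} {x : Cell} (h : chk cfgD7K4 [] T x = true) : CellOK cfgD7K4 x :=
  chk_sound (by decide) (by decide) (ext := []) (fun _ h => absurd h List.not_mem_nil) _ _ h

theorem certD7K4 : CellOK cfgD7K4 ⟨0, 4096, 0, 4096, -64, 64, -64, 64⟩ :=
  chk_sound (by decide) (by decide) (ext := xsD7K4)
   (List.forall_mem_cons.2 ⟨subD7K4 dD7K4_0, (List.forall_mem_cons.2 ⟨subD7K4 dD7K4_1, (List.forall_mem_cons.2 ⟨subD7K4 dD7K4_2, (List.forall_mem_cons.2 ⟨subD7K4 dD7K4_3, (List.forall_mem_cons.2 ⟨subD7K4 dD7K4_4, (List.forall_mem_cons.2 ⟨subD7K4 dD7K4_5, (List.forall_mem_cons.2 ⟨subD7K4 dD7K4_6, (fun _ h => absurd h List.not_mem_nil)⟩)⟩)⟩)⟩)⟩)⟩)⟩) _ _ dD7K4_top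

theorem subD7K5 {T : Tr} {x : Cell} (h : chk cfgD7K5 [] T x = true) : CellOK cfgD7K5 x :=
  chk_sound (by decide) (by decide) (ext := []) (fun _ h => absurd h List.not_mem_nil) _ _ h

theorem certD7K5 : CellOK cfgD7K5 ⟨0, 4096, 0, 4096, -64, 64, -64, 64⟩ :=
  chk_sound (by decide) (by decide) (ext := xsD7K5)
   (List.forall_mem_cons.2 ⟨subD7K5 dD7K5_0, (List.forall_mem_cons.2 ⟨subD7K5 dD7K5_1, (List.forall_mem_cons.2 ⟨subD7K5 dD7K5_2, (List.forall_mem_cons.2 ⟨subD7K5 dD7K5_3, (List.forall_mem_cons.2 ⟨subD7K5 dD7K5_4, (List.forall_mem_cons.2 ⟨subD7K5 dD7K5_5, (fun _ h => absurd h List.not_mem_nil)⟩)⟩)⟩)⟩)⟩)⟩) _ _ dD7K5_top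

theorem subD7K6 {T : Tr} {x : Cell} (h : chk cfgD7K6 [] T x = true) : CellOK cfgD7K6 x :=
  chk_sound (by decide) (by decide) (ext := []) (fun _ h => absurd h List.not_mem_nil) _ _ h

theorem certD7K6 : CellOK cfgD7K6 ⟨0, 4096, 0, 4096, -64, 64, -64, 64⟩ :=
  chk_sound (by decide) (by decide) (ext := xsD7K6)
   (List.forall_mem_cons.2 ⟨subD7K6 dD7K6_0, (List.forall_mem_cons.2 ⟨subD7K6 dD7K6_1, (List.forall_mem_cons.2 ⟨subD7K6 dD7K6_2, (List.forall_mem_cons.2 ⟨subD7K6 dD7K6_3, (List.forall_mem_cons.2 ⟨subD7K6 dD7K6_4, (List.forall_mem_cons.2 ⟨subD7K6 dD7K6_5, (fun _ h => absurd h List.not_mem_nil)⟩)⟩)⟩)⟩)⟩)⟩) _ _ dD7K6_top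

theorem subD8K1 {T : Tr} {x : Cell} (h : chk cfgD8K1 [] T x = true) : CellOK cfgD8K1 x :=
  chk_sound (by decide) (by decide) (ext := []) (fun _ h => absurd h List.not_mem_nil) _ _ h

theorem certD8K1 : CellOK cfgD8K1 ⟨0, 4096, 0, 4096, -64, 64, -64, 64⟩ :=
  chk_sound (by decide) (by decide) (ext := xsD8K1)
   (List.forall_mem_cons.2 ⟨subD8K1 dD8K1_0, (List.forall_mem_cons.2 ⟨subD8K1 dD8K1_1, (List.forall_mem_cons.2 ⟨subD8K1 dD8K1_2, (List.forall_mem_cons.2 ⟨subD8K1 dD8K1_3, (List.forall_mem_cons.2 ⟨subD8K1 dD8K1_4, (List.forall_mem_cons.2 ⟨subD8K1 dD8K1_5, (List.forall_mem_cons.2 ⟨subD8K1 dD8K1_6, (List.forall_mem_cons.2 ⟨subD8K1 dD8K1_7, (List.forall_mem_cons.2 ⟨subD8K1 dD8K1_8, (List.forall_mem_cons.2 ⟨subD8K1 dD8K1_9, (List.forall_mem_cons.2 ⟨subD8K1 dD8K1_10, (List.forall_mem_cons.2 ⟨subD8K1 dD8K1_11, (List.forall_mem_cons.2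 ⟨subD8K1 dD8K1_12, (List.forall_mem_cons.2 ⟨subD8K1 dD8K1_13, (List.forall_mem_cons.2 ⟨subD8K1 dD8K1_14, (List.forall_mem_cons.2 ⟨subD8K1 dD8K1_15, (fun _ h => absurd h List.not_mem_nil)⟩)⟩)⟩)⟩)⟩)⟩)⟩)⟩)⟩)⟩)⟩)⟩)⟩)⟩)⟩)⟩) _ _ dD8K1_top

theorem subD8K2 {T : Tr} {x : Cell} (h : chk cfgD8K2 [] T x = true) : CellOK cfgD8K2 x :=
  chk_sound (by decide) (by decide) (ext := []) (fun _ h => absurd h List.not_mem_nil) _ _ h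

theorem certD8K2 : CellOK cfgD8K2 ⟨0, 4096, 0, 4096, -64, 64, -64, 64⟩ :=
  chk_sound (by decide) (by decide) (ext := xsD8K2)
   (List.forall_mem_cons.2 ⟨subD8K2 dD8K2_0, (List.forall_mem_cons.2 ⟨subD8K2 dD8K2_1, (List.forall_mem_cons.2 ⟨subD8K2 dD8K2_2, (List.forall_mem_cons.2 ⟨subD8K2 dD8K2_3, (List.forall_mem_cons.2 ⟨subD8K2 dD8K2_4, (List.forall_mem_cons.2 ⟨subD8K2 dD8K2_5, (List.forall_mem_cons.2 ⟨subD8K2 dD8K2_6, (List.forall_mem_cons.2 ⟨subD8K2 dD8K2_7, (List.forall_mem_cons.2 ⟨subD8K2 dD8K2_8, (List.forall_mem_cons.2 ⟨subD8K2 dD8K2_9, (List.forall_mem_cons.2 ⟨subD8K2 dD8K2_10, (List.forall_mem_cons.2 ⟨subD8K2 dD8K2_11, (List.forall_mem_cons.2 ⟨subD8K2 dD8K2_12, (List.forall_mem_cons.2 ⟨subD8K2 dD8K2_13, (List.forall_mem_cons.2 ⟨subD8K2 dD8K2_14, (List.forall_mem_cons.2 ⟨subD8K2 dD8K2_15, (List.forall_mem_cons.2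 ⟨subD8K2 dD8K2_16, (List.forall_mem_cons.2 ⟨subD8K2 dD8K2_17, (List.forall_mem_cons.2 ⟨subD8K2 dD8K2_18, (List.forall_mem_cons.2 ⟨subD8K2 dD8K2_19, (List.forall_mem_cons.2 ⟨subD8K2 dD8K2_20, (List.forall_mem_cons.2 ⟨subD8K2 dD8K2_21, (List.forall_mem_cons.2 ⟨subD8K2 dD8K2_22, (List.forall_mem_cons.2 ⟨subD8K2 dD8K2_23, (List.forall_mem_cons.2 ⟨subD8K2 dD8K2_24, (List.forall_mem_cons.2 ⟨subD8K2 dD8K2_25, (List.forall_mem_cons.2 ⟨subD8K2 dD8K2_26, (List.forall_mem_cons.2 ⟨subD8K2 dD8K2_27, (List.forall_mem_cons.2 ⟨subD8K2 dD8K2_28, (List.forall_mem_cons.2 ⟨subD8K2 dD8K2_29, (List.forall_mem_cons.2 ⟨subD8K2 dD8K2_30, (List.forall_mem_cons.2 ⟨subD8K2 dD8K2_31, (List.forall_mem_cons.2 ⟨subD8K2 dD8K2_32, (List.forall_mem_cons.2 ⟨subD8K2 dD8K2_33, (List.forall_mem_cons.2 ⟨subD8K2 dD8K2_34, (List.forall_mem_cons.2 ⟨subD8K2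 dD8K2_35, (List.forall_mem_cons.2 ⟨subD8K2 dD8K2_36, (List.forall_mem_cons.2 ⟨subD8K2 dD8K2_37, (fun _ h => absurd h List.not_mem_nil)⟩)⟩)⟩)⟩)⟩)⟩)⟩)⟩)⟩)⟩)⟩)⟩)⟩)⟩)⟩)⟩)⟩)⟩)⟩)⟩)⟩)⟩)⟩)⟩)⟩)⟩)⟩)⟩)⟩)⟩)⟩)⟩)⟩)⟩)⟩)⟩)⟩)⟩) _ _ dD8K2_top

theorem subD8K3 {T : Tr} {x : Cell} (h : chk cfgD8K3 [] T x = true) : CellOK cfgD8K3 x :=
  chk_sound (by decide) (by decide) (ext := []) (fun _ h => absurd h List.not_mem_nil) _ _ h

theorem certD8K3 : CellOK cfgD8K3 ⟨0, 4096, 0, 4096, -64, 64, -64, 64⟩ :=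
  chk_sound (by decide) (by decide) (ext := xsD8K3)
   (List.forall_mem_cons.2 ⟨subD8K3 dD8K3_0, (List.forall_mem_cons.2 ⟨subD8K3 dD8K3_1, (List.forall_mem_cons.2 ⟨subD8K3 dD8K3_2, (List.forall_mem_cons.2 ⟨subD8K3 dD8K3_3, (List.forall_mem_cons.2 ⟨subD8K3 dD8K3_4, (List.forall_mem_cons.2 ⟨subD8K3 dD8K3_5, (List.forall_mem_cons.2 ⟨subD8K3 dD8K3_6, (List.forall_mem_cons.2 ⟨subD8K3 dD8K3_7, (fun _ h => absurd h List.not_mem_nil)⟩)⟩)⟩)⟩)⟩)⟩)⟩)⟩) _ _ dD8K3_top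

theorem subD8K4 {T : Tr} {x : Cell} (h : chk cfgD8K4 [] T x = true) : CellOK cfgD8K4 x :=
  chk_sound (by decide) (by decide) (ext := []) (fun _ h => absurd h List.not_mem_nil) _ _ h

theorem certD8K4 : CellOK cfgD8K4 ⟨0, 4096, 0, 4096, -64, 64, -64, 64⟩ :=
  chk_sound (by decide) (by decide) (ext := xsD8K4)
   (List.forall_mem_cons.2 ⟨subD8K4 dD8K4_0, (List.forall_mem_cons.2 ⟨subD8K4 dD8K4_1, (List.forall_mem_cons.2 ⟨subD8K4 dD8K4_2, (List.forall_mem_cons.2 ⟨subD8K4 dD8K4_3, (List.forall_mem_cons.2 ⟨subD8K4 dD8K4_4, (List.forall_mem_cons.2 ⟨subD8K4 dD8K4_5, (List.forall_mem_cons.2 ⟨subD8K4 dD8K4_6, (fun _ h => absurd h List.not_mem_nil)⟩)⟩)⟩)⟩)⟩)⟩)⟩) _ _ dD8K4_top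

theorem subD8K5 {T : Tr} {x : Cell} (h : chk cfgD8K5 [] T x = true) : CellOK cfgD8K5 x :=
  chk_sound (by decide) (by decide) (ext := []) (fun _ h => absurd h List.not_mem_nil) _ _ h

theorem certD8K5 : CellOK cfgD8K5 ⟨0, 4096, 0, 4096, -64, 64, -64, 64⟩ :=
  chk_sound (by decide) (by decide) (ext := xsD8K5)
   (List.forall_mem_cons.2 ⟨subD8K5 dD8K5_0, (List.forall_mem_cons.2 ⟨subD8K5 dD8K5_1, (List.forall_mem_cons.2 ⟨subD8K5 dD8K5_2, (List.forall_mem_cons.2 ⟨subD8K5 dD8K5_3, (List.forall_mem_cons.2 ⟨subD8K5 dD8K5_4, (List.forall_mem_cons.2 ⟨subD8K5 dD8K5_5, (fun _ h => absurd h List.not_mem_nil)⟩)⟩)⟩)⟩)⟩)⟩) _ _ dD8K5_top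

theorem subD8K6 {T : Tr} {x : Cell} (h : chk cfgD8K6 [] T x = true) : CellOK cfgD8K6 x :=
  chk_sound (by decide) (by decide) (ext := []) (fun _ h => absurd h List.not_mem_nil) _ _ h

theorem certD8K6 : CellOK cfgD8K6 ⟨0, 4096, 0, 4096, -64, 64, -64, 64⟩ :=
  chk_sound (by decide) (by decide) (ext := xsD8K6)
   (List.forall_mem_cons.2 ⟨subD8K6 dD8K6_0, (List.forall_mem_cons.2 ⟨subD8K6 dD8K6_1, (List.forall_mem_cons.2 ⟨subD8K6 dD8K6_2, (List.forall_mem_cons.2 ⟨subD8K6 dD8K6_3, (List.forall_mem_cons.2 ⟨subD8K6 dD8K6_4, (List.forall_mem_cons.2 ⟨subD8K6 dD8K6_5, (fun _ h => absurd h List.not_mem_nil)⟩)⟩)⟩)⟩)⟩)⟩) _ _ dD8K6_top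

theorem subD8K7 {T : Tr} {x : Cell} (h : chk cfgD8K7 [] T x = true) : CellOK cfgD8K7 x :=
  chk_sound (by decide) (by decide) (ext := []) (fun _ h => absurd h List.not_mem_nil) _ _ h

theorem certD8K7 : CellOK cfgD8K7 ⟨0, 4096, 0, 4096, -64, 64, -64, 64⟩ :=
  chk_sound (by decide) (by decide) (ext := xsD8K7)
   (List.forall_mem_cons.2 ⟨subD8K7 dD8K7_0, (List.forall_mem_cons.2 ⟨subD8K7 dD8K7_1, (List.forall_mem_cons.2 ⟨subD8K7 dD8K7_2, (List.forall_mem_cons.2 ⟨subD8K7 dD8K7_3, (List.forall_mem_cons.2 ⟨subD8K7 dD8K7_4, (fun _ h => absurd h List.not_mem_nil)⟩)⟩)⟩)⟩)⟩) _ _ dD8K7_top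

theorem subStar {T : Tr} {x : Cell} (h : chk cfgStar [] T x = true) : CellOK cfgStar x :=
  chk_sound (by decide) (by decide) (ext := []) (fun _ h => absurd h List.not_mem_nil) _ _ h

theorem certStar : CellOK cfgStar ⟨0, 4096, 0, 4096, -64, 64, -64, 64⟩ :=
  chk_sound (by decide) (by decide) (ext := xsStar)
   (List.forall_mem_cons.2 ⟨subStar dStar_0, (List.forall_mem_cons.2 ⟨subStar dStar_1, (List.forall_mem_cons.2 ⟨subStar dStar_2, (List.forall_mem_cons.2 ⟨subStar dStar_3, (List.forall_mem_cons.2 ⟨subStar dStar_4, (List.forall_mem_cons.2 ⟨subStar dStar_5, (List.forall_mem_cons.2 ⟨subStar dStar_6, (List.forall_mem_cons.2 ⟨subStar dStar_7, (List.forall_mem_cons.2 ⟨subStar dStar_8, (List.forall_mem_cons.2 ⟨subStar dStar_9, (List.forall_mem_cons.2 ⟨subStar dStar_10, (List.forall_mem_cons.2 ⟨subStar dStar_11, (List.forall_mem_cons.2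 ⟨subStar dStar_12, (List.forall_mem_cons.2 ⟨subStar dStar_13, (List.forall_mem_cons.2 ⟨subStar dStar_14, (List.forall_mem_cons.2 ⟨subStar dStar_15, (List.forall_mem_cons.2 ⟨subStar dStar_16, (List.forall_mem_cons.2 ⟨subStar dStar_17, (fun _ h => absurd h List.not_mem_nil)⟩)⟩)⟩)⟩)⟩)⟩)⟩)⟩)⟩)⟩)⟩)⟩)⟩)⟩)⟩)⟩)⟩)⟩) _ _ dStar_top

end Vale.Agent.P154
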