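/-!
Definitions of the computation (no proofs): the homogenised polynomial program in straight-line
form, the certificate data and the checker.
-/

set_option linter.unusedVariables false

namespace Vale.Agent.P154

universe u

/-- integer coefficients of the inequality -/
structure Par where
  s0 : Int
  b1 : Int
  g1 : Int
  e1 : Int
  b2 : Int
  g2 : Int
  e2 : Int
  y1 : Int
  y2 : Int
  y3 : Int
  y4 : Int

def st48 {R : Type u} (ad sb ml : R → R → R) (c : Int → R) (p : Par) (ed Pi Q1 Q2 : R) : R :=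
  (sb Q1 (ml (ml Pi Q2) ed))

def st47 {R : Type u} (ad sb ml : R → R → R) (c : Int → R) (p : Par) (ed D H Eas D2 U2 U5 E4 Pi Q1 : R) : R :=
  st48 ad sb ml c p ed Pi Q1 (ad (ml D (ad (ml (c (((-2) * p.g1) + (4 * p.e1))) (ml (ml (ml U2 D2) H) Eas)) (ml (c ((2 * p.g1) - (6 * p.e1))) E4))) (ml (c p.e1) (ml (ml Pi U5) ed)))

def st46 {R : Type u} (ad sb ml : R → R → R) (c : Int → R) (p : Par) (ed D H Hed Eas D2 U2 U5 E1 E4 E3 Pi R0 : R) : R :=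
  st47 ad sb ml c p ed D H Eas D2 U2 U5 E4 Pi (ml (sb (ml (sb (ml D R0) (ml (c (((((-2) * p.s0) - (8 * p.b1)) + (10 * p.g1)) - (12 * p.e1))) (ml E1 (ml Hed Eas)))) D2) (ml (c (((4 * p.b1) - (6 * p.g1)) + (9 * p.e1))) E3)) D2)

def st45 {R : Type u} (ad sb ml : R → R → R) (c : Int → R) (p : Par) (ed D H Hed Eas D2 U2 U5 E1 E4 E3 Pi RA RB gs ha : R) : R :=
  st46 ad sb ml c p ed D H Hed Eas D2 U2 U5 E1 E4 E3 Pi (sb (ad (ml RA (ml gs gs)) (ml RB (ml ha ha))) (ml (c ((((2 * p.s0) + (4 * p.b1)) - (4 * p.g1)) + (4 * p.e1))) (ml (ml ha ha) (ml gs gs))))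

def st44 {R : Type u} (ad sb ml : R → R → R) (c : Int → R) (p : Par) (h ea ed D H Hed Eas D2 U2 U5 E1 E4 E3 Pi RA RB gs : R) : R :=
  st45 ad sb ml c p ed D H Hed Eas D2 U2 U5 E1 E4 E3 Pi RA RB gs (ml h ea)

def st43 {R : Type u} (ad sb ml : R → R → R) (c : Int → R) (p : Par) (h g ea es ed D H Hed Eas D2 U2 U5 E1 E4 E3 Pi RA RB : R) : R :=
  st44 ad sb ml c p h ea ed D H Hed Eas D2 U2 U5 E1 E4 E3 Pi RA RB (ml g es)

def st42 {R : Type u} (ad sb ml : R → R → R) (c : Int → R) (p : Par) (h g ea es ed B s D H Hed Eas D2 U2 U5 E1 E4 E3 Pi es2 RA : R) : R :=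
  st43 ad sb ml c p h g ea es ed D H Hed Eas D2 U2 U5 E1 E4 E3 Pi RA (ad (sb (ml (ad (ml (c p.y1) (ml B g)) (ml (c p.y2) (ml B B))) es2) (ml (c p.y3) (ml (ml B s) es))) (ml (c p.y4) (ml s s)))

def st41 {R : Type u} (ad sb ml : R → R → R) (c : Int → R) (p : Par) (h g ea es ed A B t s D H Hed Eas D2 U2 U5 E1 E4 E3 Pi ea2 es2 : R) : R :=
  st42 ad sb ml c p h g ea es ed B s D H Hed Eas D2 U2 U5 E1 E4 E3 Pi es2 (ad (sb (ml (ad (ml (c (2 * p.s0)) (ml A h)) (ml (c (4 * p.b2)) (ml A A))) ea2) (ml (c (2 * p.g2)) (ml (ml A t) ea))) (ml (c p.e2) (ml t t)))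

def st40 {R : Type u} (ad sb ml : R → R → R) (c : Int → R) (p : Par) (h g ea es ed A B t s D H Hed Eas D2 U2 U5 E1 E4 E3 Pi ea2 : R) : R :=
  st41 ad sb ml c p h g ea es ed A B t s D H Hed Eas D2 U2 U5 E1 E4 E3 Pi ea2 (ml es es)

def st39 {R : Type u} (ad sb ml : R → R → R) (c : Int → R) (p : Par) (h g ea es ed A B t s D H Hed Eas D2 U2 U5 E1 E4 E3 Pi : R) : R :=
  st40 ad sb ml c p h g ea es ed A B t s D H Hed Eas D2 U2 U5 E1 E4 E3 Pi (ml ea ea)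

def st38 {R : Type u} (ad sb ml : R → R → R) (c : Int → R) (p : Par) (h g ea es ed A B t s D H Hed Eas D2 U2 U5 E1 E4 E3 Pa Pb : R) : R :=
  st39 ad sb ml c p h g ea es ed A B t s D H Hed Eas D2 U2 U5 E1 E4 E3 (ml Pa Pb)

def st37 {R : Type u} (ad sb ml : R → R → R) (c : Int → R) (p : Par) (h g ea es ed A B t s D H Hed Eas D2 U2 U5 E1 E4 E3 Pa : R) : R :=
  st38 ad sb ml c p h g ea es ed A B t s D H Hed Eas D2 U2 U5 E1 E4 E3 Pa (ad (ml (sb g (ml (c 3) B)) es) s)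

def st36 {R : Type u} (ad sb ml : R → R → R) (c : Int → R) (p : Par) (h g ea es ed A B t s D H Hed Eas D2 U2 U5 E1 E4 E3 : R) : R :=
  st37 ad sb ml c p h g ea es ed A B t s D H Hed Eas D2 U2 U5 E1 E4 E3 (ad (ml (sb h (ml (c 3) A)) ea) t)

def st35 {R : Type u} (ad sb ml : R → R → R) (c : Int → R) (p : Par) (h g ea es ed A B t s D H ed2 Hed Eas K0 D2 U2 U3 U5 v3 w3 E1 E4 G1 G2 G3 : R) : R :=
  st36 ad sb ml c p h g ea es ed A B t s D H Hed Eas D2 U2 U5 E1 E4 (ad (sb (ml (ad (ad (ml (ml G1 D2) H) (ml (ml G2 D) Hed)) (ml G3 U3)) Eas) (ml (ml (c 2) (ml K0 (ad (ml v3 h) (ml w3 g)))) (ml Eas ed2))) (ml (ad (ml (ml s w3) ea) (ml (ml t v3) es)) (ml ed2 H)))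

def st34 {R : Type u} (ad sb ml : R → R → R) (c : Int → R) (p : Par) (h g ea es ed A B t s D H ed2 Hed Eas X ApB K0 D2 U2 U3 U5 v3 w3 E1 E4 X2 kap G1 G2 : R) : R :=
  st35 ad sb ml c p h g ea es ed A B t s D H ed2 Hed Eas K0 D2 U2 U3 U5 v3 w3 E1 E4 G1 G2 (ad (ml (ad (sb (ml K0 K0) (ml ApB H)) (sb (ml (c 4) (ml X ApB)) (ml X2 H))) (ml Eas ed)) (ml (c 2) (ml kap H)))

def st33 {R : Type u} (ad sb ml : R → R → R) (c : Int → R) (p : Par) (h g ea es ed A B t s D H ed2 Hed Eas X ApB K0 D2 U2 U3 U5 V2 v3 w3 E1 E4 X2 kap G1 : R) : R :=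
  st34 ad sb ml c p h g ea es ed A B t s D H ed2 Hed Eas X ApB K0 D2 U2 U3 U5 v3 w3 E1 E4 X2 kap G1 (ad (ml (c 2) V2) (ml (c 2) (ml (ml (sb (ad ApB X) K0) U2) Eas)))

def st32 {R : Type u} (ad sb ml : R → R → R) (c : Int → R) (p : Par) (h g ea es ed A B t s D H ed2 Hed Eas X Y ApB K0 D2 U2 U3 U5 gg V2 v3 w3 E1 E4 X2 kap : R) : R :=
  st33 ad sb ml c p h g ea es ed A B t s D H ed2 Hed Eas X ApB K0 D2 U2 U3 U5 V2 v3 w3 E1 E4 X2 kap (sb (sb (ml (ml (sb (ad H (ml (c 2) K0)) ApB) Y) (ml Eas ed)) (ml (ml D H) Eas)) (ml (c 2) (ml gg ed)))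

def st31 {R : Type u} (ad sb ml : R → R → R) (c : Int → R) (p : Par) (h g ea es ed A B t s D H ed2 Hed Eas X Y ApB K0 D2 U2 U3 U5 gg V2 v3 w3 E1 E4 X2 : R) : R :=
  st32 ad sb ml c p h g ea es ed A B t s D H ed2 Hed Eas X Y ApB K0 D2 U2 U3 U5 gg V2 v3 w3 E1 E4 X2 (ad (sb (ml (ml t s) ed) (ml D Eas)) (ml (ml (sb H (ml (c 3) X)) Eas) ed))

def st30 {R : Type u} (ad sb ml : R → R → R) (c : Int → R) (p : Par) (h g ea es ed A B t s D H ed2 Hed Eas X Y ApB K0 D2 U2 U3 U5 gg V2 v3 w3 E1 E4 : R) : R :=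
  st31 ad sb ml c p h g ea es ed A B t s D H ed2 Hed Eas X Y ApB K0 D2 U2 U3 U5 gg V2 v3 w3 E1 E4 (ml (c 2) X)

def st29 {R : Type u} (ad sb ml : R → R → R) (c : Int → R) (p : Par) (h g ea es ed A B t s D H ed2 Hed Eas X Y ApB K0 D2 U2 U3 U4 U5 gg V2 v3 w3 V4 E1 : R) : R :=
  st30 ad sb ml c p h g ea es ed A B t s D H ed2 Hed Eas X Y ApB K0 D2 U2 U3 U5 gg V2 v3 w3 E1 (sb (ml (ad (ml (sb (ml D2 U2) (ml D U3)) H) (ml (ml K0 U4) ed)) Eas) (ml V4 ed))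

def st28 {R : Type u} (ad sb ml : R → R → R) (c : Int → R) (p : Par) (h g ea es ed A B t s D H ed2 Hed Eas X Y ApB K0 D2 U2 U3 U4 U5 gg V2 v3 w3 V4 : R) : R :=
  st29 ad sb ml c p h g ea es ed A B t s D H ed2 Hed Eas X Y ApB K0 D2 U2 U3 U4 U5 gg V2 v3 w3 V4 (sb (ml (ml K0 Y) Eas) gg)

def st27 {R : Type u} (ad sb ml : R → R → R) (c : Int → R) (p : Par) (h g ea es ed A B t s D H ed2 Hed Eas X Y ApB K0 Y3 D2 YD U2 U3 U4 U5 gg ST V2 Bgq Agp v3 w3 : R) : R :=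
  st28 ad sb ml c p h g ea es ed A B t s D H ed2 Hed Eas X Y ApB K0 D2 U2 U3 U4 U5 gg V2 v3 w3 (ad (sb (ml (ml (sb gg (ml (c 3) (ml ST H))) H) D2) (ml (c 9) (ml (ml YD (ad (ad (ml (c 3) gg) Bgq) Agp)) Hed))) (ml (c 27) (ml (ml Y3 gg) ed2)))

def st26 {R : Type u} (ad sb ml : R → R → R) (c : Int → R) (p : Par) (h g ea es ed A B t s D H ed2 Hed Eas X Y ApB K0 Y2 Y3 D2 YD U2 U3 U4 U5 gq gg ST V2 Bgq Agp v3 : R) : R :=
  st27 ad sb ml c p h g ea es ed A B t s D H ed2 Hed Eas X Y ApB K0 Y3 D2 YD U2 U3 U4 U5 gg ST V2 Bgq Agp v3 (sb (ml (c 9) (ml (ml Y2 gq) ed)) (ml (ml (ad (ml (c 6) (ml gq g)) (ml (c 3) Agp)) D) h))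

def st25 {R : Type u} (ad sb ml : R → R → R) (c : Int → R) (p : Par) (h g ea es ed A B t s D H ed2 Hed Eas X Y ApB K0 Y2 Y3 D2 YD U2 U3 U4 U5 gp gq gg ST V2 Bgq Agp : R) : R :=
  st26 ad sb ml c p h g ea es ed A B t s D H ed2 Hed Eas X Y ApB K0 Y2 Y3 D2 YD U2 U3 U4 U5 gq gg ST V2 Bgq Agp (sb (ml (c 9) (ml (ml Y2 gp) ed)) (ml (ml (ad (ml (c 6) (ml gp h)) (ml (c 3) Bgq)) D) g))

def st24 {R : Type u} (ad sb ml : R → R → R) (c : Int → R) (p : Par) (h g ea es ed A B t s D H ed2 Hed Eas X Y ApB K0 Y2 Y3 D2 YD U2 U3 U4 U5 gp gq gg ST V2 Bgq : R) : R :=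
  st25 ad sb ml c p h g ea es ed A B t s D H ed2 Hed Eas X Y ApB K0 Y2 Y3 D2 YD U2 U3 U4 U5 gp gq gg ST V2 Bgq (ml A gp)

def st23 {R : Type u} (ad sb ml : R → R → R) (c : Int → R) (p : Par) (h g ea es ed A B t s D H ed2 Hed Eas X Y ApB K0 Y2 Y3 D2 YD U2 U3 U4 U5 gp gq gg ST V2 : R) : R :=
  st24 ad sb ml c p h g ea es ed A B t s D H ed2 Hed Eas X Y ApB K0 Y2 Y3 D2 YD U2 U3 U4 U5 gp gq gg ST V2 (ml B gq)

def st22 {R : Type u} (ad sb ml : R → R → R) (c : Int → R) (p : Par) (h g ea es ed A B t s D H ed2 Hed Eas X Y ApB K0 Y2 Y3 D2 YD U2 U3 U4 U5 gp gq gg ST : R) : R :=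
  st23 ad sb ml c p h g ea es ed A B t s D H ed2 Hed Eas X Y ApB K0 Y2 Y3 D2 YD U2 U3 U4 U5 gp gq gg ST (ad (ml (ml ST D) H) (ml (c 3) (ml (ml Y gg) ed)))

def st21 {R : Type u} (ad sb ml : R → R → R) (c : Int → R) (p : Par) (h g ea es ed A B t s D H ed2 Hed Eas X Y ApB K0 Y2 Y3 D2 YD U2 U3 U4 U5 As Bt gp gq gg : R) : R :=
  st22 ad sb ml c p h g ea es ed A B t s D H ed2 Hed Eas X Y ApB K0 Y2 Y3 D2 YD U2 U3 U4 U5 gp gq gg (ad (ml As ea) (ml Bt es))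

def st20 {R : Type u} (ad sb ml : R → R → R) (c : Int → R) (p : Par) (h g ea es ed A B t s D H ed2 Hed Eas X Y ApB K0 Y2 Y3 D2 YD U2 U3 U4 U5 As Bt gp gq : R) : R :=
  st21 ad sb ml c p h g ea es ed A B t s D H ed2 Hed Eas X Y ApB K0 Y2 Y3 D2 YD U2 U3 U4 U5 As Bt gp gq (ad (ml gp h) (ml gq g))

def st19 {R : Type u} (ad sb ml : R → R → R) (c : Int → R) (p : Par) (h g ea es ed A B t s D H ed2 Hed Eas X Y ApB K0 Y2 Y3 D2 YD U2 U3 U4 U5 As Bt gp : R) : R :=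
  st20 ad sb ml c p h g ea es ed A B t s D H ed2 Hed Eas X Y ApB K0 Y2 Y3 D2 YD U2 U3 U4 U5 As Bt gp (sb (ml (ml A As) ea) (ml (ml Bt h) es))

def st18 {R : Type u} (ad sb ml : R → R → R) (c : Int → R) (p : Par) (h g ea es ed A B t s D H ed2 Hed Eas X Y ApB K0 Y2 Y3 D2 YD U2 U3 U4 U5 As Bt : R) : R :=
  st19 ad sb ml c p h g ea es ed A B t s D H ed2 Hed Eas X Y ApB K0 Y2 Y3 D2 YD U2 U3 U4 U5 As Bt (sb (ml (ml B Bt) es) (ml (ml As g) ea))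

def st17 {R : Type u} (ad sb ml : R → R → R) (c : Int → R) (p : Par) (h g ea es ed A B t s D H ed2 Hed Eas X Y ApB K0 Y2 Y3 D2 YD U2 U3 U4 U5 As : R) : R :=
  st18 ad sb ml c p h g ea es ed A B t s D H ed2 Hed Eas X Y ApB K0 Y2 Y3 D2 YD U2 U3 U4 U5 As (ml B t)

def st16 {R : Type u} (ad sb ml : R → R → R) (c : Int → R) (p : Par) (h g ea es ed A B t s D H ed2 Hed Eas X Y ApB K0 Y2 Y3 D2 YD U2 U3 U4 U5 : R) : R :=
  st17 ad sb ml c p h g ea es ed A B t s D H ed2 Hed Eas X Y ApB K0 Y2 Y3 D2 YD U2 U3 U4 U5 (ml A s)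

def st15 {R : Type u} (ad sb ml : R → R → R) (c : Int → R) (p : Par) (h g ea es ed A B t s D H ed2 Hed Eas X Y ApB K0 Y2 Y3 D2 YD U2 U3 U4 : R) : R :=
  st16 ad sb ml c p h g ea es ed A B t s D H ed2 Hed Eas X Y ApB K0 Y2 Y3 D2 YD U2 U3 U4 (ad (sb (ml (sb (ml (ad (ml (c 15) Y2) (ml (c 45) (ml Y H))) Hed) (ml (c 5) (ml D (ml H H)))) D2) (ml (c 135) (ml (ml Y2 YD) (ml Hed ed)))) (ml (c 81) (ml (ml Y3 Y2) (ml ed2 ed))))

def st14 {R : Type u} (ad sb ml : R → R → R) (c : Int → R) (p : Par) (h g ea es ed A B t s D H ed2 Hed Eas X Y ApB K0 Y2 Y3 D2 YD U2 U3 : R) : R :=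
  st15 ad sb ml c p h g ea es ed A B t s D H ed2 Hed Eas X Y ApB K0 Y2 Y3 D2 YD U2 U3 (ad (sb (ml (ml (ad (ml (c 4) Y) (ml (c 6) H)) H) D2) (ml (c 36) (ml (ml Y YD) Hed))) (ml (c 27) (ml (ml Y2 Y2) ed2)))

def st13 {R : Type u} (ad sb ml : R → R → R) (c : Int → R) (p : Par) (h g ea es ed A B t s D H ed2 Hed Eas X Y ApB K0 Y2 Y3 D2 YD U2 : R) : R :=
  st14 ad sb ml c p h g ea es ed A B t s D H ed2 Hed Eas X Y ApB K0 Y2 Y3 D2 YD U2 (ad (ml H (sb D2 (ml (c 9) (ml YD ed)))) (ml (c 9) (ml Y3 ed2)))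

def st12 {R : Type u} (ad sb ml : R → R → R) (c : Int → R) (p : Par) (h g ea es ed A B t s D H ed2 Hed Eas X Y ApB K0 Y2 Y3 D2 YD : R) : R :=
  st13 ad sb ml c p h g ea es ed A B t s D H ed2 Hed Eas X Y ApB K0 Y2 Y3 D2 YD (sb (ml (c 3) (ml Y2 ed)) (ml (c 2) (ml D H)))

def st11 {R : Type u} (ad sb ml : R → R → R) (c : Int → R) (p : Par) (h g ea es ed A B t s D H ed2 Hed Eas X Y ApB K0 Y2 Y3 D2 : R) : R :=
  st12 ad sb ml c p h g ea es ed A B t s D H ed2 Hed Eas X Y ApB K0 Y2 Y3 D2 (ml Y D)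

def st10 {R : Type u} (ad sb ml : R → R → R) (c : Int → R) (p : Par) (h g ea es ed A B t s D H ed2 Hed Eas X Y ApB K0 Y2 Y3 : R) : R :=
  st11 ad sb ml c p h g ea es ed A B t s D H ed2 Hed Eas X Y ApB K0 Y2 Y3 (ml D D)

def st9 {R : Type u} (ad sb ml : R → R → R) (c : Int → R) (p : Par) (h g ea es ed A B t s D H ed2 Hed Eas X Y ApB K0 Y2 : R) : R :=
  st10 ad sb ml c p h g ea es ed A B t s D H ed2 Hed Eas X Y ApB K0 Y2 (ml Y2 Y)

def st8 {R : Type u} (ad sb ml : R → R → R) (c : Int → R) (p : Par) (h g ea es ed A B t s D H ed2 Hed Eas X Y ApB K0 : R) : R :=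
  st9 ad sb ml c p h g ea es ed A B t s D H ed2 Hed Eas X Y ApB K0 (ml Y Y)

def st7 {R : Type u} (ad sb ml : R → R → R) (c : Int → R) (p : Par) (h g ea es ed A B t s D H ed2 Hed Eas X Y ApB : R) : R :=
  st8 ad sb ml c p h g ea es ed A B t s D H ed2 Hed Eas X Y ApB (sb Y ApB)

def st6 {R : Type u} (ad sb ml : R → R → R) (c : Int → R) (p : Par) (h g ea es ed A B t s D H ed2 Hed Eas X Y : R) : R :=
  st7 ad sb ml c p h g ea es ed A B t s D H ed2 Hed Eas X Y (ad (ml A g) (ml B h))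

def st5 {R : Type u} (ad sb ml : R → R → R) (c : Int → R) (p : Par) (h g ea es ed A B t s D H ed2 Hed Eas X : R) : R :=
  st6 ad sb ml c p h g ea es ed A B t s D H ed2 Hed Eas X (sb H X)

def st4 {R : Type u} (ad sb ml : R → R → R) (c : Int → R) (p : Par) (h g ea es ed A B t s D H ed2 Hed Eas : R) : R :=
  st5 ad sb ml c p h g ea es ed A B t s D H ed2 Hed Eas (ml A B)

def st3 {R : Type u} (ad sb ml : R → R → R) (c : Int → R) (p : Par) (h g ea es ed A B t s D H ed2 Hed : R) : R :=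
  st4 ad sb ml c p h g ea es ed A B t s D H ed2 Hed (ml ea es)

def st2 {R : Type u} (ad sb ml : R → R → R) (c : Int → R) (p : Par) (h g ea es ed A B t s D H ed2 : R) : R :=
  st3 ad sb ml c p h g ea es ed A B t s D H ed2 (ml H ed)

def st1 {R : Type u} (ad sb ml : R → R → R) (c : Int → R) (p : Par) (h g ea es ed A B t s D H : R) : R :=
  st2 ad sb ml c p h g ea es ed A B t s D H (ml ed ed)

def st0 {R : Type u} (ad sb ml : R → R → R) (c : Int → R) (p : Par) (h g ea es ed A B t s D : R) : R :=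
  st1 ad sb ml c p h g ea es ed A B t s D (ml h g)

/-- the homogenised program -/
def psiH {R : Type u} (ad sb ml : R → R → R) (c : Int → R) (p : Par) (h g ea es ed A B t s D : R) : R :=
  st0 ad sb ml c p h g ea es ed A B t s D

/-- the data of one cell: scales, affine data for `A`, `B`, `tau`, `sigma`, `D` -/
structure Inp where
  sa : Int
  sc : Int
  st : Int
  ss : Int
  sd : Int
  a0 : Int
  a1 : Int
  c0 : Int
  c1 : Int
  t00 : Int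
  t01 : Int
  t10 : Int
  t11 : Int
  s00 : Int
  s01 : Int
  s10 : Int
  s11 : Int
  l00 : Int
  l10 : Int
  l01 : Int
  l11 : Int
  u00 : Int
  u10 : Int
  u01 : Int
  u11 : Int

section
variable {R : Type u} (ad sb ml : R → R → R) (c : Int → R)

/-- affine form `m + n x` -/
def aff (m n : Int) (x : R) : R := ad (c m) (ml (c n) x)

/-- the program applied to the cell data -/
def full (p : Par) (q : Inp) (x0 x1 x2 x3 x4 : R) : R :=
  psiH ad sb ml c p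
    (aff ad ml c q.sa q.sa x0) (aff ad ml c q.sc q.sc x1) (aff ad ml c q.st q.st x2)
    (aff ad ml c q.ss q.ss x3) (aff ad ml c q.sd q.sd x4)
    (aff ad ml c q.a0 q.a1 x0) (aff ad ml c q.c0 q.c1 x1)
    (ad (aff ad ml c q.t00 q.t01 x0) (ml (aff ad ml c q.t10 q.t11 x0) x2))
    (ad (aff ad ml c q.s00 q.s01 x1) (ml (aff ad ml c q.s10 q.s11 x1) x3))
    (ad (ad (aff ad ml c q.l00 q.l10 x0) (ml (aff ad ml c q.l01 q.l11 x0) x1))
      (ml (ad (aff ad ml c q.u00 q.u10 x0) (ml (aff ad ml c q.u01 q.u11 x0) x1)) x4))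

end


/-- the sign mask -/
def mask (K N : Nat) : Nat := (2 ^ (K * N) - 1) / (2 ^ K - 1) * 2 ^ (K - 1)


/-- constants of one inequality -/
structure Cfg where
  p : Par
  dA : Int
  dB : Int
  m1A : Int
  m0A : Int
  m1B : Int
  m0B : Int
  dm : Int

/-- a cell: ranges of `A` (unit `1/(4096 dA)`), `B` (unit `1/(4096 dB)`), and of the two cosines
(unit `1/64`) -/
structure Cell where
  A0 : Int
  A1 : Int
  C0 : Int
  C1 : Int
  P0 : Int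
  P1 : Int
  Q0 : Int
  Q1 : Int
  deriving DecidableEq

/-- leaf data -/
structure Lf where
  q : Inp
  ua0 : Int
  ua1 : Int
  qa : Int
  ub0 : Int
  ub1 : Int
  qb : Int
  fA : Bool
  fB : Bool
  fD : Bool
  gA : Bool
  gB : Bool
  nA : Int
  nB : Int
  nk : Int
  nh : Int
  K : Nat


/-- digit check -/
def kronOK (p : Par) (q : Inp) (K : Nat) : Bool :=
  match full Int.add Int.sub Int.mul (fun n : Int => n) p q (Int.ofNat (Nat.pow 2 K))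
      (Int.ofNat (Nat.pow 2 (Nat.mul K 8))) (Int.ofNat (Nat.pow 2 (Nat.mul K 64)))
      (Int.ofNat (Nat.pow 2 (Nat.mul K 192))) (Int.ofNat (Nat.pow 2 (Nat.mul K 576))) with
  | Int.ofNat V => Nat.beq (Nat.land V (mask K 3456)) 0 &&
      Nat.ble (Nat.succ (full Nat.add Nat.add Nat.mul Int.natAbs p q 1 1 1 1 1)) (Nat.pow 2 (Nat.sub K 1))
  | Int.negSucc _ => false


/-- leaf check: arithmetic conditions for one coordinate pair `(A, t)`.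
`sa, st` scales, `a0 a1` ends, `u0 u1` chord ends, `q` tangent, `(m1, m0)` linear bound,
`t00 t01` lower values, `t10 t11` upper values, `P0 P1` cosine range -/
def axOK (dA : Int) (m1 m0 : Int) (A0 A1 P0 P1 : Int) (sa st a0 a1 t00 t01 t10 t11 u0 u1 q : Int) (f : Bool) : Bool :=
  decide (0 < sa) && decide (0 < st) && decide (0 ≤ a0) && decide (0 ≤ a1) && decide (0 ≤ u0) &&
  decide (0 ≤ u1) && decide (0 ≤ q) &&
  decide (a0 * (4096 * dA) ≤ A0 * sa) && decide (A1 * sa ≤ a1 * (4096 * dA)) &&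
  decide (a0 * a0 * a0 * 1152921504606846976 ≤ u0 * u0 * (sa * sa * sa)) &&
  decide (a1 * a1 * a1 * 1152921504606846976 ≤ u1 * u1 * (sa * sa * sa)) &&
  (cond f
    (decide (t00 * 1048576 ≤ st * (m1 * a0 - m0 * sa)) && decide (t01 * 1048576 ≤ st * (m1 * a1 - m0 * sa)))
    (cond (decide (P0 ≤ 0))
      (decide (t00 * 34359738368 ≤ P0 * u0 * sa * st) && decide (t01 * 34359738368 ≤ P0 * u1 * sa * st))
      (decide (t00 * 68719476736 ≤ P0 * (3 * q * a0 * 1048576 - q * q * q * sa) * st) &&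
        decide (t01 * 68719476736 ≤ P0 * (3 * q * a1 * 1048576 - q * q * q * sa) * st)))) &&
  (cond (decide (0 ≤ P1))
      (decide (P1 * u0 * sa * st ≤ t10 * 34359738368) && decide (P1 * u1 * sa * st ≤ t11 * 34359738368))
      (decide (P1 * (3 * q * a0 * 1048576 - q * q * q * sa) * st ≤ t10 * 68719476736) &&
        decide (P1 * (3 * q * a1 * 1048576 - q * q * q * sa) * st ≤ t11 * 68719476736)))


/-- lower bound check for the cosine -/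
def cosLow (g : Bool) (m1 m0 P0 sa a0 a1 u0 u1 nA : Int) : Bool :=
  cond g (decide (0 ≤ nA) && decide (nA * u0 * sa ≤ 131072 * (m1 * a0 - m0 * sa)) &&
      decide (nA * u1 * sa ≤ 131072 * (m1 * a1 - m0 * sa)))
    (decide (nA ≤ 4 * P0))


/-- check of the lower bound `kappa ≥ 2 (nk/256) u_A u_B` -/
def kapOK (c : Cfg) (x : Cell) (f : Lf) : Bool :=
  decide (f.nk ≤ -256) ||
  (decide (-256 ≤ f.nA) && decide (-256 ≤ f.nB) && decide (0 ≤ f.nA + f.nB) &&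
    decide (256 * f.nk ≤ f.nA * f.nB) &&
    decide ((65536 - f.nA * f.nA) * (65536 - f.nB * f.nB) ≤ (f.nA * f.nB - 256 * f.nk) * (f.nA * f.nB - 256 * f.nk)) &&
    cosLow f.gA c.m1A c.m0A x.P0 f.q.sa f.q.a0 f.q.a1 f.ua0 f.ua1 f.nA &&
    cosLow f.gB c.m1B c.m0B x.Q0 f.q.sc f.q.c0 f.q.c1 f.ub0 f.ub1 f.nB) ||
  (decide (x.P1 ≤ 64) && decide (x.Q1 ≤ 64) && decide (x.P1 + x.Q1 ≤ 0) &&
    decide (16 * f.nk ≤ x.P1 * x.Q1) && decide ((4096 - x.P1 * x.P1) * (4096 - x.Q1 * x.Q1) ≤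
      (x.P1 * x.Q1 - 16 * f.nk) * (x.P1 * x.Q1 - 16 * f.nk)))

/-- check of the upper bound `kappa ≤ 2 (nh/256) u_A u_B` -/
def kapHi (c : Cfg) (x : Cell) (f : Lf) : Bool :=
  decide (256 ≤ f.nh) ||
  (decide (-256 ≤ f.nA) && decide (x.Q1 ≤ 64) && decide (4 * x.Q1 ≤ f.nA) &&
    decide (f.nA * x.Q1 ≤ 64 * f.nh) &&
    decide ((65536 - f.nA * f.nA) * (65536 - 16 * x.Q1 * x.Q1) ≤ (256 * f.nh - 4 * f.nA * x.Q1) * (256 * f.nh - 4 * f.nA * x.Q1)) &&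
    cosLow f.gA c.m1A c.m0A x.P0 f.q.sa f.q.a0 f.q.a1 f.ua0 f.ua1 f.nA) ||
  (decide (-256 ≤ f.nB) && decide (x.P1 ≤ 64) && decide (4 * x.P1 ≤ f.nB) &&
    decide (f.nB * x.P1 ≤ 64 * f.nh) &&
    decide ((65536 - f.nB * f.nB) * (65536 - 16 * x.P1 * x.P1) ≤ (256 * f.nh - 4 * f.nB * x.P1) * (256 * f.nh - 4 * f.nB * x.P1)) &&
    cosLow f.gB c.m1B c.m0B x.Q0 f.q.sc f.q.c0 f.q.c1 f.ub0 f.ub1 f.nB)

/-- tangent value -/
def tgv (q a s : Int) : Int := 3 * q * a * 1048576 - q * q * q * s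

/-- lower bound of `D` at a corner, three ways -/
def dlow (c : Cfg) (f : Lf) (a u v b u' v' l : Int) : Bool :=
  cond f.fD (decide (l * 1048576 ≤ c.dm * (f.q.sa * f.q.sc * f.q.sd)))
    (cond (decide (f.nk ≤ 0))
      (decide (l * 147573952589676412928 ≤ f.q.sd * (147573952589676412928 * (f.q.sa * f.q.sc - 3 * a * b) +
        f.nk * u * u' * (f.q.sa * f.q.sc))))
      (decide (0 ≤ v) && decide (0 ≤ v') &&
        decide (l * 590295810358705651712 ≤ f.q.sd * (590295810358705651712 * (f.q.sa * f.q.sc - 3 * a * b) +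
          f.nk * v * v'))))

/-- upper bound of `D` at a corner -/
def dupp (f : Lf) (a u v b u' v' l : Int) : Bool :=
  cond (decide (0 ≤ f.nh))
    (decide (f.q.sd * (147573952589676412928 * (f.q.sa * f.q.sc - 3 * a * b) + f.nh * u * u' * (f.q.sa * f.q.sc)) ≤
      l * 147573952589676412928))
    (decide (0 ≤ v) && decide (0 ≤ v') &&
      decide (f.q.sd * (590295810358705651712 * (f.q.sa * f.q.sc - 3 * a * b) + f.nh * v * v') ≤
        l * 590295810358705651712))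

/-- the complete check of a leaf -/
def leafOK (c : Cfg) (x : Cell) (f : Lf) : Bool :=
  axOK c.dA c.m1A c.m0A x.A0 x.A1 x.P0 x.P1 f.q.sa f.q.st f.q.a0 f.q.a1 f.q.t00 f.q.t01 f.q.t10 f.q.t11
    f.ua0 f.ua1 f.qa f.fA &&
  axOK c.dB c.m1B c.m0B x.C0 x.C1 x.Q0 x.Q1 f.q.sc f.q.ss f.q.c0 f.q.c1 f.q.s00 f.q.s01 f.q.s10 f.q.s11
    f.ub0 f.ub1 f.qb f.fB &&
  decide (0 < f.q.sd) && (f.fD || kapOK c x f) &&
  (dlow c f f.q.a0 f.ua0 (tgv f.qa f.q.a0 f.q.sa) f.q.c0 f.ub0 (tgv f.qb f.q.c0 f.q.sc) f.q.l00 &&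
   dlow c f f.q.a1 f.ua1 (tgv f.qa f.q.a1 f.q.sa) f.q.c0 f.ub0 (tgv f.qb f.q.c0 f.q.sc) f.q.l10 &&
   dlow c f f.q.a0 f.ua0 (tgv f.qa f.q.a0 f.q.sa) f.q.c1 f.ub1 (tgv f.qb f.q.c1 f.q.sc) f.q.l01 &&
   dlow c f f.q.a1 f.ua1 (tgv f.qa f.q.a1 f.q.sa) f.q.c1 f.ub1 (tgv f.qb f.q.c1 f.q.sc) f.q.l11) &&
  kapHi c x f &&
  (dupp f f.q.a0 f.ua0 (tgv f.qa f.q.a0 f.q.sa) f.q.c0 f.ub0 (tgv f.qb f.q.c0 f.q.sc) f.q.u00 &&
   dupp f f.q.a1 f.ua1 (tgv f.qa f.q.a1 f.q.sa) f.q.c0 f.ub0 (tgv f.qb f.q.c0 f.q.sc) f.q.u10 &&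
   dupp f f.q.a0 f.ua0 (tgv f.qa f.q.a0 f.q.sa) f.q.c1 f.ub1 (tgv f.qb f.q.c1 f.q.sc) f.q.u01 &&
   dupp f f.q.a1 f.ua1 (tgv f.qa f.q.a1 f.q.sa) f.q.c1 f.ub1 (tgv f.qb f.q.c1 f.q.sc) f.q.u11) &&
  (Nat.ble 1 f.K && kronOK c.p f.q f.K)


/-- certificate trees -/
inductive Tr where
  | lf (f : Lf) : Tr
  | skA (a0 a1 sa u0 u1 : Int) : Tr
  | skB (a0 a1 sa u0 u1 : Int) : Tr
  | spA (a : Int) (l r : Tr) : Tr
  | spC (a : Int) (l r : Tr) : Tr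
  | spP (a : Int) (l r : Tr) : Tr
  | spQ (a : Int) (l r : Tr) : Tr
  | ext : Tr

/-- check that a cell is empty, from the linear lower bound -/
def skipOK (dA : Int) (m1 m0 : Int) (A0 A1 P1 : Int) (a0 a1 sa u0 u1 : Int) : Bool :=
  decide (0 < sa) && decide (0 ≤ a0) && decide (0 ≤ a1) && decide (0 ≤ u0) &&
  decide (0 ≤ u1) &&
  decide (a0 * (4096 * dA) ≤ A0 * sa) && decide (A1 * sa ≤ a1 * (4096 * dA)) &&
  decide (a0 * a0 * a0 * 1152921504606846976 ≤ u0 * u0 * (sa * sa * sa)) &&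
  decide (a1 * a1 * a1 * 1152921504606846976 ≤ u1 * u1 * (sa * sa * sa)) &&
  (cond (decide (0 ≤ P1)) (decide (P1 * u0 * sa < 32768 * (m1 * a0 - m0 * sa)) && decide (P1 * u1 * sa < 32768 * (m1 * a1 - m0 * sa)))
   (decide (0 < m1 * a0 - m0 * sa) && decide (0 < m1 * a1 - m0 * sa)))

/-- the checker -/
def chk (c : Cfg) (ext : List Cell) : Tr → Cell → Bool
  | .lf f, x => leafOK c x f
  | .skA a0 a1 sa u0 u1, x => skipOK c.dA c.m1A c.m0A x.A0 x.A1 x.P1 a0 a1 sa u0 u1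
  | .skB a0 a1 sa u0 u1, x => skipOK c.dB c.m1B c.m0B x.C0 x.C1 x.Q1 a0 a1 sa u0 u1
  | .spA a l r, x => chk c ext l { x with A1 := a } && chk c ext r { x with A0 := a }
  | .spC a l r, x => chk c ext l { x with C1 := a } && chk c ext r { x with C0 := a }
  | .spP a l r, x => chk c ext l { x with P1 := a } && chk c ext r { x with P0 := a }
  | .spQ a l r, x => chk c ext l { x with Q1 := a } && chk c ext r { x with Q0 := a }
  | .ext, x => decide (x ∈ ext)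


end Vale.Agent.P154
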