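import Vale.Agent.P154.Prog

/-!
Degree bounds for the majorant of the program.
-/

set_option linter.unusedVariables false

namespace Vale.Agent.P154

open MvPolynomial

abbrev PN := MvPolynomial (Fin 5) ℕ

/-- degree bounds in the five variables -/
structure DL (q : PN) (a b c d e : ℕ) : Prop where
  a : degreeOf 0 q ≤ a
  b : degreeOf 1 q ≤ b
  c : degreeOf 2 q ≤ c
  d : degreeOf 3 q ≤ d
  e : degreeOf 4 q ≤ e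

theorem dl_add {p q : PN} {a b c d e : ℕ} (h : DL p a b c d e) (h' : DL q a b c d e) : DL (p + q) a b c d e :=
  ⟨(degreeOf_add_le _ _ _).trans (max_le h.a h'.a), (degreeOf_add_le _ _ _).trans (max_le h.b h'.b),
    (degreeOf_add_le _ _ _).trans (max_le h.c h'.c), (degreeOf_add_le _ _ _).trans (max_le h.d h'.d),
    (degreeOf_add_le _ _ _).trans (max_le h.e h'.e)⟩

theorem dl_mul {p q : PN} {a b c d e a' b' c' d' e' : ℕ} (h : DL p a b c d e) (h' : DL q a' b' c' d' e') :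
    DL (p * q) (a + a') (b + b') (c + c') (d + d') (e + e') :=
  ⟨(degreeOf_mul_le _ _ _).trans (add_le_add h.a h'.a), (degreeOf_mul_le _ _ _).trans (add_le_add h.b h'.b),
    (degreeOf_mul_le _ _ _).trans (add_le_add h.c h'.c), (degreeOf_mul_le _ _ _).trans (add_le_add h.d h'.d),
    (degreeOf_mul_le _ _ _).trans (add_le_add h.e h'.e)⟩

theorem dl_c (n : ℤ) : DL (C n.natAbs) 0 0 0 0 0 :=
  ⟨(degreeOf_C _ _).le, (degreeOf_C _ _).le, (degreeOf_C _ _).le, (degreeOf_C _ _).le, (degreeOf_C _ _).le⟩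

theorem st48_deg (p : Par) {ed : PN} (hed : DL ed 0 0 0 0 1) {Pi : PN} (hPi : DL Pi 1 1 1 1 0) {Q1 : PN} (hQ1 : DL Q1 7 7 2 2 5) {Q2 : PN} (hQ2 : DL Q2 6 6 1 1 4) :
    DL (st48 (· + ·) (· + ·) (· * ·) (fun n : ℤ => (C n.natAbs : PN)) p ed Pi Q1 Q2) 7 7 2 2 5 :=
  (dl_add hQ1 (show DL _ 7 7 2 2 5 from dl_mul (show DL _ 7 7 2 2 4 from dl_mul hPi hQ2) hed))

theorem st47_deg (p : Par) {ed : PN} (hed : DL ed 0 0 0 0 1) {D : PN} (hD : DL D 1 1 0 0 1) {H : PN} (hH : DL H 1 1 0 0 0) {Eas : PN} (hEas : DL Eas 0 0 1 1 0) {D2 : PN} (hD2 : DL D2 2 2 0 0 2) {U2 : PN} (hU2 : DL U2 2 2 0 0 1) {U5 : PN} (hU5 : DL U5 5 5 0 0 3) {E4 : PN} (hE4 : DL E4 5 5 1 1 3) {Pi : PN} (hPi : DL Pi 1 1 1 1 0) {Q1 : PN} (hQ1 : DL Q1 7 7 2 2 5) :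
    DL (st47 (· + ·) (· + ·) (· * ·) (fun n : ℤ => (C n.natAbs : PN)) p ed D H Eas D2 U2 U5 E4 Pi Q1) 7 7 2 2 5 :=
  st48_deg p hed hPi hQ1 (dl_add (show DL _ 6 6 1 1 4 from dl_mul hD (dl_add (show DL _ 5 5 1 1 3 from dl_mul (dl_c _) (show DL _ 5 5 1 1 3 from dl_mul (show DL _ 5 5 0 0 3 from dl_mul (show DL _ 4 4 0 0 3 from dl_mul hU2 hD2) hH) hEas)) (show DL _ 5 5 1 1 3 from dl_mul (dl_c _) hE4))) (show DL _ 6 6 1 1 4 from dl_mul (dl_c _) (show DL _ 6 6 1 1 4 from dl_mul (show DL _ 6 6 1 1 3 from dl_mul hPi hU5) hed)))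

theorem st46_deg (p : Par) {ed : PN} (hed : DL ed 0 0 0 0 1) {D : PN} (hD : DL D 1 1 0 0 1) {H : PN} (hH : DL H 1 1 0 0 0) {Hed : PN} (hHed : DL Hed 1 1 0 0 1) {Eas : PN} (hEas : DL Eas 0 0 1 1 0) {D2 : PN} (hD2 : DL D2 2 2 0 0 2) {U2 : PN} (hU2 : DL U2 2 2 0 0 1) {U5 : PN} (hU5 : DL U5 5 5 0 0 3) {E1 : PN} (hE1 : DL E1 2 2 1 1 0) {E4 : PN} (hE4 : DL E4 5 5 1 1 3) {E3 : PN} (hE3 : DL E3 5 5 2 2 3) {Pi : PN} (hPi : DL Pi 1 1 1 1 0) {R0 : PN} (hR0 : DL R0 2 2 2 2 0) :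
    DL (st46 (· + ·) (· + ·) (· * ·) (fun n : ℤ => (C n.natAbs : PN)) p ed D H Hed Eas D2 U2 U5 E1 E4 E3 Pi R0) 7 7 2 2 5 :=
  st47_deg p hed hD hH hEas hD2 hU2 hU5 hE4 hPi (show DL _ 7 7 2 2 5 from dl_mul (dl_add (show DL _ 5 5 2 2 3 from dl_mul (dl_add (show DL _ 3 3 2 2 1 from dl_mul hD hR0) (show DL _ 3 3 2 2 1 from dl_mul (dl_c _) (show DL _ 3 3 2 2 1 from dl_mul hE1 (show DL _ 1 1 1 1 1 from dl_mul hHed hEas)))) hD2) (show DL _ 5 5 2 2 3 from dl_mul (dl_c _) hE3)) hD2)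

theorem st45_deg (p : Par) {ed : PN} (hed : DL ed 0 0 0 0 1) {D : PN} (hD : DL D 1 1 0 0 1) {H : PN} (hH : DL H 1 1 0 0 0) {Hed : PN} (hHed : DL Hed 1 1 0 0 1) {Eas : PN} (hEas : DL Eas 0 0 1 1 0) {D2 : PN} (hD2 : DL D2 2 2 0 0 2) {U2 : PN} (hU2 : DL U2 2 2 0 0 1) {U5 : PN} (hU5 : DL U5 5 5 0 0 3) {E1 : PN} (hE1 : DL E1 2 2 1 1 0) {E4 : PN} (hE4 : DL E4 5 5 1 1 3) {E3 : PN} (hE3 : DL E3 5 5 2 2 3) {Pi : PN} (hPi : DL Pi 1 1 1 1 0) {RA : PN} (hRA : DL RA 2 0 2 0 0) {RB : PN} (hRB : DL RB 0 2 0 2 0) {gs : PN} (hgs : DL gs 0 1 0 1 0) {ha : PN} (hha : DL ha 1 0 1 0 0) :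
    DL (st45 (· + ·) (· + ·) (· * ·) (fun n : ℤ => (C n.natAbs : PN)) p ed D H Hed Eas D2 U2 U5 E1 E4 E3 Pi RA RB gs ha) 7 7 2 2 5 :=
  st46_deg p hed hD hH hHed hEas hD2 hU2 hU5 hE1 hE4 hE3 hPi (dl_add (dl_add (show DL _ 2 2 2 2 0 from dl_mul hRA (show DL _ 0 2 0 2 0 from dl_mul hgs hgs)) (show DL _ 2 2 2 2 0 from dl_mul hRB (show DL _ 2 0 2 0 0 from dl_mul hha hha))) (show DL _ 2 2 2 2 0 from dl_mul (dl_c _) (show DL _ 2 2 2 2 0 from dl_mul (show DL _ 2 0 2 0 0 from dl_mul hha hha) (show DL _ 0 2 0 2 0 from dl_mul hgs hgs))))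

theorem st44_deg (p : Par) {h : PN} (hh : DL h 1 0 0 0 0) {ea : PN} (hea : DL ea 0 0 1 0 0) {ed : PN} (hed : DL ed 0 0 0 0 1) {D : PN} (hD : DL D 1 1 0 0 1) {H : PN} (hH : DL H 1 1 0 0 0) {Hed : PN} (hHed : DL Hed 1 1 0 0 1) {Eas : PN} (hEas : DL Eas 0 0 1 1 0) {D2 : PN} (hD2 : DL D2 2 2 0 0 2) {U2 : PN} (hU2 : DL U2 2 2 0 0 1) {U5 : PN} (hU5 : DL U5 5 5 0 0 3) {E1 : PN} (hE1 : DL E1 2 2 1 1 0) {E4 : PN} (hE4 : DL E4 5 5 1 1 3) {E3 : PN} (hE3 : DL E3 5 5 2 2 3) {Pi : PN} (hPi : DL Pi 1 1 1 1 0) {RA : PN} (hRA : DL RA 2 0 2 0 0) {RB : PN} (hRB : DL RB 0 2 0 2 0) {gs : PN} (hgs : DL gs 0 1 0 1 0) :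
    DL (st44 (· + ·) (· + ·) (· * ·) (fun n : ℤ => (C n.natAbs : PN)) p h ea ed D H Hed Eas D2 U2 U5 E1 E4 E3 Pi RA RB gs) 7 7 2 2 5 :=
  st45_deg p hed hD hH hHed hEas hD2 hU2 hU5 hE1 hE4 hE3 hPi hRA hRB hgs (show DL _ 1 0 1 0 0 from dl_mul hh hea)

theorem st43_deg (p : Par) {h : PN} (hh : DL h 1 0 0 0 0) {g : PN} (hg : DL g 0 1 0 0 0) {ea : PN} (hea : DL ea 0 0 1 0 0) {es : PN} (hes : DL es 0 0 0 1 0) {ed : PN} (hed : DL ed 0 0 0 0 1) {D : PN} (hD : DL D 1 1 0 0 1) {H : PN} (hH : DL H 1 1 0 0 0) {Hed : PN} (hHed : DL Hed 1 1 0 0 1) {Eas : PN} (hEas : DL Eas 0 0 1 1 0) {D2 : PN} (hD2 : DL D2 2 2 0 0 2) {U2 : PN} (hU2 : DL U2 2 2 0 0 1) {U5 : PN} (hU5 : DL U5 5 5 0 0 3) {E1 : PN} (hE1 : DL E1 2 2 1 1 0) {E4 : PN} (hE4 : DL E4 5 5 1 1 3) {E3 : PN} (hE3 : DL E3 5 5 2 2 3) {Pi :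 PN} (hPi : DL Pi 1 1 1 1 0) {RA : PN} (hRA : DL RA 2 0 2 0 0) {RB : PN} (hRB : DL RB 0 2 0 2 0) :
    DL (st43 (· + ·) (· + ·) (· * ·) (fun n : ℤ => (C n.natAbs : PN)) p h g ea es ed D H Hed Eas D2 U2 U5 E1 E4 E3 Pi RA RB) 7 7 2 2 5 :=
  st44_deg p hh hea hed hD hH hHed hEas hD2 hU2 hU5 hE1 hE4 hE3 hPi hRA hRB (show DL _ 0 1 0 1 0 from dl_mul hg hes)

theorem st42_deg (p : Par) {h : PN} (hh : DL h 1 0 0 0 0) {g : PN} (hg : DL g 0 1 0 0 0) {ea : PN} (hea : DL ea 0 0 1 0 0) {es : PN} (hes : DL es 0 0 0 1 0) {ed : PN} (hed : DL ed 0 0 0 0 1) {B : PN} (hB : DL B 0 1 0 0 0) {s : PN} (hs : DL s 0 1 0 1 0) {D : PN} (hD : DL D 1 1 0 0 1) {H : PN} (hH : DL H 1 1 0 0 0) {Hed : PN} (hHed : DL Hed 1 1 0 0 1) {Eas : PN} (hEas : DL Eas 0 0 1 1 0) {D2 : PN} (hD2 : DL D2 2 2 0 0 2) {U2 : PN}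 (hU2 : DL U2 2 2 0 0 1) {U5 : PN} (hU5 : DL U5 5 5 0 0 3) {E1 : PN} (hE1 : DL E1 2 2 1 1 0) {E4 : PN} (hE4 : DL E4 5 5 1 1 3) {E3 : PN} (hE3 : DL E3 5 5 2 2 3) {Pi : PN} (hPi : DL Pi 1 1 1 1 0) {es2 : PN} (hes2 : DL es2 0 0 0 2 0) {RA : PN} (hRA : DL RA 2 0 2 0 0) :
    DL (st42 (· + ·) (· + ·) (· * ·) (fun n : ℤ => (C n.natAbs : PN)) p h g ea es ed B s D H Hed Eas D2 U2 U5 E1 E4 E3 Pi es2 RA) 7 7 2 2 5 :=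
  st43_deg p hh hg hea hes hed hD hH hHed hEas hD2 hU2 hU5 hE1 hE4 hE3 hPi hRA (dl_add (dl_add (show DL _ 0 2 0 2 0 from dl_mul (dl_add (show DL _ 0 2 0 0 0 from dl_mul (dl_c _) (show DL _ 0 2 0 0 0 from dl_mul hB hg)) (show DL _ 0 2 0 0 0 from dl_mul (dl_c _) (show DL _ 0 2 0 0 0 from dl_mul hB hB))) hes2) (show DL _ 0 2 0 2 0 from dl_mul (dl_c _) (show DL _ 0 2 0 2 0 from dl_mul (show DL _ 0 2 0 1 0 from dl_mul hB hs) hes))) (show DL _ 0 2 0 2 0 from dl_mul (dl_c _) (show DL _ 0 2 0 2 0 from dl_mul hs hs)))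

theorem st41_deg (p : Par) {h : PN} (hh : DL h 1 0 0 0 0) {g : PN} (hg : DL g 0 1 0 0 0) {ea : PN} (hea : DL ea 0 0 1 0 0) {es : PN} (hes : DL es 0 0 0 1 0) {ed : PN} (hed : DL ed 0 0 0 0 1) {A : PN} (hA : DL A 1 0 0 0 0) {B : PN} (hB : DL B 0 1 0 0 0) {t : PN} (ht : DL t 1 0 1 0 0) {s : PN} (hs : DL s 0 1 0 1 0) {D : PN} (hD : DL D 1 1 0 0 1) {H : PN} (hH : DL H 1 1 0 0 0) {Hed : PN} (hHed : DL Hed 1 1 0 0 1) {Eas : PN} (hEas : DL Eas 0 0 1 1 0) {D2 : PN} (hD2 : DL D2 2 2 0 0 2) {U2 : PN} (hU2 : DL U2 2 2 0 0 1) {U5 : PN} (hU5 : DL U5 5 5 0 0 3) {E1 : PN} (hE1 : DL E1 2 2 1 1 0) {E4 : PN} (hE4 : DL E4 5 5 1 1 3) {E3 : PN} (hE3 : DL E3 5 5 2 2 3) {Pi : PN} (hPi : DL Pi 1 1 1 1 0) {ea2 : PN} (hea2 : DL ea2 0 0 2 0 0) {es2 : PN} (hes2 : DL es2 0 0 0 2 0) :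
    DL (st41 (· + ·) (· + ·) (· * ·) (fun n : ℤ => (C n.natAbs : PN)) p h g ea es ed A B t s D H Hed Eas D2 U2 U5 E1 E4 E3 Pi ea2 es2) 7 7 2 2 5 :=
  st42_deg p hh hg hea hes hed hB hs hD hH hHed hEas hD2 hU2 hU5 hE1 hE4 hE3 hPi hes2 (dl_add (dl_add (show DL _ 2 0 2 0 0 from dl_mul (dl_add (show DL _ 2 0 0 0 0 from dl_mul (dl_c _) (show DL _ 2 0 0 0 0 from dl_mul hA hh)) (show DL _ 2 0 0 0 0 from dl_mul (dl_c _) (show DL _ 2 0 0 0 0 from dl_mul hA hA))) hea2) (show DL _ 2 0 2 0 0 from dl_mul (dl_c _) (show DL _ 2 0 2 0 0 from dl_mul (show DL _ 2 0 1 0 0 from dl_mul hA ht) hea))) (show DL _ 2 0 2 0 0 from dl_mul (dl_c _) (show DL _ 2 0 2 0 0 from dl_mul ht ht)))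

theorem st40_deg (p : Par) {h : PN} (hh : DL h 1 0 0 0 0) {g : PN} (hg : DL g 0 1 0 0 0) {ea : PN} (hea : DL ea 0 0 1 0 0) {es : PN} (hes : DL es 0 0 0 1 0) {ed : PN} (hed : DL ed 0 0 0 0 1) {A : PN} (hA : DL A 1 0 0 0 0) {B : PN} (hB : DL B 0 1 0 0 0) {t : PN} (ht : DL t 1 0 1 0 0) {s : PN} (hs : DL s 0 1 0 1 0) {D : PN} (hD : DL D 1 1 0 0 1) {H : PN} (hH : DL H 1 1 0 0 0) {Hed : PN} (hHed : DL Hed 1 1 0 0 1) {Eas : PN} (hEas : DL Eas 0 0 1 1 0) {D2 : PN} (hD2 : DL D2 2 2 0 0 2) {U2 : PN} (hU2 : DL U2 2 2 0 0 1) {U5 : PN} (hU5 : DL U5 5 5 0 0 3) {E1 : PN} (hE1 : DL E1 2 2 1 1 0) {E4 : PN} (hE4 : DL E4 5 5 1 1 3) {E3 : PN} (hE3 : DL E3 5 5 2 2 3) {Pi : PN} (hPi : DL Pi 1 1 1 1 0) {ea2 : PN} (hea2 : DL ea2 0 0 2 0 0) :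
    DL (st40 (· + ·) (· + ·) (· * ·) (fun n : ℤ => (C n.natAbs : PN)) p h g ea es ed A B t s D H Hed Eas D2 U2 U5 E1 E4 E3 Pi ea2) 7 7 2 2 5 :=
  st41_deg p hh hg hea hes hed hA hB ht hs hD hH hHed hEas hD2 hU2 hU5 hE1 hE4 hE3 hPi hea2 (show DL _ 0 0 0 2 0 from dl_mul hes hes)

theorem st39_deg (p : Par) {h : PN} (hh : DL h 1 0 0 0 0) {g : PN} (hg : DL g 0 1 0 0 0) {ea : PN} (hea : DL ea 0 0 1 0 0) {es : PN} (hes : DL es 0 0 0 1 0) {ed : PN} (hed : DL ed 0 0 0 0 1) {A : PN} (hA : DL A 1 0 0 0 0) {B : PN} (hB : DL B 0 1 0 0 0) {t : PN} (ht : DL t 1 0 1 0 0) {s : PN} (hs : DL s 0 1 0 1 0) {D : PN} (hD : DL D 1 1 0 0 1) {H : PN} (hH : DL H 1 1 0 0 0) {Hed : PN} (hHed : DL Hed 1 1 0 0 1) {Eas : PN} (hEas : DL Eas 0 0 1 1 0) {D2 : PN} (hD2 : DL D2 2 2 0 0 2) {U2 : PN} (hU2 : DL U2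 2 2 0 0 1) {U5 : PN} (hU5 : DL U5 5 5 0 0 3) {E1 : PN} (hE1 : DL E1 2 2 1 1 0) {E4 : PN} (hE4 : DL E4 5 5 1 1 3) {E3 : PN} (hE3 : DL E3 5 5 2 2 3) {Pi : PN} (hPi : DL Pi 1 1 1 1 0) :
    DL (st39 (· + ·) (· + ·) (· * ·) (fun n : ℤ => (C n.natAbs : PN)) p h g ea es ed A B t s D H Hed Eas D2 U2 U5 E1 E4 E3 Pi) 7 7 2 2 5 :=
  st40_deg p hh hg hea hes hed hA hB ht hs hD hH hHed hEas hD2 hU2 hU5 hE1 hE4 hE3 hPi (show DL _ 0 0 2 0 0 from dl_mul hea hea)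

theorem st38_deg (p : Par) {h : PN} (hh : DL h 1 0 0 0 0) {g : PN} (hg : DL g 0 1 0 0 0) {ea : PN} (hea : DL ea 0 0 1 0 0) {es : PN} (hes : DL es 0 0 0 1 0) {ed : PN} (hed : DL ed 0 0 0 0 1) {A : PN} (hA : DL A 1 0 0 0 0) {B : PN} (hB : DL B 0 1 0 0 0) {t : PN} (ht : DL t 1 0 1 0 0) {s : PN} (hs : DL s 0 1 0 1 0) {D : PN} (hD : DL D 1 1 0 0 1) {H : PN} (hH : DL H 1 1 0 0 0) {Hed : PN} (hHed : DL Hed 1 1 0 0 1) {Eas : PN} (hEas : DL Eas 0 0 1 1 0) {D2 : PN} (hD2 : DL D2 2 2 0 0 2) {U2 : PN} (hU2 : DL U2 2 2 0 0 1) {U5 : PN} (hU5 : DL U5 5 5 0 0 3) {E1 : PN} (hE1 : DL E1 2 2 1 1 0) {E4 : PN} (hE4 : DL E4 5 5 1 1 3) {E3 : PN} (hE3 : DL E3 5 5 2 2 3) {Pa : PN} (hPa : DL Pa 1 0 1 0 0) {Pb : PN} (hPb : DL Pb 0 1 0 1 0) :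
    DL (st38 (· + ·) (· + ·) (· * ·) (fun n : ℤ => (C n.natAbs : PN)) p h g ea es ed A B t s D H Hed Eas D2 U2 U5 E1 E4 E3 Pa Pb) 7 7 2 2 5 :=
  st39_deg p hh hg hea hes hed hA hB ht hs hD hH hHed hEas hD2 hU2 hU5 hE1 hE4 hE3 (show DL _ 1 1 1 1 0 from dl_mul hPa hPb)

theorem st37_deg (p : Par) {h : PN} (hh : DL h 1 0 0 0 0) {g : PN} (hg : DL g 0 1 0 0 0) {ea : PN} (hea : DL ea 0 0 1 0 0) {es : PN} (hes : DL es 0 0 0 1 0) {ed : PN} (hed : DL ed 0 0 0 0 1) {A : PN} (hA : DL A 1 0 0 0 0) {B : PN} (hB : DL B 0 1 0 0 0) {t : PN} (ht : DL t 1 0 1 0 0) {s : PN} (hs : DL s 0 1 0 1 0) {D : PN} (hD : DL D 1 1 0 0 1) {H : PN} (hH : DL H 1 1 0 0 0) {Hed : PN} (hHed : DL Hed 1 1 0 0 1) {Eas : PN} (hEas : DL Eas 0 0 1 1 0) {D2 : PN} (hD2 : DL D2 2 2 0 0 2) {U2 : PN} (hU2 : DL U2 2 2 0 0 1)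 {U5 : PN} (hU5 : DL U5 5 5 0 0 3) {E1 : PN} (hE1 : DL E1 2 2 1 1 0) {E4 : PN} (hE4 : DL E4 5 5 1 1 3) {E3 : PN} (hE3 : DL E3 5 5 2 2 3) {Pa : PN} (hPa : DL Pa 1 0 1 0 0) :
    DL (st37 (· + ·) (· + ·) (· * ·) (fun n : ℤ => (C n.natAbs : PN)) p h g ea es ed A B t s D H Hed Eas D2 U2 U5 E1 E4 E3 Pa) 7 7 2 2 5 :=
  st38_deg p hh hg hea hes hed hA hB ht hs hD hH hHed hEas hD2 hU2 hU5 hE1 hE4 hE3 hPa (dl_add (show DL _ 0 1 0 1 0 from dl_mul (dl_add hg (show DL _ 0 1 0 0 0 from dl_mul (dl_c _) hB)) hes) hs)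

theorem st36_deg (p : Par) {h : PN} (hh : DL h 1 0 0 0 0) {g : PN} (hg : DL g 0 1 0 0 0) {ea : PN} (hea : DL ea 0 0 1 0 0) {es : PN} (hes : DL es 0 0 0 1 0) {ed : PN} (hed : DL ed 0 0 0 0 1) {A : PN} (hA : DL A 1 0 0 0 0) {B : PN} (hB : DL B 0 1 0 0 0) {t : PN} (ht : DL t 1 0 1 0 0) {s : PN} (hs : DL s 0 1 0 1 0) {D : PN} (hD : DL D 1 1 0 0 1) {H : PN} (hH : DL H 1 1 0 0 0) {Hed : PN} (hHed : DL Hed 1 1 0 0 1) {Eas : PN} (hEas : DL Eas 0 0 1 1 0) {D2 : PN} (hD2 : DL D2 2 2 0 0 2) {U2 : PN} (hU2 : DL U2 2 2 0 0 1) {U5 : PN} (hU5 : DL U5 5 5 0 0 3) {E1 : PN} (hE1 : DL E1 2 2 1 1 0) {E4 : PN} (hE4 : DL E4 5 5 1 1 3) {E3 : PN} (hE3 : DL E3 5 5 2 2 3) :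
    DL (st36 (· + ·) (· + ·) (· * ·) (fun n : ℤ => (C n.natAbs : PN)) p h g ea es ed A B t s D H Hed Eas D2 U2 U5 E1 E4 E3) 7 7 2 2 5 :=
  st37_deg p hh hg hea hes hed hA hB ht hs hD hH hHed hEas hD2 hU2 hU5 hE1 hE4 hE3 (dl_add (show DL _ 1 0 1 0 0 from dl_mul (dl_add hh (show DL _ 1 0 0 0 0 from dl_mul (dl_c _) hA)) hea) ht)

theorem st35_deg (p : Par) {h : PN} (hh : DL h 1 0 0 0 0) {g : PN} (hg : DL g 0 1 0 0 0) {ea : PN} (hea : DL ea 0 0 1 0 0) {es : PN} (hes : DL es 0 0 0 1 0) {ed : PN} (hed : DL ed 0 0 0 0 1) {A : PN} (hA : DL A 1 0 0 0 0) {B : PN} (hB : DL B 0 1 0 0 0) {t : PN} (ht : DL t 1 0 1 0 0) {s : PN} (hs : DL s 0 1 0 1 0) {D : PN} (hD : DL D 1 1 0 0 1) {H : PN} (hH : DL H 1 1 0 0 0) {ed2 : PN} (hed2 : DL ed2 0 0 0 0 2) {Hed : PN} (hHed : DL Hed 1 1 0 0 1) {Eas :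 PN} (hEas : DL Eas 0 0 1 1 0) {K0 : PN} (hK0 : DL K0 1 1 0 0 0) {D2 : PN} (hD2 : DL D2 2 2 0 0 2) {U2 : PN} (hU2 : DL U2 2 2 0 0 1) {U3 : PN} (hU3 : DL U3 3 3 0 0 2) {U5 : PN} (hU5 : DL U5 5 5 0 0 3) {v3 : PN} (hv3 : DL v3 3 4 1 1 1) {w3 : PN} (hw3 : DL w3 4 3 1 1 1) {E1 : PN} (hE1 : DL E1 2 2 1 1 0) {E4 : PN} (hE4 : DL E4 5 5 1 1 3) {G1 : PN} (hG1 : DL G1 2 2 1 1 1) {G2 : PN} (hG2 : DL G2 3 3 1 1 1) {G3 : PN} (hG3 : DL G3 2 2 1 1 1) :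
    DL (st35 (· + ·) (· + ·) (· * ·) (fun n : ℤ => (C n.natAbs : PN)) p h g ea es ed A B t s D H ed2 Hed Eas K0 D2 U2 U3 U5 v3 w3 E1 E4 G1 G2 G3) 7 7 2 2 5 :=
  st36_deg p hh hg hea hes hed hA hB ht hs hD hH hHed hEas hD2 hU2 hU5 hE1 hE4 (dl_add (dl_add (show DL _ 5 5 2 2 3 from dl_mul (dl_add (dl_add (show DL _ 5 5 1 1 3 from dl_mul (show DL _ 4 4 1 1 3 from dl_mul hG1 hD2) hH) (show DL _ 5 5 1 1 3 from dl_mul (show DL _ 4 4 1 1 2 from dl_mul hG2 hD) hHed)) (show DL _ 5 5 1 1 3 from dl_mul hG3 hU3)) hEas) (show DL _ 5 5 2 2 3 from dl_mul (show DL _ 5 5 1 1 1 from dl_mul (dl_c _) (show DL _ 5 5 1 1 1 from dl_mul hK0 (dl_add (show DL _ 4 4 1 1 1 from dl_mul hv3 hh) (show DL _ 4 4 1 1 1 from dl_mul hw3 hg)))) (show DL _ 0 0 1 1 2 from dl_mul hEas hed2))) (show DL _ 5 5 2 2 3 from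 dl_mul (dl_add (show DL _ 4 4 2 2 1 from dl_mul (show DL _ 4 4 1 2 1 from dl_mul hs hw3) hea) (show DL _ 4 4 2 2 1 from dl_mul (show DL _ 4 4 2 1 1 from dl_mul ht hv3) hes)) (show DL _ 1 1 0 0 2 from dl_mul hed2 hH)))

theorem st34_deg (p : Par) {h : PN} (hh : DL h 1 0 0 0 0) {g : PN} (hg : DL g 0 1 0 0 0) {ea : PN} (hea : DL ea 0 0 1 0 0) {es : PN} (hes : DL es 0 0 0 1 0) {ed : PN} (hed : DL ed 0 0 0 0 1) {A : PN} (hA : DL A 1 0 0 0 0) {B : PN} (hB : DL B 0 1 0 0 0) {t : PN} (ht : DL t 1 0 1 0 0) {s : PN} (hs : DL s 0 1 0 1 0) {D : PN} (hD : DL D 1 1 0 0 1) {H : PN} (hH : DL H 1 1 0 0 0) {ed2 : PN} (hed2 : DL ed2 0 0 0 0 2) {Hed : PN} (hHed : DL Hed 1 1 0 0 1) {Eas : PN} (hEas : DL Eas 0 0 1 1 0) {X : PN} (hX : DL X 1 1 0 0 0) {ApB : PN} (hApB : DL ApB 1 1 0 0 0) {K0 : PN} (hK0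 : DL K0 1 1 0 0 0) {D2 : PN} (hD2 : DL D2 2 2 0 0 2) {U2 : PN} (hU2 : DL U2 2 2 0 0 1) {U3 : PN} (hU3 : DL U3 3 3 0 0 2) {U5 : PN} (hU5 : DL U5 5 5 0 0 3) {v3 : PN} (hv3 : DL v3 3 4 1 1 1) {w3 : PN} (hw3 : DL w3 4 3 1 1 1) {E1 : PN} (hE1 : DL E1 2 2 1 1 0) {E4 : PN} (hE4 : DL E4 5 5 1 1 3) {X2 : PN} (hX2 : DL X2 1 1 0 0 0) {kap : PN} (hkap : DL kap 1 1 1 1 1) {G1 : PN} (hG1 : DL G1 2 2 1 1 1) {G2 : PN} (hG2 : DL G2 3 3 1 1 1) :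
    DL (st34 (· + ·) (· + ·) (· * ·) (fun n : ℤ => (C n.natAbs : PN)) p h g ea es ed A B t s D H ed2 Hed Eas X ApB K0 D2 U2 U3 U5 v3 w3 E1 E4 X2 kap G1 G2) 7 7 2 2 5 :=
  st35_deg p hh hg hea hes hed hA hB ht hs hD hH hed2 hHed hEas hK0 hD2 hU2 hU3 hU5 hv3 hw3 hE1 hE4 hG1 hG2 (dl_add (show DL _ 2 2 1 1 1 from dl_mul (dl_add (dl_add (show DL _ 2 2 0 0 0 from dl_mul hK0 hK0) (show DL _ 2 2 0 0 0 from dl_mul hApB hH)) (dl_add (show DL _ 2 2 0 0 0 from dl_mul (dl_c _) (show DL _ 2 2 0 0 0 from dl_mul hX hApB)) (show DL _ 2 2 0 0 0 from dl_mul hX2 hH))) (show DL _ 0 0 1 1 1 from dl_mul hEas hed)) (show DL _ 2 2 1 1 1 from dl_mul (dl_c _) (show DL _ 2 2 1 1 1 from dl_mul hkap hH)))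

theorem st33_deg (p : Par) {h : PN} (hh : DL h 1 0 0 0 0) {g : PN} (hg : DL g 0 1 0 0 0) {ea : PN} (hea : DL ea 0 0 1 0 0) {es : PN} (hes : DL es 0 0 0 1 0) {ed : PN} (hed : DL ed 0 0 0 0 1) {A : PN} (hA : DL A 1 0 0 0 0) {B : PN} (hB : DL B 0 1 0 0 0) {t : PN} (ht : DL t 1 0 1 0 0) {s : PN} (hs : DL s 0 1 0 1 0) {D : PN} (hD : DL D 1 1 0 0 1) {H : PN} (hH : DL H 1 1 0 0 0) {ed2 : PN} (hed2 : DL ed2 0 0 0 0 2) {Hed : PN} (hHed : DL Hed 1 1 0 0 1) {Eas : PN} (hEas : DL Eas 0 0 1 1 0) {X : PN} (hX : DL X 1 1 0 0 0) {ApB : PN} (hApB : DL ApB 1 1 0 0 0) {K0 : PN} (hK0 : DL K0 1 1 0 0 0) {D2 : PN} (hD2 : DL D2 2 2 0 0 2) {U2 : PN} (hU2 : DL U2 2 2 0 0 1) {U3 : PN} (hU3 : DL U3 3 3 0 0 2) {U5 : PN} (hU5 : DL U5 5 5 0 0 3) {V2 : PN} (hV2 : DL V2 3 3 1 1 1) {v3 : PN} (hv3 : DL v3 3 4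 1 1 1) {w3 : PN} (hw3 : DL w3 4 3 1 1 1) {E1 : PN} (hE1 : DL E1 2 2 1 1 0) {E4 : PN} (hE4 : DL E4 5 5 1 1 3) {X2 : PN} (hX2 : DL X2 1 1 0 0 0) {kap : PN} (hkap : DL kap 1 1 1 1 1) {G1 : PN} (hG1 : DL G1 2 2 1 1 1) :
    DL (st33 (· + ·) (· + ·) (· * ·) (fun n : ℤ => (C n.natAbs : PN)) p h g ea es ed A B t s D H ed2 Hed Eas X ApB K0 D2 U2 U3 U5 V2 v3 w3 E1 E4 X2 kap G1) 7 7 2 2 5 :=
  st34_deg p hh hg hea hes hed hA hB ht hs hD hH hed2 hHed hEas hX hApB hK0 hD2 hU2 hU3 hU5 hv3 hw3 hE1 hE4 hX2 hkap hG1 (dl_add (show DL _ 3 3 1 1 1 from dl_mul (dl_c _) hV2) (show DL _ 3 3 1 1 1 from dl_mul (dl_c _) (show DL _ 3 3 1 1 1 from dl_mul (show DL _ 3 3 0 0 1 from dl_mul (dl_add (dl_add hApB hX) hK0) hU2) hEas)))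

theorem st32_deg (p : Par) {h : PN} (hh : DL h 1 0 0 0 0) {g : PN} (hg : DL g 0 1 0 0 0) {ea : PN} (hea : DL ea 0 0 1 0 0) {es : PN} (hes : DL es 0 0 0 1 0) {ed : PN} (hed : DL ed 0 0 0 0 1) {A : PN} (hA : DL A 1 0 0 0 0) {B : PN} (hB : DL B 0 1 0 0 0) {t : PN} (ht : DL t 1 0 1 0 0) {s : PN} (hs : DL s 0 1 0 1 0) {D : PN} (hD : DL D 1 1 0 0 1) {H : PN} (hH : DL H 1 1 0 0 0) {ed2 : PN} (hed2 : DL ed2 0 0 0 0 2) {Hed : PN} (hHed : DL Hed 1 1 0 0 1) {Eas : PN} (hEas : DL Eas 0 0 1 1 0) {X : PN} (hX : DL X 1 1 0 0 0) {Y : PN} (hY : DL Y 1 1 0 0 0) {ApB : PN} (hApB : DL ApB 1 1 0 0 0) {K0 : PN} (hK0 : DL K0 1 1 0 0 0) {D2 : PN} (hD2 : DL D2 2 2 0 0 2) {U2 : PN} (hU2 : DL U2 2 2 0 0 1) {U3 : PN} (hU3 : DL U3 3 3 0 0 2) {U5 : PN} (hU5 : DL U5 5 5 0 0 3) {gg : PN} (hgg : DL gg 2 2 1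 1 0) {V2 : PN} (hV2 : DL V2 3 3 1 1 1) {v3 : PN} (hv3 : DL v3 3 4 1 1 1) {w3 : PN} (hw3 : DL w3 4 3 1 1 1) {E1 : PN} (hE1 : DL E1 2 2 1 1 0) {E4 : PN} (hE4 : DL E4 5 5 1 1 3) {X2 : PN} (hX2 : DL X2 1 1 0 0 0) {kap : PN} (hkap : DL kap 1 1 1 1 1) :
    DL (st32 (· + ·) (· + ·) (· * ·) (fun n : ℤ => (C n.natAbs : PN)) p h g ea es ed A B t s D H ed2 Hed Eas X Y ApB K0 D2 U2 U3 U5 gg V2 v3 w3 E1 E4 X2 kap) 7 7 2 2 5 :=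
  st33_deg p hh hg hea hes hed hA hB ht hs hD hH hed2 hHed hEas hX hApB hK0 hD2 hU2 hU3 hU5 hV2 hv3 hw3 hE1 hE4 hX2 hkap (dl_add (dl_add (show DL _ 2 2 1 1 1 from dl_mul (show DL _ 2 2 0 0 0 from dl_mul (dl_add (dl_add hH (show DL _ 1 1 0 0 0 from dl_mul (dl_c _) hK0)) hApB) hY) (show DL _ 0 0 1 1 1 from dl_mul hEas hed)) (show DL _ 2 2 1 1 1 from dl_mul (show DL _ 2 2 0 0 1 from dl_mul hD hH) hEas)) (show DL _ 2 2 1 1 1 from dl_mul (dl_c _) (show DL _ 2 2 1 1 1 from dl_mul hgg hed)))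

theorem st31_deg (p : Par) {h : PN} (hh : DL h 1 0 0 0 0) {g : PN} (hg : DL g 0 1 0 0 0) {ea : PN} (hea : DL ea 0 0 1 0 0) {es : PN} (hes : DL es 0 0 0 1 0) {ed : PN} (hed : DL ed 0 0 0 0 1) {A : PN} (hA : DL A 1 0 0 0 0) {B : PN} (hB : DL B 0 1 0 0 0) {t : PN} (ht : DL t 1 0 1 0 0) {s : PN} (hs : DL s 0 1 0 1 0) {D : PN} (hD : DL D 1 1 0 0 1) {H : PN} (hH : DL H 1 1 0 0 0) {ed2 : PN} (hed2 : DL ed2 0 0 0 0 2) {Hed : PN} (hHed : DL Hed 1 1 0 0 1) {Eas : PN} (hEas : DL Eas 0 0 1 1 0) {X : PN} (hX : DL X 1 1 0 0 0) {Y : PN} (hY : DL Y 1 1 0 0 0) {ApB : PN} (hApB : DL ApB 1 1 0 0 0) {K0 : PN} (hK0 : DL K0 1 1 0 0 0) {D2 : PN} (hD2 : DL D2 2 2 0 0 2) {U2 : PN} (hU2 : DL U2 2 2 0 0 1) {U3 : PN} (hU3 : DL U3 3 3 0 0 2) {U5 : PN} (hU5 : DL U5 5 5 0 0 3) {gg : PN} (hgg : DL gg 2 2 1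 1 0) {V2 : PN} (hV2 : DL V2 3 3 1 1 1) {v3 : PN} (hv3 : DL v3 3 4 1 1 1) {w3 : PN} (hw3 : DL w3 4 3 1 1 1) {E1 : PN} (hE1 : DL E1 2 2 1 1 0) {E4 : PN} (hE4 : DL E4 5 5 1 1 3) {X2 : PN} (hX2 : DL X2 1 1 0 0 0) :
    DL (st31 (· + ·) (· + ·) (· * ·) (fun n : ℤ => (C n.natAbs : PN)) p h g ea es ed A B t s D H ed2 Hed Eas X Y ApB K0 D2 U2 U3 U5 gg V2 v3 w3 E1 E4 X2) 7 7 2 2 5 :=
  st32_deg p hh hg hea hes hed hA hB ht hs hD hH hed2 hHed hEas hX hY hApB hK0 hD2 hU2 hU3 hU5 hgg hV2 hv3 hw3 hE1 hE4 hX2 (dl_add (dl_add (show DL _ 1 1 1 1 1 from dl_mul (show DL _ 1 1 1 1 0 from dl_mul ht hs) hed) (show DL _ 1 1 1 1 1 from dl_mul hD hEas)) (show DL _ 1 1 1 1 1 from dl_mul (show DL _ 1 1 1 1 0 from dl_mul (dl_add hH (show DL _ 1 1 0 0 0 from dl_mul (dl_c _) hX)) hEas) hed))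

theorem st30_deg (p : Par) {h : PN} (hh : DL h 1 0 0 0 0) {g : PN} (hg : DL g 0 1 0 0 0) {ea : PN} (hea : DL ea 0 0 1 0 0) {es : PN} (hes : DL es 0 0 0 1 0) {ed : PN} (hed : DL ed 0 0 0 0 1) {A : PN} (hA : DL A 1 0 0 0 0) {B : PN} (hB : DL B 0 1 0 0 0) {t : PN} (ht : DL t 1 0 1 0 0) {s : PN} (hs : DL s 0 1 0 1 0) {D : PN} (hD : DL D 1 1 0 0 1) {H : PN} (hH : DL H 1 1 0 0 0) {ed2 : PN} (hed2 : DL ed2 0 0 0 0 2) {Hed : PN} (hHed : DL Hed 1 1 0 0 1) {Eas : PN} (hEas : DL Eas 0 0 1 1 0) {X : PN} (hX : DL X 1 1 0 0 0) {Y : PN} (hY : DL Y 1 1 0 0 0) {ApB : PN} (hApB : DL ApB 1 1 0 0 0) {K0 : PN} (hK0 : DL K0 1 1 0 0 0) {D2 : PN} (hD2 : DL D2 2 2 0 0 2) {U2 : PN} (hU2 : DL U2 2 2 0 0 1) {U3 : PN} (hU3 : DL U3 3 3 0 0 2) {U5 : PN} (hU5 : DL U5 5 5 0 0 3) {gg : PN} (hgg : DL gg 2 2 1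 1 0) {V2 : PN} (hV2 : DL V2 3 3 1 1 1) {v3 : PN} (hv3 : DL v3 3 4 1 1 1) {w3 : PN} (hw3 : DL w3 4 3 1 1 1) {E1 : PN} (hE1 : DL E1 2 2 1 1 0) {E4 : PN} (hE4 : DL E4 5 5 1 1 3) :
    DL (st30 (· + ·) (· + ·) (· * ·) (fun n : ℤ => (C n.natAbs : PN)) p h g ea es ed A B t s D H ed2 Hed Eas X Y ApB K0 D2 U2 U3 U5 gg V2 v3 w3 E1 E4) 7 7 2 2 5 :=
  st31_deg p hh hg hea hes hed hA hB ht hs hD hH hed2 hHed hEas hX hY hApB hK0 hD2 hU2 hU3 hU5 hgg hV2 hv3 hw3 hE1 hE4 (show DL _ 1 1 0 0 0 from dl_mul (dl_c _) hX)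

theorem st29_deg (p : Par) {h : PN} (hh : DL h 1 0 0 0 0) {g : PN} (hg : DL g 0 1 0 0 0) {ea : PN} (hea : DL ea 0 0 1 0 0) {es : PN} (hes : DL es 0 0 0 1 0) {ed : PN} (hed : DL ed 0 0 0 0 1) {A : PN} (hA : DL A 1 0 0 0 0) {B : PN} (hB : DL B 0 1 0 0 0) {t : PN} (ht : DL t 1 0 1 0 0) {s : PN} (hs : DL s 0 1 0 1 0) {D : PN} (hD : DL D 1 1 0 0 1) {H : PN} (hH : DL H 1 1 0 0 0) {ed2 : PN} (hed2 : DL ed2 0 0 0 0 2) {Hed : PN} (hHed : DL Hed 1 1 0 0 1) {Eas : PN} (hEas : DL Eas 0 0 1 1 0) {X : PN} (hX : DL X 1 1 0 0 0) {Y : PN} (hY : DL Y 1 1 0 0 0) {ApB : PN} (hApB : DL ApB 1 1 0 0 0) {K0 : PN} (hK0 : DL K0 1 1 0 0 0) {D2 : PN} (hD2 : DL D2 2 2 0 0 2) {U2 : PN} (hU2 : DL U2 2 2 0 0 1) {U3 : PN} (hU3 : DL U3 3 3 0 0 2) {U4 : PN} (hU4 : DL U4 4 4 0 0 2) {U5 : PN} (hU5 : DL U5 5 5 0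 0 3) {gg : PN} (hgg : DL gg 2 2 1 1 0) {V2 : PN} (hV2 : DL V2 3 3 1 1 1) {v3 : PN} (hv3 : DL v3 3 4 1 1 1) {w3 : PN} (hw3 : DL w3 4 3 1 1 1) {V4 : PN} (hV4 : DL V4 5 5 1 1 2) {E1 : PN} (hE1 : DL E1 2 2 1 1 0) :
    DL (st29 (· + ·) (· + ·) (· * ·) (fun n : ℤ => (C n.natAbs : PN)) p h g ea es ed A B t s D H ed2 Hed Eas X Y ApB K0 D2 U2 U3 U4 U5 gg V2 v3 w3 V4 E1) 7 7 2 2 5 :=
  st30_deg p hh hg hea hes hed hA hB ht hs hD hH hed2 hHed hEas hX hY hApB hK0 hD2 hU2 hU3 hU5 hgg hV2 hv3 hw3 hE1 (dl_add (show DL _ 5 5 1 1 3 from dl_mul (dl_add (show DL _ 5 5 0 0 3 from dl_mul (dl_add (show DL _ 4 4 0 0 3 from dl_mul hD2 hU2) (show DL _ 4 4 0 0 3 from dl_mul hD hU3)) hH) (show DL _ 5 5 0 0 3 from dl_mul (show DL _ 5 5 0 0 2 from dl_mul hK0 hU4) hed)) hEas) (show DL _ 5 5 1 1 3 from dl_mul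 hV4 hed))

theorem st28_deg (p : Par) {h : PN} (hh : DL h 1 0 0 0 0) {g : PN} (hg : DL g 0 1 0 0 0) {ea : PN} (hea : DL ea 0 0 1 0 0) {es : PN} (hes : DL es 0 0 0 1 0) {ed : PN} (hed : DL ed 0 0 0 0 1) {A : PN} (hA : DL A 1 0 0 0 0) {B : PN} (hB : DL B 0 1 0 0 0) {t : PN} (ht : DL t 1 0 1 0 0) {s : PN} (hs : DL s 0 1 0 1 0) {D : PN} (hD : DL D 1 1 0 0 1) {H : PN} (hH : DL H 1 1 0 0 0) {ed2 : PN} (hed2 : DL ed2 0 0 0 0 2) {Hed : PN} (hHed : DL Hed 1 1 0 0 1) {Eas : PN} (hEas : DL Eas 0 0 1 1 0) {X : PN} (hX : DL X 1 1 0 0 0) {Y : PN} (hY : DL Y 1 1 0 0 0) {ApB : PN} (hApB : DL ApB 1 1 0 0 0) {K0 : PN} (hK0 : DL K0 1 1 0 0 0) {D2 : PN} (hD2 : DL D2 2 2 0 0 2) {U2 : PN} (hU2 : DL U2 2 2 0 0 1) {U3 : PN} (hU3 : DL U3 3 3 0 0 2) {U4 : PN} (hU4 : DL U4 4 4 0 0 2) {U5 : PN} (hU5 : DL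 U5 5 5 0 0 3) {gg : PN} (hgg : DL gg 2 2 1 1 0) {V2 : PN} (hV2 : DL V2 3 3 1 1 1) {v3 : PN} (hv3 : DL v3 3 4 1 1 1) {w3 : PN} (hw3 : DL w3 4 3 1 1 1) {V4 : PN} (hV4 : DL V4 5 5 1 1 2) :
    DL (st28 (· + ·) (· + ·) (· * ·) (fun n : ℤ => (C n.natAbs : PN)) p h g ea es ed A B t s D H ed2 Hed Eas X Y ApB K0 D2 U2 U3 U4 U5 gg V2 v3 w3 V4) 7 7 2 2 5 :=
  st29_deg p hh hg hea hes hed hA hB ht hs hD hH hed2 hHed hEas hX hY hApB hK0 hD2 hU2 hU3 hU4 hU5 hgg hV2 hv3 hw3 hV4 (dl_add (show DL _ 2 2 1 1 0 from dl_mul (show DL _ 2 2 0 0 0 from dl_mul hK0 hY) hEas) hgg)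

theorem st27_deg (p : Par) {h : PN} (hh : DL h 1 0 0 0 0) {g : PN} (hg : DL g 0 1 0 0 0) {ea : PN} (hea : DL ea 0 0 1 0 0) {es : PN} (hes : DL es 0 0 0 1 0) {ed : PN} (hed : DL ed 0 0 0 0 1) {A : PN} (hA : DL A 1 0 0 0 0) {B : PN} (hB : DL B 0 1 0 0 0) {t : PN} (ht : DL t 1 0 1 0 0) {s : PN} (hs : DL s 0 1 0 1 0) {D : PN} (hD : DL D 1 1 0 0 1) {H : PN} (hH : DL H 1 1 0 0 0) {ed2 : PN} (hed2 : DL ed2 0 0 0 0 2) {Hed : PN} (hHed : DL Hed 1 1 0 0 1) {Eas : PN} (hEas : DL Eas 0 0 1 1 0) {X : PN} (hX : DL X 1 1 0 0 0) {Y : PN} (hY : DL Y 1 1 0 0 0) {ApB : PN} (hApB : DL ApB 1 1 0 0 0) {K0 : PN} (hK0 : DL K0 1 1 0 0 0) {Y3 : PN} (hY3 : DL Y3 3 3 0 0 0) {D2 : PN} (hD2 : DL D2 2 2 0 0 2) {YD : PN} (hYD : DL YD 2 2 0 0 1) {U2 : PN} (hU2 : DL U2 2 2 0 0 1) {U3 : PN} (hU3 : DL U3 3 3 0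 0 2) {U4 : PN} (hU4 : DL U4 4 4 0 0 2) {U5 : PN} (hU5 : DL U5 5 5 0 0 3) {gg : PN} (hgg : DL gg 2 2 1 1 0) {ST : PN} (hST : DL ST 1 1 1 1 0) {V2 : PN} (hV2 : DL V2 3 3 1 1 1) {Bgq : PN} (hBgq : DL Bgq 2 2 1 1 0) {Agp : PN} (hAgp : DL Agp 2 2 1 1 0) {v3 : PN} (hv3 : DL v3 3 4 1 1 1) {w3 : PN} (hw3 : DL w3 4 3 1 1 1) :
    DL (st27 (· + ·) (· + ·) (· * ·) (fun n : ℤ => (C n.natAbs : PN)) p h g ea es ed A B t s D H ed2 Hed Eas X Y ApB K0 Y3 D2 YD U2 U3 U4 U5 gg ST V2 Bgq Agp v3 w3) 7 7 2 2 5 :=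
  st28_deg p hh hg hea hes hed hA hB ht hs hD hH hed2 hHed hEas hX hY hApB hK0 hD2 hU2 hU3 hU4 hU5 hgg hV2 hv3 hw3 (dl_add (dl_add (show DL _ 5 5 1 1 2 from dl_mul (show DL _ 3 3 1 1 0 from dl_mul (dl_add hgg (show DL _ 2 2 1 1 0 from dl_mul (dl_c _) (show DL _ 2 2 1 1 0 from dl_mul hST hH))) hH) hD2) (show DL _ 5 5 1 1 2 from dl_mul (dl_c _) (show DL _ 5 5 1 1 2 from dl_mul (show DL _ 4 4 1 1 1 from dl_mul hYD (dl_add (dl_add (show DL _ 2 2 1 1 0 from dl_mul (dl_c _) hgg) hBgq) hAgp)) hHed))) (show DL _ 5 5 1 1 2 from dl_mul (dl_c _) (show DL _ 5 5 1 1 2 from dl_mul (show DL _ 5 5 1 1 0 from dl_mul hY3 hgg) hed2)))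

theorem st26_deg (p : Par) {h : PN} (hh : DL h 1 0 0 0 0) {g : PN} (hg : DL g 0 1 0 0 0) {ea : PN} (hea : DL ea 0 0 1 0 0) {es : PN} (hes : DL es 0 0 0 1 0) {ed : PN} (hed : DL ed 0 0 0 0 1) {A : PN} (hA : DL A 1 0 0 0 0) {B : PN} (hB : DL B 0 1 0 0 0) {t : PN} (ht : DL t 1 0 1 0 0) {s : PN} (hs : DL s 0 1 0 1 0) {D : PN} (hD : DL D 1 1 0 0 1) {H : PN} (hH : DL H 1 1 0 0 0) {ed2 : PN} (hed2 : DL ed2 0 0 0 0 2) {Hed : PN} (hHed : DL Hed 1 1 0 0 1) {Eas : PN} (hEas : DL Eas 0 0 1 1 0) {X : PN} (hX : DL X 1 1 0 0 0) {Y : PN} (hY : DL Y 1 1 0 0 0) {ApB : PN} (hApB : DL ApB 1 1 0 0 0) {K0 : PN} (hK0 : DL K0 1 1 0 0 0) {Y2 : PN} (hY2 : DL Y2 2 2 0 0 0) {Y3 : PN} (hY3 : DL Y3 3 3 0 0 0) {D2 : PN} (hD2 : DL D2 2 2 0 0 2) {YD : PN} (hYD : DL YD 2 2 0 0 1) {U2 : PN} (hU2 : DL U2 2 2 0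 0 1) {U3 : PN} (hU3 : DL U3 3 3 0 0 2) {U4 : PN} (hU4 : DL U4 4 4 0 0 2) {U5 : PN} (hU5 : DL U5 5 5 0 0 3) {gq : PN} (hgq : DL gq 2 1 1 1 0) {gg : PN} (hgg : DL gg 2 2 1 1 0) {ST : PN} (hST : DL ST 1 1 1 1 0) {V2 : PN} (hV2 : DL V2 3 3 1 1 1) {Bgq : PN} (hBgq : DL Bgq 2 2 1 1 0) {Agp : PN} (hAgp : DL Agp 2 2 1 1 0) {v3 : PN} (hv3 : DL v3 3 4 1 1 1) :
    DL (st26 (· + ·) (· + ·) (· * ·) (fun n : ℤ => (C n.natAbs : PN)) p h g ea es ed A B t s D H ed2 Hed Eas X Y ApB K0 Y2 Y3 D2 YD U2 U3 U4 U5 gq gg ST V2 Bgq Agp v3) 7 7 2 2 5 :=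
  st27_deg p hh hg hea hes hed hA hB ht hs hD hH hed2 hHed hEas hX hY hApB hK0 hY3 hD2 hYD hU2 hU3 hU4 hU5 hgg hST hV2 hBgq hAgp hv3 (dl_add (show DL _ 4 3 1 1 1 from dl_mul (dl_c _) (show DL _ 4 3 1 1 1 from dl_mul (show DL _ 4 3 1 1 0 from dl_mul hY2 hgq) hed)) (show DL _ 4 3 1 1 1 from dl_mul (show DL _ 3 3 1 1 1 from dl_mul (dl_add (show DL _ 2 2 1 1 0 from dl_mul (dl_c _) (show DL _ 2 2 1 1 0 from dl_mul hgq hg)) (show DL _ 2 2 1 1 0 from dl_mul (dl_c _) hAgp)) hD) hh))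

theorem st25_deg (p : Par) {h : PN} (hh : DL h 1 0 0 0 0) {g : PN} (hg : DL g 0 1 0 0 0) {ea : PN} (hea : DL ea 0 0 1 0 0) {es : PN} (hes : DL es 0 0 0 1 0) {ed : PN} (hed : DL ed 0 0 0 0 1) {A : PN} (hA : DL A 1 0 0 0 0) {B : PN} (hB : DL B 0 1 0 0 0) {t : PN} (ht : DL t 1 0 1 0 0) {s : PN} (hs : DL s 0 1 0 1 0) {D : PN} (hD : DL D 1 1 0 0 1) {H : PN} (hH : DL H 1 1 0 0 0) {ed2 : PN} (hed2 : DL ed2 0 0 0 0 2) {Hed : PN} (hHed : DL Hed 1 1 0 0 1) {Eas : PN} (hEas : DL Eas 0 0 1 1 0) {X : PN} (hX : DL X 1 1 0 0 0) {Y : PN} (hY : DL Y 1 1 0 0 0) {ApB : PN} (hApB : DL ApB 1 1 0 0 0) {K0 : PN} (hK0 : DL K0 1 1 0 0 0) {Y2 : PN} (hY2 : DL Y2 2 2 0 0 0) {Y3 : PN} (hY3 : DL Y3 3 3 0 0 0) {D2 : PN} (hD2 : DL D2 2 2 0 0 2) {YD : PN} (hYD : DL YD 2 2 0 0 1) {U2 : PN} (hU2 : DL U2 2 2 0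 0 1) {U3 : PN} (hU3 : DL U3 3 3 0 0 2) {U4 : PN} (hU4 : DL U4 4 4 0 0 2) {U5 : PN} (hU5 : DL U5 5 5 0 0 3) {gp : PN} (hgp : DL gp 1 2 1 1 0) {gq : PN} (hgq : DL gq 2 1 1 1 0) {gg : PN} (hgg : DL gg 2 2 1 1 0) {ST : PN} (hST : DL ST 1 1 1 1 0) {V2 : PN} (hV2 : DL V2 3 3 1 1 1) {Bgq : PN} (hBgq : DL Bgq 2 2 1 1 0) {Agp : PN} (hAgp : DL Agp 2 2 1 1 0) :
    DL (st25 (· + ·) (· + ·) (· * ·) (fun n : ℤ => (C n.natAbs : PN)) p h g ea es ed A B t s D H ed2 Hed Eas X Y ApB K0 Y2 Y3 D2 YD U2 U3 U4 U5 gp gq gg ST V2 Bgq Agp) 7 7 2 2 5 :=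
  st26_deg p hh hg hea hes hed hA hB ht hs hD hH hed2 hHed hEas hX hY hApB hK0 hY2 hY3 hD2 hYD hU2 hU3 hU4 hU5 hgq hgg hST hV2 hBgq hAgp (dl_add (show DL _ 3 4 1 1 1 from dl_mul (dl_c _) (show DL _ 3 4 1 1 1 from dl_mul (show DL _ 3 4 1 1 0 from dl_mul hY2 hgp) hed)) (show DL _ 3 4 1 1 1 from dl_mul (show DL _ 3 3 1 1 1 from dl_mul (dl_add (show DL _ 2 2 1 1 0 from dl_mul (dl_c _) (show DL _ 2 2 1 1 0 from dl_mul hgp hh)) (show DL _ 2 2 1 1 0 from dl_mul (dl_c _) hBgq)) hD) hg))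

theorem st24_deg (p : Par) {h : PN} (hh : DL h 1 0 0 0 0) {g : PN} (hg : DL g 0 1 0 0 0) {ea : PN} (hea : DL ea 0 0 1 0 0) {es : PN} (hes : DL es 0 0 0 1 0) {ed : PN} (hed : DL ed 0 0 0 0 1) {A : PN} (hA : DL A 1 0 0 0 0) {B : PN} (hB : DL B 0 1 0 0 0) {t : PN} (ht : DL t 1 0 1 0 0) {s : PN} (hs : DL s 0 1 0 1 0) {D : PN} (hD : DL D 1 1 0 0 1) {H : PN} (hH : DL H 1 1 0 0 0) {ed2 : PN} (hed2 : DL ed2 0 0 0 0 2) {Hed : PN} (hHed : DL Hed 1 1 0 0 1) {Eas : PN} (hEas : DL Eas 0 0 1 1 0) {X : PN} (hX : DL X 1 1 0 0 0) {Y : PN} (hY : DL Y 1 1 0 0 0) {ApB : PN} (hApB : DL ApB 1 1 0 0 0) {K0 : PN} (hK0 : DL K0 1 1 0 0 0) {Y2 : PN} (hY2 : DL Y2 2 2 0 0 0) {Y3 : PN} (hY3 : DL Y3 3 3 0 0 0) {D2 : PN} (hD2 : DL D2 2 2 0 0 2) {YD : PN} (hYD : DL YD 2 2 0 0 1) {U2 : PN} (hU2 : DL U2 2 2 0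 0 1) {U3 : PN} (hU3 : DL U3 3 3 0 0 2) {U4 : PN} (hU4 : DL U4 4 4 0 0 2) {U5 : PN} (hU5 : DL U5 5 5 0 0 3) {gp : PN} (hgp : DL gp 1 2 1 1 0) {gq : PN} (hgq : DL gq 2 1 1 1 0) {gg : PN} (hgg : DL gg 2 2 1 1 0) {ST : PN} (hST : DL ST 1 1 1 1 0) {V2 : PN} (hV2 : DL V2 3 3 1 1 1) {Bgq : PN} (hBgq : DL Bgq 2 2 1 1 0) :
    DL (st24 (· + ·) (· + ·) (· * ·) (fun n : ℤ => (C n.natAbs : PN)) p h g ea es ed A B t s D H ed2 Hed Eas X Y ApB K0 Y2 Y3 D2 YD U2 U3 U4 U5 gp gq gg ST V2 Bgq) 7 7 2 2 5 :=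
  st25_deg p hh hg hea hes hed hA hB ht hs hD hH hed2 hHed hEas hX hY hApB hK0 hY2 hY3 hD2 hYD hU2 hU3 hU4 hU5 hgp hgq hgg hST hV2 hBgq (show DL _ 2 2 1 1 0 from dl_mul hA hgp)

theorem st23_deg (p : Par) {h : PN} (hh : DL h 1 0 0 0 0) {g : PN} (hg : DL g 0 1 0 0 0) {ea : PN} (hea : DL ea 0 0 1 0 0) {es : PN} (hes : DL es 0 0 0 1 0) {ed : PN} (hed : DL ed 0 0 0 0 1) {A : PN} (hA : DL A 1 0 0 0 0) {B : PN} (hB : DL B 0 1 0 0 0) {t : PN} (ht : DL t 1 0 1 0 0) {s : PN} (hs : DL s 0 1 0 1 0) {D : PN} (hD : DL D 1 1 0 0 1) {H : PN} (hH : DL H 1 1 0 0 0) {ed2 : PN} (hed2 : DL ed2 0 0 0 0 2) {Hed : PN} (hHed : DL Hed 1 1 0 0 1) {Eas : PN} (hEas : DL Eas 0 0 1 1 0) {X : PN} (hX : DL X 1 1 0 0 0) {Y : PN} (hY : DL Y 1 1 0 0 0) {ApB : PN} (hApB : DL ApB 1 1 0 0 0) {K0 : PN} (hK0 : DL K0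 1 1 0 0 0) {Y2 : PN} (hY2 : DL Y2 2 2 0 0 0) {Y3 : PN} (hY3 : DL Y3 3 3 0 0 0) {D2 : PN} (hD2 : DL D2 2 2 0 0 2) {YD : PN} (hYD : DL YD 2 2 0 0 1) {U2 : PN} (hU2 : DL U2 2 2 0 0 1) {U3 : PN} (hU3 : DL U3 3 3 0 0 2) {U4 : PN} (hU4 : DL U4 4 4 0 0 2) {U5 : PN} (hU5 : DL U5 5 5 0 0 3) {gp : PN} (hgp : DL gp 1 2 1 1 0) {gq : PN} (hgq : DL gq 2 1 1 1 0) {gg : PN} (hgg : DL gg 2 2 1 1 0) {ST : PN} (hST : DL ST 1 1 1 1 0) {V2 : PN} (hV2 : DL V2 3 3 1 1 1) :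
    DL (st23 (· + ·) (· + ·) (· * ·) (fun n : ℤ => (C n.natAbs : PN)) p h g ea es ed A B t s D H ed2 Hed Eas X Y ApB K0 Y2 Y3 D2 YD U2 U3 U4 U5 gp gq gg ST V2) 7 7 2 2 5 :=
  st24_deg p hh hg hea hes hed hA hB ht hs hD hH hed2 hHed hEas hX hY hApB hK0 hY2 hY3 hD2 hYD hU2 hU3 hU4 hU5 hgp hgq hgg hST hV2 (show DL _ 2 2 1 1 0 from dl_mul hB hgq)

theorem st22_deg (p : Par) {h : PN} (hh : DL h 1 0 0 0 0) {g : PN} (hg : DL g 0 1 0 0 0) {ea : PN} (hea : DL ea 0 0 1 0 0) {es : PN} (hes : DL es 0 0 0 1 0) {ed : PN} (hed : DL ed 0 0 0 0 1) {A : PN} (hA : DL A 1 0 0 0 0) {B : PN} (hB : DL B 0 1 0 0 0) {t : PN} (ht : DL t 1 0 1 0 0) {s : PN} (hs : DL s 0 1 0 1 0) {D : PN} (hD : DL D 1 1 0 0 1) {H : PN} (hH : DL H 1 1 0 0 0) {ed2 : PN} (hed2 : DL ed2 0 0 0 0 2) {Hed : PN} (hHed : DL Hed 1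 1 0 0 1) {Eas : PN} (hEas : DL Eas 0 0 1 1 0) {X : PN} (hX : DL X 1 1 0 0 0) {Y : PN} (hY : DL Y 1 1 0 0 0) {ApB : PN} (hApB : DL ApB 1 1 0 0 0) {K0 : PN} (hK0 : DL K0 1 1 0 0 0) {Y2 : PN} (hY2 : DL Y2 2 2 0 0 0) {Y3 : PN} (hY3 : DL Y3 3 3 0 0 0) {D2 : PN} (hD2 : DL D2 2 2 0 0 2) {YD : PN} (hYD : DL YD 2 2 0 0 1) {U2 : PN} (hU2 : DL U2 2 2 0 0 1) {U3 : PN} (hU3 : DL U3 3 3 0 0 2) {U4 : PN} (hU4 : DL U4 4 4 0 0 2) {U5 : PN} (hU5 : DL U5 5 5 0 0 3) {gp : PN} (hgp : DL gp 1 2 1 1 0) {gq : PN} (hgq : DL gq 2 1 1 1 0) {gg : PN} (hgg : DL gg 2 2 1 1 0) {ST : PN} (hST : DL ST 1 1 1 1 0) :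
    DL (st22 (· + ·) (· + ·) (· * ·) (fun n : ℤ => (C n.natAbs : PN)) p h g ea es ed A B t s D H ed2 Hed Eas X Y ApB K0 Y2 Y3 D2 YD U2 U3 U4 U5 gp gq gg ST) 7 7 2 2 5 :=
  st23_deg p hh hg hea hes hed hA hB ht hs hD hH hed2 hHed hEas hX hY hApB hK0 hY2 hY3 hD2 hYD hU2 hU3 hU4 hU5 hgp hgq hgg hST (dl_add (show DL _ 3 3 1 1 1 from dl_mul (show DL _ 2 2 1 1 1 from dl_mul hST hD) hH) (show DL _ 3 3 1 1 1 from dl_mul (dl_c _) (show DL _ 3 3 1 1 1 from dl_mul (show DL _ 3 3 1 1 0 from dl_mul hY hgg) hed)))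

theorem st21_deg (p : Par) {h : PN} (hh : DL h 1 0 0 0 0) {g : PN} (hg : DL g 0 1 0 0 0) {ea : PN} (hea : DL ea 0 0 1 0 0) {es : PN} (hes : DL es 0 0 0 1 0) {ed : PN} (hed : DL ed 0 0 0 0 1) {A : PN} (hA : DL A 1 0 0 0 0) {B : PN} (hB : DL B 0 1 0 0 0) {t : PN} (ht : DL t 1 0 1 0 0) {s : PN} (hs : DL s 0 1 0 1 0) {D : PN} (hD : DL D 1 1 0 0 1) {H : PN} (hH : DL H 1 1 0 0 0) {ed2 : PN} (hed2 : DL ed2 0 0 0 0 2) {Hed : PN} (hHed : DL Hed 1 1 0 0 1) {Eas : PN} (hEas : DL Eas 0 0 1 1 0) {X : PN} (hX : DL X 1 1 0 0 0) {Y : PN} (hY : DL Y 1 1 0 0 0) {ApB : PN} (hApB : DL ApB 1 1 0 0 0) {K0 : PN} (hK0 : DL K0 1 1 0 0 0) {Y2 : PN} (hY2 : DL Y2 2 2 0 0 0) {Y3 : PN} (hY3 : DL Y3 3 3 0 0 0) {D2 : PN} (hD2 : DL D2 2 2 0 0 2) {YD : PN} (hYD : DL YD 2 2 0 0 1) {U2 : PN} (hU2 : DL U2 2 2 0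 0 1) {U3 : PN} (hU3 : DL U3 3 3 0 0 2) {U4 : PN} (hU4 : DL U4 4 4 0 0 2) {U5 : PN} (hU5 : DL U5 5 5 0 0 3) {As : PN} (hAs : DL As 1 1 0 1 0) {Bt : PN} (hBt : DL Bt 1 1 1 0 0) {gp : PN} (hgp : DL gp 1 2 1 1 0) {gq : PN} (hgq : DL gq 2 1 1 1 0) {gg : PN} (hgg : DL gg 2 2 1 1 0) :
    DL (st21 (· + ·) (· + ·) (· * ·) (fun n : ℤ => (C n.natAbs : PN)) p h g ea es ed A B t s D H ed2 Hed Eas X Y ApB K0 Y2 Y3 D2 YD U2 U3 U4 U5 As Bt gp gq gg) 7 7 2 2 5 :=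
  st22_deg p hh hg hea hes hed hA hB ht hs hD hH hed2 hHed hEas hX hY hApB hK0 hY2 hY3 hD2 hYD hU2 hU3 hU4 hU5 hgp hgq hgg (dl_add (show DL _ 1 1 1 1 0 from dl_mul hAs hea) (show DL _ 1 1 1 1 0 from dl_mul hBt hes))

theorem st20_deg (p : Par) {h : PN} (hh : DL h 1 0 0 0 0) {g : PN} (hg : DL g 0 1 0 0 0) {ea : PN} (hea : DL ea 0 0 1 0 0) {es : PN} (hes : DL es 0 0 0 1 0) {ed : PN} (hed : DL ed 0 0 0 0 1) {A : PN} (hA : DL A 1 0 0 0 0) {B : PN} (hB : DL B 0 1 0 0 0) {t : PN} (ht : DL t 1 0 1 0 0) {s : PN} (hs : DL s 0 1 0 1 0) {D : PN} (hD : DL D 1 1 0 0 1) {H : PN} (hH : DL H 1 1 0 0 0) {ed2 : PN} (hed2 : DL ed2 0 0 0 0 2) {Hed : PN} (hHed : DL Hed 1 1 0 0 1) {Eas : PN} (hEas : DL Eas 0 0 1 1 0) {X : PN} (hX : DL X 1 1 0 0 0) {Y : PN} (hY : DL Y 1 1 0 0 0) {ApB : PN} (hApB : DL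 ApB 1 1 0 0 0) {K0 : PN} (hK0 : DL K0 1 1 0 0 0) {Y2 : PN} (hY2 : DL Y2 2 2 0 0 0) {Y3 : PN} (hY3 : DL Y3 3 3 0 0 0) {D2 : PN} (hD2 : DL D2 2 2 0 0 2) {YD : PN} (hYD : DL YD 2 2 0 0 1) {U2 : PN} (hU2 : DL U2 2 2 0 0 1) {U3 : PN} (hU3 : DL U3 3 3 0 0 2) {U4 : PN} (hU4 : DL U4 4 4 0 0 2) {U5 : PN} (hU5 : DL U5 5 5 0 0 3) {As : PN} (hAs : DL As 1 1 0 1 0) {Bt : PN} (hBt : DL Bt 1 1 1 0 0) {gp : PN} (hgp : DL gp 1 2 1 1 0) {gq : PN} (hgq : DL gq 2 1 1 1 0) :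
    DL (st20 (· + ·) (· + ·) (· * ·) (fun n : ℤ => (C n.natAbs : PN)) p h g ea es ed A B t s D H ed2 Hed Eas X Y ApB K0 Y2 Y3 D2 YD U2 U3 U4 U5 As Bt gp gq) 7 7 2 2 5 :=
  st21_deg p hh hg hea hes hed hA hB ht hs hD hH hed2 hHed hEas hX hY hApB hK0 hY2 hY3 hD2 hYD hU2 hU3 hU4 hU5 hAs hBt hgp hgq (dl_add (show DL _ 2 2 1 1 0 from dl_mul hgp hh) (show DL _ 2 2 1 1 0 from dl_mul hgq hg))

theorem st19_deg (p : Par) {h : PN} (hh : DL h 1 0 0 0 0) {g : PN} (hg : DL g 0 1 0 0 0) {ea : PN} (hea : DL ea 0 0 1 0 0) {es : PN} (hes : DL es 0 0 0 1 0) {ed : PN} (hed : DL ed 0 0 0 0 1) {A : PN} (hA : DL A 1 0 0 0 0) {B : PN} (hB : DL B 0 1 0 0 0) {t : PN} (ht : DL t 1 0 1 0 0) {s : PN} (hs : DL s 0 1 0 1 0) {D : PN} (hD : DL D 1 1 0 0 1) {H : PN} (hH : DL H 1 1 0 0 0) {ed2 : PN} (hed2 : DL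 ed2 0 0 0 0 2) {Hed : PN} (hHed : DL Hed 1 1 0 0 1) {Eas : PN} (hEas : DL Eas 0 0 1 1 0) {X : PN} (hX : DL X 1 1 0 0 0) {Y : PN} (hY : DL Y 1 1 0 0 0) {ApB : PN} (hApB : DL ApB 1 1 0 0 0) {K0 : PN} (hK0 : DL K0 1 1 0 0 0) {Y2 : PN} (hY2 : DL Y2 2 2 0 0 0) {Y3 : PN} (hY3 : DL Y3 3 3 0 0 0) {D2 : PN} (hD2 : DL D2 2 2 0 0 2) {YD : PN} (hYD : DL YD 2 2 0 0 1) {U2 : PN} (hU2 : DL U2 2 2 0 0 1) {U3 : PN} (hU3 : DL U3 3 3 0 0 2) {U4 : PN} (hU4 : DL U4 4 4 0 0 2) {U5 : PN} (hU5 : DL U5 5 5 0 0 3) {As : PN} (hAs : DL As 1 1 0 1 0) {Bt : PN} (hBt : DL Bt 1 1 1 0 0) {gp : PN} (hgp : DL gp 1 2 1 1 0) :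
    DL (st19 (· + ·) (· + ·) (· * ·) (fun n : ℤ => (C n.natAbs : PN)) p h g ea es ed A B t s D H ed2 Hed Eas X Y ApB K0 Y2 Y3 D2 YD U2 U3 U4 U5 As Bt gp) 7 7 2 2 5 :=
  st20_deg p hh hg hea hes hed hA hB ht hs hD hH hed2 hHed hEas hX hY hApB hK0 hY2 hY3 hD2 hYD hU2 hU3 hU4 hU5 hAs hBt hgp (dl_add (show DL _ 2 1 1 1 0 from dl_mul (show DL _ 2 1 0 1 0 from dl_mul hA hAs) hea) (show DL _ 2 1 1 1 0 from dl_mul (show DL _ 2 1 1 0 0 from dl_mul hBt hh) hes))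

theorem st18_deg (p : Par) {h : PN} (hh : DL h 1 0 0 0 0) {g : PN} (hg : DL g 0 1 0 0 0) {ea : PN} (hea : DL ea 0 0 1 0 0) {es : PN} (hes : DL es 0 0 0 1 0) {ed : PN} (hed : DL ed 0 0 0 0 1) {A : PN} (hA : DL A 1 0 0 0 0) {B : PN} (hB : DL B 0 1 0 0 0) {t : PN} (ht : DL t 1 0 1 0 0) {s : PN} (hs : DL s 0 1 0 1 0) {D : PN} (hD : DL D 1 1 0 0 1) {H : PN} (hH : DL H 1 1 0 0 0) {ed2 : PN} (hed2 : DL ed2 0 0 0 0 2) {Hed : PN} (hHed : DL Hed 1 1 0 0 1) {Eas : PN} (hEas : DL Eas 0 0 1 1 0) {X : PN} (hX : DL X 1 1 0 0 0) {Y : PN} (hY : DL Y 1 1 0 0 0) {ApB : PN} (hApB : DL ApB 1 1 0 0 0) {K0 : PN} (hK0 : DL K0 1 1 0 0 0) {Y2 : PN} (hY2 : DL Y2 2 2 0 0 0) {Y3 : PN} (hY3 : DL Y3 3 3 0 0 0) {D2 : PN} (hD2 : DL D2 2 2 0 0 2) {YD : PN} (hYD : DL YD 2 2 0 0 1) {U2 : PN} (hU2 : DL U2 2 2 0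 0 1) {U3 : PN} (hU3 : DL U3 3 3 0 0 2) {U4 : PN} (hU4 : DL U4 4 4 0 0 2) {U5 : PN} (hU5 : DL U5 5 5 0 0 3) {As : PN} (hAs : DL As 1 1 0 1 0) {Bt : PN} (hBt : DL Bt 1 1 1 0 0) :
    DL (st18 (· + ·) (· + ·) (· * ·) (fun n : ℤ => (C n.natAbs : PN)) p h g ea es ed A B t s D H ed2 Hed Eas X Y ApB K0 Y2 Y3 D2 YD U2 U3 U4 U5 As Bt) 7 7 2 2 5 :=
  st19_deg p hh hg hea hes hed hA hB ht hs hD hH hed2 hHed hEas hX hY hApB hK0 hY2 hY3 hD2 hYD hU2 hU3 hU4 hU5 hAs hBt (dl_add (show DL _ 1 2 1 1 0 from dl_mul (show DL _ 1 2 1 0 0 from dl_mul hB hBt) hes) (show DL _ 1 2 1 1 0 from dl_mul (show DL _ 1 2 0 1 0 from dl_mul hAs hg) hea))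

theorem st17_deg (p : Par) {h : PN} (hh : DL h 1 0 0 0 0) {g : PN} (hg : DL g 0 1 0 0 0) {ea : PN} (hea : DL ea 0 0 1 0 0) {es : PN} (hes : DL es 0 0 0 1 0) {ed : PN} (hed : DL ed 0 0 0 0 1) {A : PN} (hA : DL A 1 0 0 0 0) {B : PN} (hB : DL B 0 1 0 0 0) {t : PN} (ht : DL t 1 0 1 0 0) {s : PN} (hs : DL s 0 1 0 1 0) {D : PN} (hD : DL D 1 1 0 0 1) {H : PN} (hH : DL H 1 1 0 0 0) {ed2 : PN} (hed2 : DL ed2 0 0 0 0 2) {Hed : PN} (hHed : DL Hed 1 1 0 0 1) {Eas : PN} (hEas : DL Eas 0 0 1 1 0) {X : PN} (hX : DL X 1 1 0 0 0) {Y : PN} (hY : DL Y 1 1 0 0 0) {ApB : PN} (hApB : DL ApB 1 1 0 0 0) {K0 : PN} (hK0 : DL K0 1 1 0 0 0) {Y2 : PN} (hY2 : DL Y2 2 2 0 0 0) {Y3 : PN} (hY3 : DL Y3 3 3 0 0 0) {D2 : PN} (hD2 : DL D2 2 2 0 0 2) {YD : PN} (hYD : DL YD 2 2 0 0 1) {U2 : PN} (hU2 : DL U2 2 2 0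 0 1) {U3 : PN} (hU3 : DL U3 3 3 0 0 2) {U4 : PN} (hU4 : DL U4 4 4 0 0 2) {U5 : PN} (hU5 : DL U5 5 5 0 0 3) {As : PN} (hAs : DL As 1 1 0 1 0) :
    DL (st17 (· + ·) (· + ·) (· * ·) (fun n : ℤ => (C n.natAbs : PN)) p h g ea es ed A B t s D H ed2 Hed Eas X Y ApB K0 Y2 Y3 D2 YD U2 U3 U4 U5 As) 7 7 2 2 5 :=
  st18_deg p hh hg hea hes hed hA hB ht hs hD hH hed2 hHed hEas hX hY hApB hK0 hY2 hY3 hD2 hYD hU2 hU3 hU4 hU5 hAs (show DL _ 1 1 1 0 0 from dl_mul hB ht)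

theorem st16_deg (p : Par) {h : PN} (hh : DL h 1 0 0 0 0) {g : PN} (hg : DL g 0 1 0 0 0) {ea : PN} (hea : DL ea 0 0 1 0 0) {es : PN} (hes : DL es 0 0 0 1 0) {ed : PN} (hed : DL ed 0 0 0 0 1) {A : PN} (hA : DL A 1 0 0 0 0) {B : PN} (hB : DL B 0 1 0 0 0) {t : PN} (ht : DL t 1 0 1 0 0) {s : PN} (hs : DL s 0 1 0 1 0) {D : PN} (hD : DL D 1 1 0 0 1) {H : PN} (hH : DL H 1 1 0 0 0) {ed2 : PN} (hed2 : DL ed2 0 0 0 0 2) {Hed : PN} (hHed : DL Hed 1 1 0 0 1) {Eas : PN} (hEas : DL Eas 0 0 1 1 0) {X : PN} (hX : DL X 1 1 0 0 0) {Y : PN} (hY : DL Y 1 1 0 0 0) {ApB : PN} (hApB : DL ApB 1 1 0 0 0) {K0 : PN} (hK0 : DL K0 1 1 0 0 0) {Y2 : PN} (hY2 : DL Y2 2 2 0 0 0) {Y3 : PN} (hY3 : DL Y3 3 3 0 0 0) {D2 : PN} (hD2 : DL D2 2 2 0 0 2) {YD : PN} (hYD : DL YD 2 2 0 0 1) {U2 : PN} (hU2 : DL U2 2 2 0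 0 1) {U3 : PN} (hU3 : DL U3 3 3 0 0 2) {U4 : PN} (hU4 : DL U4 4 4 0 0 2) {U5 : PN} (hU5 : DL U5 5 5 0 0 3) :
    DL (st16 (· + ·) (· + ·) (· * ·) (fun n : ℤ => (C n.natAbs : PN)) p h g ea es ed A B t s D H ed2 Hed Eas X Y ApB K0 Y2 Y3 D2 YD U2 U3 U4 U5) 7 7 2 2 5 :=
  st17_deg p hh hg hea hes hed hA hB ht hs hD hH hed2 hHed hEas hX hY hApB hK0 hY2 hY3 hD2 hYD hU2 hU3 hU4 hU5 (show DL _ 1 1 0 1 0 from dl_mul hA hs)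

theorem st15_deg (p : Par) {h : PN} (hh : DL h 1 0 0 0 0) {g : PN} (hg : DL g 0 1 0 0 0) {ea : PN} (hea : DL ea 0 0 1 0 0) {es : PN} (hes : DL es 0 0 0 1 0) {ed : PN} (hed : DL ed 0 0 0 0 1) {A : PN} (hA : DL A 1 0 0 0 0) {B : PN} (hB : DL B 0 1 0 0 0) {t : PN} (ht : DL t 1 0 1 0 0) {s : PN} (hs : DL s 0 1 0 1 0) {D : PN} (hD : DL D 1 1 0 0 1) {H : PN} (hH : DL H 1 1 0 0 0) {ed2 : PN} (hed2 : DL ed2 0 0 0 0 2) {Hed : PN} (hHed : DL Hed 1 1 0 0 1) {Eas : PN} (hEas : DL Eas 0 0 1 1 0) {X : PN} (hX : DL X 1 1 0 0 0) {Y : PN} (hY : DL Y 1 1 0 0 0) {ApB : PN} (hApB : DL ApB 1 1 0 0 0) {K0 : PN} (hK0 : DL K0 1 1 0 0 0) {Y2 : PN} (hY2 : DL Y2 2 2 0 0 0) {Y3 : PN} (hY3 : DL Y3 3 3 0 0 0) {D2 : PN} (hD2 : DL D2 2 2 0 0 2) {YD : PN} (hYD : DL YD 2 2 0 0 1) {U2 : PN} (hU2 : DL U2 2 2 0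 0 1) {U3 : PN} (hU3 : DL U3 3 3 0 0 2) {U4 : PN} (hU4 : DL U4 4 4 0 0 2) :
    DL (st15 (· + ·) (· + ·) (· * ·) (fun n : ℤ => (C n.natAbs : PN)) p h g ea es ed A B t s D H ed2 Hed Eas X Y ApB K0 Y2 Y3 D2 YD U2 U3 U4) 7 7 2 2 5 :=
  st16_deg p hh hg hea hes hed hA hB ht hs hD hH hed2 hHed hEas hX hY hApB hK0 hY2 hY3 hD2 hYD hU2 hU3 hU4 (dl_add (dl_add (show DL _ 5 5 0 0 3 from dl_mul (dl_add (show DL _ 3 3 0 0 1 from dl_mul (dl_add (show DL _ 2 2 0 0 0 from dl_mul (dl_c _) hY2) (show DL _ 2 2 0 0 0 from dl_mul (dl_c _) (show DL _ 2 2 0 0 0 from dl_mul hY hH))) hHed) (show DL _ 3 3 0 0 1 from dl_mul (dl_c _) (show DL _ 3 3 0 0 1 from dl_mul hD (show DL _ 2 2 0 0 0 from dl_mul hH hH)))) hD2) (show DL _ 5 5 0 0 3 from dl_mul (dl_c _) (show DL _ 5 5 0 0 3 from dl_mul (show DL _ 4 4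 0 0 1 from dl_mul hY2 hYD) (show DL _ 1 1 0 0 2 from dl_mul hHed hed)))) (show DL _ 5 5 0 0 3 from dl_mul (dl_c _) (show DL _ 5 5 0 0 3 from dl_mul (show DL _ 5 5 0 0 0 from dl_mul hY3 hY2) (show DL _ 0 0 0 0 3 from dl_mul hed2 hed))))

theorem st14_deg (p : Par) {h : PN} (hh : DL h 1 0 0 0 0) {g : PN} (hg : DL g 0 1 0 0 0) {ea : PN} (hea : DL ea 0 0 1 0 0) {es : PN} (hes : DL es 0 0 0 1 0) {ed : PN} (hed : DL ed 0 0 0 0 1) {A : PN} (hA : DL A 1 0 0 0 0) {B : PN} (hB : DL B 0 1 0 0 0) {t : PN} (ht : DL t 1 0 1 0 0) {s : PN} (hs : DL s 0 1 0 1 0) {D : PN} (hD : DL D 1 1 0 0 1) {H : PN} (hH : DL H 1 1 0 0 0) {ed2 : PN} (hed2 : DL ed2 0 0 0 0 2) {Hed : PN} (hHed : DL Hed 1 1 0 0 1) {Eas : PN} (hEas : DL Eas 0 0 1 1 0) {X : PN} (hX : DL X 1 1 0 0 0) {Y : PN} (hY : DL Y 1 1 0 0 0)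 {ApB : PN} (hApB : DL ApB 1 1 0 0 0) {K0 : PN} (hK0 : DL K0 1 1 0 0 0) {Y2 : PN} (hY2 : DL Y2 2 2 0 0 0) {Y3 : PN} (hY3 : DL Y3 3 3 0 0 0) {D2 : PN} (hD2 : DL D2 2 2 0 0 2) {YD : PN} (hYD : DL YD 2 2 0 0 1) {U2 : PN} (hU2 : DL U2 2 2 0 0 1) {U3 : PN} (hU3 : DL U3 3 3 0 0 2) :
    DL (st14 (· + ·) (· + ·) (· * ·) (fun n : ℤ => (C n.natAbs : PN)) p h g ea es ed A B t s D H ed2 Hed Eas X Y ApB K0 Y2 Y3 D2 YD U2 U3) 7 7 2 2 5 :=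
  st15_deg p hh hg hea hes hed hA hB ht hs hD hH hed2 hHed hEas hX hY hApB hK0 hY2 hY3 hD2 hYD hU2 hU3 (dl_add (dl_add (show DL _ 4 4 0 0 2 from dl_mul (show DL _ 2 2 0 0 0 from dl_mul (dl_add (show DL _ 1 1 0 0 0 from dl_mul (dl_c _) hY) (show DL _ 1 1 0 0 0 from dl_mul (dl_c _) hH)) hH) hD2) (show DL _ 4 4 0 0 2 from dl_mul (dl_c _) (show DL _ 4 4 0 0 2 from dl_mul (show DL _ 3 3 0 0 1 from dl_mul hY hYD) hHed))) (show DL _ 4 4 0 0 2 from dl_mul (dl_c _) (show DL _ 4 4 0 0 2 from dl_mul (show DL _ 4 4 0 0 0 from dl_mul hY2 hY2) hed2)))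

theorem st13_deg (p : Par) {h : PN} (hh : DL h 1 0 0 0 0) {g : PN} (hg : DL g 0 1 0 0 0) {ea : PN} (hea : DL ea 0 0 1 0 0) {es : PN} (hes : DL es 0 0 0 1 0) {ed : PN} (hed : DL ed 0 0 0 0 1) {A : PN} (hA : DL A 1 0 0 0 0) {B : PN} (hB : DL B 0 1 0 0 0) {t : PN} (ht : DL t 1 0 1 0 0) {s : PN} (hs : DL s 0 1 0 1 0) {D : PN} (hD : DL D 1 1 0 0 1) {H : PN} (hH : DL H 1 1 0 0 0) {ed2 : PN} (hed2 : DL ed2 0 0 0 0 2) {Hed : PN} (hHed : DL Hed 1 1 0 0 1) {Eas : PN} (hEas : DL Eas 0 0 1 1 0) {X : PN} (hX : DL X 1 1 0 0 0) {Y : PN} (hY : DL Y 1 1 0 0 0) {ApB : PN} (hApB : DL ApB 1 1 0 0 0) {K0 : PN} (hK0 : DL K0 1 1 0 0 0) {Y2 : PN} (hY2 : DL Y2 2 2 0 0 0) {Y3 : PN} (hY3 : DL Y3 3 3 0 0 0) {D2 : PN} (hD2 : DL D2 2 2 0 0 2) {YD : PN} (hYD : DL YD 2 2 0 0 1) {U2 : PN} (hU2 : DL U2 2 2 0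 0 1) :
    DL (st13 (· + ·) (· + ·) (· * ·) (fun n : ℤ => (C n.natAbs : PN)) p h g ea es ed A B t s D H ed2 Hed Eas X Y ApB K0 Y2 Y3 D2 YD U2) 7 7 2 2 5 :=
  st14_deg p hh hg hea hes hed hA hB ht hs hD hH hed2 hHed hEas hX hY hApB hK0 hY2 hY3 hD2 hYD hU2 (dl_add (show DL _ 3 3 0 0 2 from dl_mul hH (dl_add hD2 (show DL _ 2 2 0 0 2 from dl_mul (dl_c _) (show DL _ 2 2 0 0 2 from dl_mul hYD hed)))) (show DL _ 3 3 0 0 2 from dl_mul (dl_c _) (show DL _ 3 3 0 0 2 from dl_mul hY3 hed2)))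

theorem st12_deg (p : Par) {h : PN} (hh : DL h 1 0 0 0 0) {g : PN} (hg : DL g 0 1 0 0 0) {ea : PN} (hea : DL ea 0 0 1 0 0) {es : PN} (hes : DL es 0 0 0 1 0) {ed : PN} (hed : DL ed 0 0 0 0 1) {A : PN} (hA : DL A 1 0 0 0 0) {B : PN} (hB : DL B 0 1 0 0 0) {t : PN} (ht : DL t 1 0 1 0 0) {s : PN} (hs : DL s 0 1 0 1 0) {D : PN} (hD : DL D 1 1 0 0 1) {H : PN} (hH : DL H 1 1 0 0 0) {ed2 : PN} (hed2 : DL ed2 0 0 0 0 2) {Hed : PN} (hHed : DL Hed 1 1 0 0 1) {Eas : PN} (hEas : DL Eas 0 0 1 1 0) {X : PN} (hX : DL X 1 1 0 0 0) {Y : PN} (hY : DL Y 1 1 0 0 0) {ApB : PN} (hApB : DL ApB 1 1 0 0 0) {K0 : PN} (hK0 : DL K0 1 1 0 0 0) {Y2 : PN} (hY2 : DL Y2 2 2 0 0 0) {Y3 : PN} (hY3 : DL Y3 3 3 0 0 0) {D2 : PN} (hD2 : DL D2 2 2 0 0 2) {YD : PN} (hYD : DL YD 2 2 0 0 1) :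
    DL (st12 (· + ·) (· + ·) (· * ·) (fun n : ℤ => (C n.natAbs : PN)) p h g ea es ed A B t s D H ed2 Hed Eas X Y ApB K0 Y2 Y3 D2 YD) 7 7 2 2 5 :=
  st13_deg p hh hg hea hes hed hA hB ht hs hD hH hed2 hHed hEas hX hY hApB hK0 hY2 hY3 hD2 hYD (dl_add (show DL _ 2 2 0 0 1 from dl_mul (dl_c _) (show DL _ 2 2 0 0 1 from dl_mul hY2 hed)) (show DL _ 2 2 0 0 1 from dl_mul (dl_c _) (show DL _ 2 2 0 0 1 from dl_mul hD hH)))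

theorem st11_deg (p : Par) {h : PN} (hh : DL h 1 0 0 0 0) {g : PN} (hg : DL g 0 1 0 0 0) {ea : PN} (hea : DL ea 0 0 1 0 0) {es : PN} (hes : DL es 0 0 0 1 0) {ed : PN} (hed : DL ed 0 0 0 0 1) {A : PN} (hA : DL A 1 0 0 0 0) {B : PN} (hB : DL B 0 1 0 0 0) {t : PN} (ht : DL t 1 0 1 0 0) {s : PN} (hs : DL s 0 1 0 1 0) {D : PN} (hD : DL D 1 1 0 0 1) {H : PN} (hH : DL H 1 1 0 0 0) {ed2 : PN} (hed2 : DL ed2 0 0 0 0 2) {Hed : PN} (hHed : DL Hed 1 1 0 0 1) {Eas : PN} (hEas : DL Eas 0 0 1 1 0) {X : PN} (hX : DL X 1 1 0 0 0) {Y : PN} (hY : DL Y 1 1 0 0 0) {ApB : PN} (hApB : DL ApB 1 1 0 0 0) {K0 : PN} (hK0 : DL K0 1 1 0 0 0) {Y2 : PN} (hY2 : DL Y2 2 2 0 0 0) {Y3 : PN} (hY3 : DL Y3 3 3 0 0 0) {D2 : PN} (hD2 : DL D2 2 2 0 0 2) :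
    DL (st11 (· + ·) (· + ·) (· * ·) (fun n : ℤ => (C n.natAbs : PN)) p h g ea es ed A B t s D H ed2 Hed Eas X Y ApB K0 Y2 Y3 D2) 7 7 2 2 5 :=
  st12_deg p hh hg hea hes hed hA hB ht hs hD hH hed2 hHed hEas hX hY hApB hK0 hY2 hY3 hD2 (show DL _ 2 2 0 0 1 from dl_mul hY hD)

theorem st10_deg (p : Par) {h : PN} (hh : DL h 1 0 0 0 0) {g : PN} (hg : DL g 0 1 0 0 0) {ea : PN} (hea : DL ea 0 0 1 0 0) {es : PN} (hes : DL es 0 0 0 1 0) {ed : PN} (hed : DL ed 0 0 0 0 1) {A : PN} (hA : DL A 1 0 0 0 0) {B : PN} (hB : DL B 0 1 0 0 0) {t : PN} (ht : DL t 1 0 1 0 0) {s : PN} (hs : DL s 0 1 0 1 0) {D : PN} (hD : DL D 1 1 0 0 1) {H : PN} (hH : DL H 1 1 0 0 0) {ed2 : PN} (hed2 : DL ed2 0 0 0 0 2) {Hed : PN} (hHed : DL Hed 1 1 0 0 1) {Eas : PN} (hEas : DL Eas 0 0 1 1 0) {X : PN} (hX : DL X 1 1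 0 0 0) {Y : PN} (hY : DL Y 1 1 0 0 0) {ApB : PN} (hApB : DL ApB 1 1 0 0 0) {K0 : PN} (hK0 : DL K0 1 1 0 0 0) {Y2 : PN} (hY2 : DL Y2 2 2 0 0 0) {Y3 : PN} (hY3 : DL Y3 3 3 0 0 0) :
    DL (st10 (· + ·) (· + ·) (· * ·) (fun n : ℤ => (C n.natAbs : PN)) p h g ea es ed A B t s D H ed2 Hed Eas X Y ApB K0 Y2 Y3) 7 7 2 2 5 :=
  st11_deg p hh hg hea hes hed hA hB ht hs hD hH hed2 hHed hEas hX hY hApB hK0 hY2 hY3 (show DL _ 2 2 0 0 2 from dl_mul hD hD)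

theorem st9_deg (p : Par) {h : PN} (hh : DL h 1 0 0 0 0) {g : PN} (hg : DL g 0 1 0 0 0) {ea : PN} (hea : DL ea 0 0 1 0 0) {es : PN} (hes : DL es 0 0 0 1 0) {ed : PN} (hed : DL ed 0 0 0 0 1) {A : PN} (hA : DL A 1 0 0 0 0) {B : PN} (hB : DL B 0 1 0 0 0) {t : PN} (ht : DL t 1 0 1 0 0) {s : PN} (hs : DL s 0 1 0 1 0) {D : PN} (hD : DL D 1 1 0 0 1) {H : PN} (hH : DL H 1 1 0 0 0) {ed2 : PN} (hed2 : DL ed2 0 0 0 0 2) {Hed : PN} (hHed : DL Hed 1 1 0 0 1) {Eas : PN} (hEas : DL Eas 0 0 1 1 0) {X : PN} (hX : DL X 1 1 0 0 0) {Y : PN} (hY : DL Y 1 1 0 0 0) {ApB : PN} (hApB : DL ApB 1 1 0 0 0) {K0 : PN} (hK0 : DL K0 1 1 0 0 0) {Y2 : PN} (hY2 : DL Y2 2 2 0 0 0) :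
    DL (st9 (· + ·) (· + ·) (· * ·) (fun n : ℤ => (C n.natAbs : PN)) p h g ea es ed A B t s D H ed2 Hed Eas X Y ApB K0 Y2) 7 7 2 2 5 :=
  st10_deg p hh hg hea hes hed hA hB ht hs hD hH hed2 hHed hEas hX hY hApB hK0 hY2 (show DL _ 3 3 0 0 0 from dl_mul hY2 hY)

theorem st8_deg (p : Par) {h : PN} (hh : DL h 1 0 0 0 0) {g : PN} (hg : DL g 0 1 0 0 0) {ea : PN} (hea : DL ea 0 0 1 0 0) {es : PN} (hes : DL es 0 0 0 1 0) {ed : PN} (hed : DL ed 0 0 0 0 1) {A : PN} (hA : DL A 1 0 0 0 0) {B : PN} (hB : DL B 0 1 0 0 0) {t : PN} (ht : DL t 1 0 1 0 0) {s : PN} (hs : DL s 0 1 0 1 0) {D : PN} (hD : DL D 1 1 0 0 1) {H : PN} (hH : DL H 1 1 0 0 0) {ed2 : PN} (hed2 : DL ed2 0 0 0 0 2) {Hed : PN} (hHed : DL Hed 1 1 0 0 1) {Eas : PN} (hEas : DL Eas 0 0 1 1 0) {X : PN} (hX : DL X 1 1 0 0 0) {Y : PN}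 (hY : DL Y 1 1 0 0 0) {ApB : PN} (hApB : DL ApB 1 1 0 0 0) {K0 : PN} (hK0 : DL K0 1 1 0 0 0) :
    DL (st8 (· + ·) (· + ·) (· * ·) (fun n : ℤ => (C n.natAbs : PN)) p h g ea es ed A B t s D H ed2 Hed Eas X Y ApB K0) 7 7 2 2 5 :=
  st9_deg p hh hg hea hes hed hA hB ht hs hD hH hed2 hHed hEas hX hY hApB hK0 (show DL _ 2 2 0 0 0 from dl_mul hY hY)

theorem st7_deg (p : Par) {h : PN} (hh : DL h 1 0 0 0 0) {g : PN} (hg : DL g 0 1 0 0 0) {ea : PN} (hea : DL ea 0 0 1 0 0) {es : PN} (hes : DL es 0 0 0 1 0) {ed : PN} (hed : DL ed 0 0 0 0 1) {A : PN} (hA : DL A 1 0 0 0 0) {B : PN} (hB : DL B 0 1 0 0 0) {t : PN} (ht : DL t 1 0 1 0 0) {s : PN} (hs : DL s 0 1 0 1 0) {D : PN} (hD : DL D 1 1 0 0 1) {H : PN} (hH : DL H 1 1 0 0 0) {ed2 : PN} (hed2 : DL ed2 0 0 0 0 2) {Hed : PN} (hHed : DL Hed 1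 1 0 0 1) {Eas : PN} (hEas : DL Eas 0 0 1 1 0) {X : PN} (hX : DL X 1 1 0 0 0) {Y : PN} (hY : DL Y 1 1 0 0 0) {ApB : PN} (hApB : DL ApB 1 1 0 0 0) :
    DL (st7 (· + ·) (· + ·) (· * ·) (fun n : ℤ => (C n.natAbs : PN)) p h g ea es ed A B t s D H ed2 Hed Eas X Y ApB) 7 7 2 2 5 :=
  st8_deg p hh hg hea hes hed hA hB ht hs hD hH hed2 hHed hEas hX hY hApB (dl_add hY hApB)

theorem st6_deg (p : Par) {h : PN} (hh : DL h 1 0 0 0 0) {g : PN} (hg : DL g 0 1 0 0 0) {ea : PN} (hea : DL ea 0 0 1 0 0) {es : PN} (hes : DL es 0 0 0 1 0) {ed : PN} (hed : DL ed 0 0 0 0 1) {A : PN} (hA : DL A 1 0 0 0 0) {B : PN} (hB : DL B 0 1 0 0 0) {t : PN} (ht : DL t 1 0 1 0 0) {s : PN} (hs : DL s 0 1 0 1 0) {D : PN} (hD : DL D 1 1 0 0 1) {H : PN} (hH : DL H 1 1 0 0 0) {ed2 : PN} (hed2 : DL ed2 0 0 0 0 2) {Hed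 : PN} (hHed : DL Hed 1 1 0 0 1) {Eas : PN} (hEas : DL Eas 0 0 1 1 0) {X : PN} (hX : DL X 1 1 0 0 0) {Y : PN} (hY : DL Y 1 1 0 0 0) :
    DL (st6 (· + ·) (· + ·) (· * ·) (fun n : ℤ => (C n.natAbs : PN)) p h g ea es ed A B t s D H ed2 Hed Eas X Y) 7 7 2 2 5 :=
  st7_deg p hh hg hea hes hed hA hB ht hs hD hH hed2 hHed hEas hX hY (dl_add (show DL _ 1 1 0 0 0 from dl_mul hA hg) (show DL _ 1 1 0 0 0 from dl_mul hB hh))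

theorem st5_deg (p : Par) {h : PN} (hh : DL h 1 0 0 0 0) {g : PN} (hg : DL g 0 1 0 0 0) {ea : PN} (hea : DL ea 0 0 1 0 0) {es : PN} (hes : DL es 0 0 0 1 0) {ed : PN} (hed : DL ed 0 0 0 0 1) {A : PN} (hA : DL A 1 0 0 0 0) {B : PN} (hB : DL B 0 1 0 0 0) {t : PN} (ht : DL t 1 0 1 0 0) {s : PN} (hs : DL s 0 1 0 1 0) {D : PN} (hD : DL D 1 1 0 0 1) {H : PN} (hH : DL H 1 1 0 0 0) {ed2 : PN} (hed2 : DL ed2 0 0 0 0 2) {Hed : PN} (hHed : DL Hed 1 1 0 0 1) {Eas : PN} (hEas : DL Eas 0 0 1 1 0) {X : PN} (hX : DL X 1 1 0 0 0) :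
    DL (st5 (· + ·) (· + ·) (· * ·) (fun n : ℤ => (C n.natAbs : PN)) p h g ea es ed A B t s D H ed2 Hed Eas X) 7 7 2 2 5 :=
  st6_deg p hh hg hea hes hed hA hB ht hs hD hH hed2 hHed hEas hX (dl_add hH hX)

theorem st4_deg (p : Par) {h : PN} (hh : DL h 1 0 0 0 0) {g : PN} (hg : DL g 0 1 0 0 0) {ea : PN} (hea : DL ea 0 0 1 0 0) {es : PN} (hes : DL es 0 0 0 1 0) {ed : PN} (hed : DL ed 0 0 0 0 1) {A : PN} (hA : DL A 1 0 0 0 0) {B : PN} (hB : DL B 0 1 0 0 0) {t : PN} (ht : DL t 1 0 1 0 0) {s : PN} (hs : DL s 0 1 0 1 0) {D : PN} (hD : DL D 1 1 0 0 1) {H : PN} (hH : DL H 1 1 0 0 0) {ed2 : PN} (hed2 : DL ed2 0 0 0 0 2) {Hed : PN} (hHed : DL Hed 1 1 0 0 1) {Eas : PN} (hEas : DL Eas 0 0 1 1 0) :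
    DL (st4 (· + ·) (· + ·) (· * ·) (fun n : ℤ => (C n.natAbs : PN)) p h g ea es ed A B t s D H ed2 Hed Eas) 7 7 2 2 5 :=
  st5_deg p hh hg hea hes hed hA hB ht hs hD hH hed2 hHed hEas (show DL _ 1 1 0 0 0 from dl_mul hA hB)

theorem st3_deg (p : Par) {h : PN} (hh : DL h 1 0 0 0 0) {g : PN} (hg : DL g 0 1 0 0 0) {ea : PN} (hea : DL ea 0 0 1 0 0) {es : PN} (hes : DL es 0 0 0 1 0) {ed : PN} (hed : DL ed 0 0 0 0 1) {A : PN} (hA : DL A 1 0 0 0 0) {B : PN} (hB : DL B 0 1 0 0 0) {t : PN} (ht : DL t 1 0 1 0 0) {s : PN} (hs : DL s 0 1 0 1 0) {D : PN} (hD : DL D 1 1 0 0 1) {H : PN} (hH : DL H 1 1 0 0 0) {ed2 : PN} (hed2 : DL ed2 0 0 0 0 2) {Hed : PN} (hHed : DL Hed 1 1 0 0 1) :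
    DL (st3 (· + ·) (· + ·) (· * ·) (fun n : ℤ => (C n.natAbs : PN)) p h g ea es ed A B t s D H ed2 Hed) 7 7 2 2 5 :=
  st4_deg p hh hg hea hes hed hA hB ht hs hD hH hed2 hHed (show DL _ 0 0 1 1 0 from dl_mul hea hes)

theorem st2_deg (p : Par) {h : PN} (hh : DL h 1 0 0 0 0) {g : PN} (hg : DL g 0 1 0 0 0) {ea : PN} (hea : DL ea 0 0 1 0 0) {es : PN} (hes : DL es 0 0 0 1 0) {ed : PN} (hed : DL ed 0 0 0 0 1) {A : PN} (hA : DL A 1 0 0 0 0) {B : PN} (hB : DL B 0 1 0 0 0) {t : PN} (ht : DL t 1 0 1 0 0) {s : PN} (hs : DL s 0 1 0 1 0) {D : PN} (hD : DL D 1 1 0 0 1) {H : PN} (hH : DL H 1 1 0 0 0) {ed2 : PN} (hed2 : DL ed2 0 0 0 0 2) :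
    DL (st2 (· + ·) (· + ·) (· * ·) (fun n : ℤ => (C n.natAbs : PN)) p h g ea es ed A B t s D H ed2) 7 7 2 2 5 :=
  st3_deg p hh hg hea hes hed hA hB ht hs hD hH hed2 (show DL _ 1 1 0 0 1 from dl_mul hH hed)

theorem st1_deg (p : Par) {h : PN} (hh : DL h 1 0 0 0 0) {g : PN} (hg : DL g 0 1 0 0 0) {ea : PN} (hea : DL ea 0 0 1 0 0) {es : PN} (hes : DL es 0 0 0 1 0) {ed : PN} (hed : DL ed 0 0 0 0 1) {A : PN} (hA : DL A 1 0 0 0 0) {B : PN} (hB : DL B 0 1 0 0 0) {t : PN} (ht : DL t 1 0 1 0 0) {s : PN} (hs : DL s 0 1 0 1 0) {D : PN} (hD : DL D 1 1 0 0 1) {H : PN} (hH : DL H 1 1 0 0 0) :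
    DL (st1 (· + ·) (· + ·) (· * ·) (fun n : ℤ => (C n.natAbs : PN)) p h g ea es ed A B t s D H) 7 7 2 2 5 :=
  st2_deg p hh hg hea hes hed hA hB ht hs hD hH (show DL _ 0 0 0 0 2 from dl_mul hed hed)

theorem st0_deg (p : Par) {h : PN} (hh : DL h 1 0 0 0 0) {g : PN} (hg : DL g 0 1 0 0 0) {ea : PN} (hea : DL ea 0 0 1 0 0) {es : PN} (hes : DL es 0 0 0 1 0) {ed : PN} (hed : DL ed 0 0 0 0 1) {A : PN} (hA : DL A 1 0 0 0 0) {B : PN} (hB : DL B 0 1 0 0 0) {t : PN} (ht : DL t 1 0 1 0 0) {s : PN} (hs : DL s 0 1 0 1 0) {D : PN} (hD : DL D 1 1 0 0 1) :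
    DL (st0 (· + ·) (· + ·) (· * ·) (fun n : ℤ => (C n.natAbs : PN)) p h g ea es ed A B t s D) 7 7 2 2 5 :=
  st1_deg p hh hg hea hes hed hA hB ht hs hD (show DL _ 1 1 0 0 0 from dl_mul hh hg)


theorem psiH_deg (p : Par) {h : PN} (hh : DL h 1 0 0 0 0) {g : PN} (hg : DL g 0 1 0 0 0) {ea : PN} (hea : DL ea 0 0 1 0 0) {es : PN} (hes : DL es 0 0 0 1 0) {ed : PN} (hed : DL ed 0 0 0 0 1) {A : PN} (hA : DL A 1 0 0 0 0) {B : PN} (hB : DL B 0 1 0 0 0) {t : PN} (ht : DL t 1 0 1 0 0) {s : PN} (hs : DL s 0 1 0 1 0) {D : PN} (hD : DL D 1 1 0 0 1) :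
    DL (psiH (· + ·) (· + ·) (· * ·) (fun n : ℤ => (C n.natAbs : PN)) p h g ea es ed A B t s D) 7 7 2 2 5 :=
  st0_deg p hh hg hea hes hed hA hB ht hs hD

end Vale.Agent.P154
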