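import Vale.Agent.P154.KB4a
import Vale.Agent.P154.KB4b
import Vale.Agent.P154.KB4c
import Vale.Agent.P154.KB4d
import Vale.Agent.P154.KB4e
import Vale.Agent.P154.KB4f
import Vale.Agent.P154.KB4g
import Vale.Agent.P154.KB4h
import Vale.Agent.P154.PkCov

/-!
# Kernel checks (B4), assembled
-/

set_option linter.all false

namespace Vale.Agent.P154.Dat.B4

open Pk

theorem all_app {f : Cell → Bool} {l m : List Cell} (h1 : l.all f = true) (h2 : m.all f = true) :
    (l ++ m).all f = true := by
  rw [List.all_append, h1, h2]; rfl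

def c0 : List Cell :=
  g0 ++ (g1 ++ (g2 ++ (g3 ++ (g4 ++ (g5 ++ (g6 ++ (g7 ++ (g8 ++ (g9)))))))))

theorem run_c0 : c0.all (fun c => run Dat.A4.ch famB 90 c rows) = true :=
  all_app run_g0 (all_app run_g1 (all_app run_g2 (all_app run_g3 (all_app run_g4 (all_app run_g5 (all_app run_g6 (all_app run_g7 (all_app run_g8 (run_g9)))))))))

def c1 : List Cell :=
  g10 ++ (g11 ++ (g12 ++ (g13 ++ (g14 ++ (g15 ++ (g16 ++ (g17 ++ (g18 ++ (g19)))))))))

theorem run_c1 : c1.all (fun c => run Dat.A4.ch famB 90 c rows) = true :=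
  all_app run_g10 (all_app run_g11 (all_app run_g12 (all_app run_g13 (all_app run_g14 (all_app run_g15 (all_app run_g16 (all_app run_g17 (all_app run_g18 (run_g19)))))))))

def c2 : List Cell :=
  g20 ++ (g21 ++ (g22 ++ (g23 ++ (g24 ++ (g25 ++ (g26 ++ (g27 ++ (g28 ++ (g29)))))))))

theorem run_c2 : c2.all (fun c => run Dat.A4.ch famB 90 c rows) = true :=
  all_app run_g20 (all_app run_g21 (all_app run_g22 (all_app run_g23 (all_app run_g24 (all_app run_g25 (all_app run_g26 (all_app run_g27 (all_app run_g28 (run_g29)))))))))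

def c3 : List Cell :=
  g30 ++ (g31 ++ (g32 ++ (g33 ++ (g34 ++ (g35 ++ (g36 ++ (g37 ++ (g38 ++ (g39)))))))))

theorem run_c3 : c3.all (fun c => run Dat.A4.ch famB 90 c rows) = true :=
  all_app run_g30 (all_app run_g31 (all_app run_g32 (all_app run_g33 (all_app run_g34 (all_app run_g35 (all_app run_g36 (all_app run_g37 (all_app run_g38 (run_g39)))))))))

def c4 : List Cell :=
  g40 ++ (g41 ++ (g42 ++ (g43 ++ (g44 ++ (g45 ++ (g46 ++ (g47 ++ (g48 ++ (g49)))))))))

theorem run_c4 : c4.all (fun c => run Dat.A4.ch famB 90 c rows) = true :=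
  all_app run_g40 (all_app run_g41 (all_app run_g42 (all_app run_g43 (all_app run_g44 (all_app run_g45 (all_app run_g46 (all_app run_g47 (all_app run_g48 (run_g49)))))))))

def c5 : List Cell :=
  g50 ++ (g51 ++ (g52 ++ (g53 ++ (g54 ++ (g55 ++ (g56 ++ (g57 ++ (g58 ++ (g59)))))))))

theorem run_c5 : c5.all (fun c => run Dat.A4.ch famB 90 c rows) = true :=
  all_app run_g50 (all_app run_g51 (all_app run_g52 (all_app run_g53 (all_app run_g54 (all_app run_g55 (all_app run_g56 (all_app run_g57 (all_app run_g58 (run_g59)))))))))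

def c6 : List Cell :=
  g60 ++ (g61 ++ (g62 ++ (g63 ++ (g64 ++ (g65 ++ (g66 ++ (g67 ++ (g68 ++ (g69)))))))))

theorem run_c6 : c6.all (fun c => run Dat.A4.ch famB 90 c rows) = true :=
  all_app run_g60 (all_app run_g61 (all_app run_g62 (all_app run_g63 (all_app run_g64 (all_app run_g65 (all_app run_g66 (all_app run_g67 (all_app run_g68 (run_g69)))))))))

def c7 : List Cell :=
  g70 ++ (g71 ++ (g72 ++ (g73 ++ (g74 ++ (g75 ++ (g76 ++ (g77 ++ (g78 ++ (g79)))))))))

theorem run_c7 : c7.all (fun c => run Dat.A4.ch famB 90 c rows) = true :=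
  all_app run_g70 (all_app run_g71 (all_app run_g72 (all_app run_g73 (all_app run_g74 (all_app run_g75 (all_app run_g76 (all_app run_g77 (all_app run_g78 (run_g79)))))))))

def c8 : List Cell :=
  g80 ++ (g81 ++ (g82 ++ (g83 ++ (g84 ++ (g85 ++ (g86 ++ (g87 ++ (g88 ++ (g89)))))))))

theorem run_c8 : c8.all (fun c => run Dat.A4.ch famB 90 c rows) = true :=
  all_app run_g80 (all_app run_g81 (all_app run_g82 (all_app run_g83 (all_app run_g84 (all_app run_g85 (all_app run_g86 (all_app run_g87 (all_app run_g88 (run_g89)))))))))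

def c9 : List Cell :=
  g90 ++ (g91 ++ (g92))

theorem run_c9 : c9.all (fun c => run Dat.A4.ch famB 90 c rows) = true :=
  all_app run_g90 (all_app run_g91 (run_g92))

def cells : List Cell :=
  c0 ++ (c1 ++ (c2 ++ (c3 ++ (c4 ++ (c5 ++ (c6 ++ (c7 ++ (c8 ++ (c9)))))))))

theorem cells_cover : coverC cells 80 ⟨216172782113783808, 216172782113783808, 144115188075855872,
    144115188075855872⟩ = true := by decide +kernel

theorem cells_all : cells.all (fun c => run Dat.A4.ch famB 90 c rows) = true :=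
  all_app run_c0 (all_app run_c1 (all_app run_c2 (all_app run_c3 (all_app run_c4 (all_app run_c5 (all_app run_c6 (all_app run_c7 (all_app run_c8 (run_c9)))))))))

theorem runs : ∀ c ∈ cells, ∃ n, run Dat.A4.ch famB n c rows = true :=
  fun c hc => ⟨90, List.all_eq_true.mp cells_all c hc⟩

end Vale.Agent.P154.Dat.B4
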