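import Mathlib

/-!
# Packed Taylor forms: the program

A packed form `⟨p, n, N, e⟩` stands for `f - g` where `f`, `g` are polynomials in two variables
`s, t` with natural coefficients; `p` (resp. `n`) is the value of `f` (resp. `g`) at
`s = 2 ^ 600`, `t = 2 ^ 6000`; `N` is the sum of all the coefficients of `f` and `g`, and `e`
is an error.  Coordinates are divided by `4` and have `60` binary digits.

Everything is written with the primitive functions on `ℕ`, since it is run by the kernel.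
-/

set_option linter.dupNamespace false

namespace Vale.Agent.P154.Pk

/-- packed form -/
structure Pk where
  p : ℕ
  n : ℕ
  N : ℕ
  e : ℕ

/-- sum -/
def Pk.add (F G : Pk) : Pk := ⟨Nat.add F.p G.p, Nat.add F.n G.n, Nat.add F.N G.N, Nat.add F.e G.e⟩

/-- opposite -/
def Pk.neg (F : Pk) : Pk := ⟨F.n, F.p, F.N, F.e⟩

/-- product -/
def Pk.mul (F G : Pk) : Pk :=
  ⟨Nat.add (Nat.mul F.p G.p) (Nat.mul F.n G.n), Nat.add (Nat.mul F.p G.n) (Nat.mul F.n G.p),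
   Nat.mul F.N G.N, Nat.add (Nat.mul F.e (Nat.add G.N G.e)) (Nat.mul G.e F.N)⟩

/-- multiplication by a natural number (a power of two) -/
def Pk.sc (k : ℕ) (F : Pk) : Pk := ⟨Nat.mul k F.p, Nat.mul k F.n, Nat.mul k F.N, Nat.mul k F.e⟩

/-- a signed constant `p - n` with error `e` -/
def cst (p n e : ℕ) : Pk := ⟨p, n, Nat.add p n, e⟩

/-- binary tree of complex constants (real part `a - b`, imaginary part `c - d`) -/
inductive Tr
  | lf (a b c d : ℕ) : Tr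
  | nd (l r : Tr) : Tr

/-- complex constant -/
structure Cx where
  a : ℕ
  b : ℕ
  c : ℕ
  d : ℕ

/-- entry of a tree -/
def Tr.get : Tr → ℕ → Cx
  | Tr.lf a b c d, _ => ⟨a, b, c, d⟩
  | Tr.nd l r, i => bif Nat.beq (Nat.mod i 2) 0 then l.get (Nat.div i 2) else r.get (Nat.div i 2)

/-- exponent `al = (pr + I * pi) / 60` with its tables; constants in units `2 ^ (-32)`,
tables in units `2 ^ (-44)` -/
structure Ex where
  /-- real part times `60` -/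
  pr : ℕ
  /-- imaginary part times `60` -/
  pi : ℕ
  /-- `C(al, 1)` -/
  c1 : Cx
  /-- `C(al, 2)` -/
  c2 : Cx
  /-- `C(al, 3)` -/
  c3 : Cx
  /-- upper bound of `2 ^ 32 * |C(al, 4)|` -/
  g4 : ℕ
  /-- table of `(n / 64) ^ al`, index `64 - n` -/
  A : Tr
  /-- table of `2 ^ (- j * al)` -/
  B : Tr

/-- error of the tables, in units `2 ^ (-44)` -/
def E0 : ℕ := 8192

/-- `2 ^ 44` -/
def S44 : ℕ := 17592186044416
/-- `2 ^ 32` -/
def T : ℕ := 4294967296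
/-- `2 ^ 60` -/
def S60 : ℕ := 1152921504606846976

/-- real part of `c0 ^ al`, `c0 = (n / 64) 2 ^ (-j)`, units `2 ^ (-44)` -/
def zre (x y : Cx) : Pk :=
  cst (Nat.div (Nat.add (Nat.add (Nat.mul x.a y.a) (Nat.mul x.b y.b)) (Nat.add (Nat.mul x.c y.d) (Nat.mul x.d y.c))) S44)
    (Nat.div (Nat.add (Nat.add (Nat.mul x.a y.b) (Nat.mul x.b y.a)) (Nat.add (Nat.mul x.c y.c) (Nat.mul x.d y.d))) S44) E0

/-- imaginary part of `c0 ^ al` -/
def zim (x y : Cx) : Pk :=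
  cst (Nat.div (Nat.add (Nat.add (Nat.mul x.a y.c) (Nat.mul x.b y.d)) (Nat.add (Nat.mul x.c y.a) (Nat.mul x.d y.b))) S44)
    (Nat.div (Nat.add (Nat.add (Nat.mul x.a y.d) (Nat.mul x.b y.c)) (Nat.add (Nat.mul x.c y.b) (Nat.mul x.d y.a))) S44) E0

/-- affine form `v + (ap - an) s + (bp - bn) t`, up to `e`, units `2 ^ (-60)` -/
structure Af where
  v : ℕ
  ap : ℕ
  an : ℕ
  bp : ℕ
  bn : ℕ
  e : ℕ

/-- `2 ^ 600` -/
def BX : ℕ := Nat.pow 2 600
/-- `2 ^ 6000` -/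
def BY : ℕ := Nat.pow 2 6000

/-- packed affine polynomial -/
def aff (c a b : ℕ) : ℕ := Nat.add c (Nat.add (Nat.mul a BX) (Nat.mul b BY))

/-- data of a coordinate -/
structure Co where
  ok : Bool
  n : ℕ
  j : ℕ
  /-- form of `ε = X / c0 - 1`, units `2 ^ (-32)` -/
  ep : Pk
  /-- square -/
  e2 : Pk
  /-- cube -/
  e3 : Pk
  /-- fourth power of `M / (1 - M)` -/
  m4 : ℕ

/-- quotient of `x` by `c0`, units `2 ^ (-32)` -/
def qt (x c0 : ℕ) : ℕ := Nat.div (Nat.mul x T) c0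

/-- form of `ε` -/
def mkEp (F : Af) (c0 : ℕ) : Pk :=
  ⟨aff (qt (Nat.sub F.v c0) c0) (qt F.ap c0) (qt F.bp c0),
   aff (qt (Nat.sub c0 F.v) c0) (qt F.an c0) (qt F.bn c0),
   Nat.add (Nat.add (qt (Nat.sub F.v c0) c0) (qt (Nat.sub c0 F.v) c0))
    (Nat.add (Nat.add (qt F.ap c0) (qt F.an c0)) (Nat.add (qt F.bp c0) (qt F.bn c0))),
   Nat.add (qt F.e c0) 6⟩

/-- ratio `M / (1 - M)` -/
def rat (M : ℕ) : ℕ := Nat.add (Nat.div (Nat.mul M T) (Nat.sub T M)) 1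

/-- fourth power -/
def p4 (x : ℕ) : ℕ := Nat.mul (Nat.mul x x) (Nat.mul x x)

/-- second stage -/
def mkCo2 (n j : ℕ) (E : Pk) : Co :=
  ⟨true, n, j, E, E.mul E, (E.mul E).mul E, p4 (rat (Nat.add E.N E.e))⟩

/-- rounding to a mantissa with `6` digits -/
def mant (v k : ℕ) : ℕ := Nat.div (Nat.add v (Nat.pow 2 (Nat.sub k 6))) (Nat.pow 2 (Nat.sub k 5))

/-- first stage -/
def mkCo1 (F : Af) (k n : ℕ) : Co :=
  mkCo2 n (Nat.sub 59 k) (mkEp F (Nat.mul n (Nat.pow 2 (Nat.sub k 5))))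

/-- a coordinate close to `0` (or a large cell) -/
def mkCo0 (h k : ℕ) : Co :=
  bif Nat.ble 60 k then ⟨false, 64, 0, ⟨0, 0, 0, 0⟩, ⟨0, 0, 0, 0⟩, ⟨0, 0, 0, 0⟩, 0⟩
  else ⟨false, Nat.add (Nat.div h (Nat.pow 2 (Nat.sub k 5))) 1, Nat.sub 59 k, ⟨0, 0, 0, 0⟩, ⟨0, 0, 0, 0⟩, ⟨0, 0, 0, 0⟩, 0⟩

/-- radius -/
def Af.rad (F : Af) : ℕ := Nat.add (Nat.add (Nat.add F.ap F.an) (Nat.add F.bp F.bn)) F.e

/-- data of a coordinate given by an affine form -/
def mkCo (F : Af) : Co :=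
  bif Nat.ble (Nat.mul 4 F.rad) (Nat.mul 3 F.v) && (Nat.ble 128 F.v && Nat.blt F.v S60) then
    mkCo1 F (Nat.log2 F.v) (mant F.v (Nat.log2 F.v))
  else
    mkCo0 (Nat.add (Nat.add F.v F.rad) 128) (Nat.log2 (Nat.add (Nat.add F.v F.rad) 128))

/-- constants `2 ^ 128`, `2 ^ 64`, `2 ^ 172`, `2 ^ 516` -/
def P128 : ℕ := Nat.pow 2 128
/-- see above -/
def P64 : ℕ := Nat.pow 2 64
/-- see above -/
def P172 : ℕ := Nat.pow 2 172
/-- see above -/
def P516 : ℕ := Nat.pow 2 516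

/-- polynomial part of a power, without the constant `1`, units `2 ^ (-128)` -/
def pol3 (a1 a2 a3 : Pk) (c : Co) : Pk :=
  (Pk.sc P64 (a1.mul c.ep)).add ((Pk.sc T (a2.mul c.e2)).add (a3.mul c.e3))

/-- real part of the Taylor polynomial with its remainder -/
def tre (x : Ex) (c : Co) : Pk :=
  (⟨P128, 0, P128, Nat.add (Nat.div (Nat.mul x.g4 c.m4) T) 1⟩ : Pk).add
    (pol3 (cst x.c1.a x.c1.b 1) (cst x.c2.a x.c2.b 1) (cst x.c3.a x.c3.b 1) c)

/-- imaginary part of the Taylor polynomial with its remainder -/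
def tim (x : Ex) (c : Co) : Pk :=
  (⟨0, 0, 0, Nat.add (Nat.div (Nat.mul x.g4 c.m4) T) 1⟩ : Pk).add
    (pol3 (cst x.c1.c x.c1.d 1) (cst x.c2.c x.c2.d 1) (cst x.c3.c x.c3.d 1) c)

/-- form of a complex power -/
structure CP where
  re : Pk
  im : Pk

/-- complex product -/
def cpm (z w : CP) : CP := ⟨(z.re.mul w.re).add (z.im.mul w.im).neg, (z.re.mul w.im).add (z.im.mul w.re)⟩

/-- error form -/
def bnd (x : ℕ) : Pk := ⟨0, 0, 0, Nat.mul P128 (Nat.add x E0)⟩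

/-- `X ^ al`, units `2 ^ (-172)` -/
def pw (x : Ex) (c : Co) : CP :=
  bif c.ok then
    cpm ⟨zre (x.A.get (Nat.sub 64 c.n)) (x.B.get c.j), zim (x.A.get (Nat.sub 64 c.n)) (x.B.get c.j)⟩
      ⟨tre x c, tim x c⟩
  else
    ⟨bnd (Nat.add (zre (x.A.get (Nat.sub 64 c.n)) (x.B.get c.j)).N (zim (x.A.get (Nat.sub 64 c.n)) (x.B.get c.j)).N),
     bnd (Nat.add (zre (x.A.get (Nat.sub 64 c.n)) (x.B.get c.j)).N (zim (x.A.get (Nat.sub 64 c.n)) (x.B.get c.j)).N)⟩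

/-- `X ^ al` for a real exponent, units `2 ^ (-172)` -/
def pwr (x : Ex) (c : Co) : Pk :=
  bif c.ok then
    (zre (x.A.get (Nat.sub 64 c.n)) (x.B.get c.j)).mul (tre x c)
  else
    bnd (zre (x.A.get (Nat.sub 64 c.n)) (x.B.get c.j)).N

/-- `|z1 + z2 + z3|²` -/
def nsq (z1 z2 z3 : CP) : Pk :=
  ((z1.re.add (z2.re.add z3.re)).mul (z1.re.add (z2.re.add z3.re))).add
  ((z1.im.add (z2.im.add z3.im)).mul (z1.im.add (z2.im.add z3.im)))

/-- `Re (z conj w)` -/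
def rcj (z w : CP) : Pk := (z.re.mul w.re).add (z.im.mul w.im)

/-- `Σ w_k Re (z_i conj z_j)` -/
def gen3 (w1 w2 w3 : Pk) (z1 z2 z3 : CP) : Pk :=
  (w1.mul (rcj z2 z3)).add ((w2.mul (rcj z3 z1)).add (w3.mul (rcj z1 z2)))

/-- `4 X - 1`, units `2 ^ (-60)` -/
def yv (F : Af) : Pk :=
  ⟨aff (Nat.sub (Nat.mul 4 F.v) S60) (Nat.mul 4 F.ap) (Nat.mul 4 F.bp),
   aff (Nat.sub S60 (Nat.mul 4 F.v)) (Nat.mul 4 F.an) (Nat.mul 4 F.bn),
   Nat.add (Nat.add (Nat.sub (Nat.mul 4 F.v) S60) (Nat.sub S60 (Nat.mul 4 F.v)))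
    (Nat.mul 4 (Nat.add (Nat.add F.ap F.an) (Nat.add F.bp F.bn))),
   Nat.mul 4 F.e⟩

/-- `Σ y²`, units `2 ^ (-120)` -/
def fs (F G H : Af) : Pk := ((yv F).mul (yv F)).add (((yv G).mul (yv G)).add ((yv H).mul (yv H)))

/-- product of the `y`, units `2 ^ (-180)` -/
def ft (F G H : Af) : Pk := ((yv F).mul (yv G)).mul (yv H)

/-- the functions: `gE (1/2) t` (exponent `1/2 + i t`), `gE a t`, and monomials in
`s3 = Σ y²`, `t = Π y` -/
inductive GF
  | half (z : Ex) : GF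
  | gen (z w : Ex) : GF
  | pol (k : ℕ) : GF

/-- a point: three affine forms with their data -/
structure Pt where
  f1 : Af
  f2 : Af
  f3 : Af
  c1 : Co
  c2 : Co
  c3 : Co

/-- monomials `s3, t, s3², s3 t, s3³, t²`, units `2 ^ (-516)` -/
def monE (k : ℕ) (P : Pt) : Pk :=
  match k with
  | 0 => Pk.sc (Nat.pow 2 396) (fs P.f1 P.f2 P.f3)
  | 1 => Pk.sc (Nat.pow 2 336) (ft P.f1 P.f2 P.f3)
  | 2 => Pk.sc (Nat.pow 2 276) ((fs P.f1 P.f2 P.f3).mul (fs P.f1 P.f2 P.f3))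
  | 3 => Pk.sc (Nat.pow 2 216) ((fs P.f1 P.f2 P.f3).mul (ft P.f1 P.f2 P.f3))
  | 4 => Pk.sc (Nat.pow 2 156) (((fs P.f1 P.f2 P.f3).mul (fs P.f1 P.f2 P.f3)).mul (fs P.f1 P.f2 P.f3))
  | _ => Pk.sc (Nat.pow 2 156) ((ft P.f1 P.f2 P.f3).mul (ft P.f1 P.f2 P.f3))

/-- form of the basic quantity of a function, units `2 ^ (-516)` -/
def qF (g : GF) (P : Pt) : Pk :=
  match g with
  | GF.half z => Pk.sc P172 (nsq (pw z P.c1) (pw z P.c2) (pw z P.c3))
  | GF.gen z w => gen3 (pwr w P.c1) (pwr w P.c2) (pwr w P.c3) (pw z P.c1) (pw z P.c2) (pw z P.c3)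
  | GF.pol k => monE k P

/-- signed integer `p - n` -/
structure Sg where
  p : ℕ
  n : ℕ

/-- signed multiple -/
def sm (k : Sg) (F : Pk) : Pk :=
  ⟨Nat.add (Nat.mul k.p F.p) (Nat.mul k.n F.n), Nat.add (Nat.mul k.p F.n) (Nat.mul k.n F.p),
   Nat.mul (Nat.add k.p k.n) F.N, Nat.mul (Nat.add k.p k.n) F.e⟩

/-- term of `6 H` contributed by a function `g` with coefficient `k` and basic form `F` -/
def term (g : GF) (k : Sg) (F : Pk) : Pk :=
  match g with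
  | GF.half _ => (Pk.sc 4 (sm k F)).add (cst (Nat.mul (Nat.mul 3 k.n) P516) (Nat.mul (Nat.mul 3 k.p) P516) 0)
  | GF.gen _ _ => Pk.sc 8 (sm k F)
  | GF.pol _ => Pk.sc 6 (sm k F)

/-- sum of the terms -/
def comb : List GF → List Sg → List Pk → Pk → Pk
  | g :: gs, k :: ks, F :: Fs, acc => comb gs ks Fs (acc.add (term g k F))
  | _, _, _, acc => acc

/-- a row: the inequality `0 < c + Σ cx_j f_j (x) + Σ cy_j f_j (B x)` (units `2 ^ (-20)`), outside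
the zone `|x_i - 1| ≤ z` (if `zf`; `z` in units `4 * 2 ^ (-60)`), and for `x_i ≤ 4/3` if `cap` -/
structure Row where
  c : Sg
  cx : List Sg
  cy : List Sg
  zf : Bool
  z : ℕ
  cap : Bool

/-- digit -/
def dg (x i : ℕ) : ℕ := Nat.mod (Nat.shiftRight x (Nat.mul 600 i)) BX

/-- absolute difference -/
def ad (x y : ℕ) : ℕ := Nat.add (Nat.sub x y) (Nat.sub y x)

/-- `0 < F` on `[-1, 1]²`; digits `s^i t^j` have index `i + 10 j` -/
def posOK2 (N e p0 n0 p1 n1 p2 n2 p3 n3 p10 n10 p11 n11 p12 n12 p20 n20 p21 n21 p30 n30 : ℕ) : Bool :=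
  Nat.ble (Nat.add (Nat.add (Nat.add (Nat.add (Nat.add n0 (Nat.add (ad p1 n1) (ad p10 n10)))
    (Nat.add (Nat.add (ad p11 n11) (ad p3 n3)) (Nat.add (ad p12 n12) (Nat.add (ad p21 n21) (ad p30 n30)))))
    (Nat.add (Nat.sub n2 p2) (Nat.sub n20 p20))) e)
    (Nat.sub N (Nat.add (Nat.add (Nat.add (Nat.add p0 n0) (Nat.add p1 n1)) (Nat.add (Nat.add p2 n2) (Nat.add p3 n3)))
      (Nat.add (Nat.add (Nat.add (Nat.add p10 n10) (Nat.add p11 n11)) (Nat.add (Nat.add p12 n12) (Nat.add p20 n20)))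
        (Nat.add (Nat.add p21 n21) (Nat.add p30 n30)))))) (Nat.sub p0 1) && Nat.ble 1 p0

/-- `0 < F` on `[-1, 1]²` -/
def posOK (F : Pk) : Bool :=
  Nat.ble (Nat.add F.N 1) BX &&
  posOK2 F.N F.e (dg F.p 0) (dg F.n 0) (dg F.p 1) (dg F.n 1) (dg F.p 2) (dg F.n 2) (dg F.p 3) (dg F.n 3)
    (dg F.p 10) (dg F.n 10) (dg F.p 11) (dg F.n 11) (dg F.p 12) (dg F.n 12) (dg F.p 20) (dg F.n 20)
    (dg F.p 21) (dg F.n 21) (dg F.p 30) (dg F.n 30)

/-- cell: `X 1 ∈ [c2 - r2, c2 + r2]`, `X 2 ∈ [c3 - r3, c3 + r3]` -/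
structure Cell where
  c2 : ℕ
  r2 : ℕ
  c3 : ℕ
  r3 : ℕ

/-- `3/4` -/
def S34 : ℕ := 864691128455135232
/-- `1/4` -/
def S14 : ℕ := 288230376151711744
/-- `1/3` (slightly more) -/
def S13 : ℕ := 384307168202282326

/-- the channel, `lam = ± L / 2 ^ 60` up to `2 ^ (-60)` -/
structure Ch where
  neg : Bool
  L : ℕ

/-- affine form of `B x` (coordinates divided by `4`) -/
def yF (c : Ch) (F : Af) : Af :=
  bif c.neg then
    ⟨Nat.sub (Nat.div (Nat.add S60 c.L) 4) (Nat.div (Nat.mul c.L F.v) S60),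
     Nat.div (Nat.mul c.L F.an) S60, Nat.div (Nat.mul c.L F.ap) S60,
     Nat.div (Nat.mul c.L F.bn) S60, Nat.div (Nat.mul c.L F.bp) S60, 8⟩
  else
    ⟨Nat.add (Nat.div (Nat.sub S60 c.L) 4) (Nat.div (Nat.mul c.L F.v) S60),
     Nat.div (Nat.mul c.L F.ap) S60, Nat.div (Nat.mul c.L F.an) S60,
     Nat.div (Nat.mul c.L F.bp) S60, Nat.div (Nat.mul c.L F.bn) S60, 8⟩

/-- cell outside the domain `X 0 ≥ X 1 ≥ X 2` -/
def outside (c : Cell) : Bool :=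
  Nat.blt (Nat.add (Nat.add c.c2 c.r2) c.r3) c.c3 ||
  Nat.blt (Nat.add (Nat.add S34 c.r3) (Nat.mul 2 c.r2)) (Nat.add (Nat.mul 2 c.c2) c.c3)

/-- cell inside the zone -/
def inzone (z : ℕ) (c : Cell) : Bool :=
  Nat.ble (Nat.add (ad c.c2 S14) c.r2) z && (Nat.ble (Nat.add (ad c.c3 S14) c.r3) z &&
  Nat.ble (Nat.add (ad (Nat.add c.c2 c.c3) (Nat.mul 2 S14)) (Nat.add c.r2 c.r3)) z)

/-- cell outside the region `X 0 ≤ 1/3` -/
def capout (c : Cell) : Bool :=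
  Nat.blt (Nat.add (Nat.add c.c2 c.c3) (Nat.add (Nat.add c.r2 c.r3) S13)) S34

/-- does the row hold on the cell -/
def rowOK (gs : List GF) (fx fy : List Pk) (c : Cell) (r : Row) : Bool :=
  (r.zf && inzone r.z c) || ((r.cap && capout c) ||
    posOK (comb gs r.cy fy (comb gs r.cx fx
      (cst (Nat.mul (Nat.mul 6 r.c.p) P516) (Nat.mul (Nat.mul 6 r.c.n) P516) 0))))

/-- heuristic choice of the direction in which a cell is split (no influence on soundness) -/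
def split2 (c : Cell) : Bool :=
  bif Nat.ble c.c3 (Nat.add c.c2 c.r2) || Nat.ble (Nat.mul 4 c.r3) c.r2 then
    bif Nat.ble c.c3 c.r3 then
      Nat.ble (Nat.mul 10 (Nat.sub (Nat.add (Nat.log2 c.c2) 1) (Nat.log2 c.r2)))
        (Nat.sub 59 (Nat.log2 (Nat.add c.c3 c.r3)))
    else
      Nat.ble (Nat.mul 7 (Nat.mul c.r3 c.c2)) (Nat.mul 10 (Nat.mul c.r2 c.c3)) ||
      Nat.ble (Nat.mul 7 (Nat.mul c.r3 (Nat.sub (Nat.sub S34 c.c2) c.c3))) (Nat.mul 10 (Nat.mul c.r2 c.c3))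
  else false

/-- lower half in direction 2 -/
def Cell.a2 (c : Cell) : Cell := ⟨Nat.sub c.c2 (Nat.div c.r2 2), Nat.div c.r2 2, c.c3, c.r3⟩
/-- upper half in direction 2 -/
def Cell.b2 (c : Cell) : Cell := ⟨Nat.add c.c2 (Nat.div c.r2 2), Nat.div c.r2 2, c.c3, c.r3⟩
/-- lower half in direction 3 -/
def Cell.a3 (c : Cell) : Cell := ⟨c.c2, c.r2, Nat.sub c.c3 (Nat.div c.r3 2), Nat.div c.r3 2⟩
/-- upper half in direction 3 -/
def Cell.b3 (c : Cell) : Cell := ⟨c.c2, c.r2, Nat.add c.c3 (Nat.div c.r3 2), Nat.div c.r3 2⟩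

/-- affine form of `X 0` -/
def X1 (c : Cell) : Af := ⟨Nat.sub (Nat.sub S34 c.c2) c.c3, 0, c.r2, 0, c.r3, 0⟩
/-- affine form of `X 1` -/
def X2 (c : Cell) : Af := ⟨c.c2, c.r2, 0, 0, 0, 0⟩
/-- affine form of `X 2` -/
def X3 (c : Cell) : Af := ⟨c.c3, 0, 0, c.r3, 0, 0⟩

/-- the point given by three affine forms -/
def mkPt (F G H : Af) : Pt := ⟨F, G, H, mkCo F, mkCo G, mkCo H⟩

/-- list of forms -/
def forms (gs : List GF) (P : Pt) : List Pk := gs.map fun g => qF g P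

/-- the rows that do not hold on a cell -/
def rest (ch : Ch) (gs : List GF) (c : Cell) (rows : List Row) : List Row :=
  rows.filter fun r => !(rowOK gs (forms gs (mkPt (X1 c) (X2 c) (X3 c)))
    (forms gs (mkPt (yF ch (X1 c)) (yF ch (X2 c)) (yF ch (X3 c)))) c r)

/-- can the cell be split -/
def spl (c : Cell) : Bool :=
  bif split2 c then Nat.beq (Nat.mod c.r2 2) 0 && Nat.ble c.r2 c.c2
  else Nat.beq (Nat.mod c.r3 2) 0 && Nat.ble c.r3 c.c3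

/-- the recursive check -/
def run (ch : Ch) (gs : List GF) : ℕ → Cell → List Row → Bool
  | 0, _, rows => rows.isEmpty
  | n + 1, c, rows =>
    outside c || (Nat.ble (Nat.add c.c2 c.c3) S34 &&
      match rest ch gs c rows with
      | [] => true
      | r :: rs =>
        spl c && (bif split2 c then
          run ch gs n c.a2 (r :: rs) && run ch gs n c.b2 (r :: rs)
        else
          run ch gs n c.a3 (r :: rs) && run ch gs n c.b3 (r :: rs)))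

end Vale.Agent.P154.Pk
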