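import Vale.Agent.P154.PkA
import Vale.Agent.P154.NearTaylor

/-!
# Powers (task PK-E)
-/

namespace Vale.Agent.P154.Pk

open Near

lemma S44_eq : (S44 : ℝ) = 2 ^ 44 := by unfold S44; norm_num

lemma T_eq : (T : ℝ) = 2 ^ 32 := by unfold T; norm_num

lemma P128_eq : (P128 : ℝ) = 2 ^ 128 := by
  unfold P128
  have : Nat.pow 2 128 = 2 ^ 128 := rfl
  rw [this]; norm_num

lemma P64_eq : (P64 : ℝ) = 2 ^ 64 := by
  unfold P64
  have : Nat.pow 2 64 = 2 ^ 64 := rfl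
  rw [this]; norm_num

/-- floors of two quotients -/
lemma floor_diff (a b S : ℕ) (hS : 0 < S) :
    |((a : ℝ) - b) / S - (((Nat.div a S : ℕ) : ℝ) - ((Nat.div b S : ℕ) : ℝ))| ≤ 1 := by
  have key : ∀ a : ℕ, ((Nat.div a S : ℕ) : ℝ) ≤ (a : ℝ) / S ∧
      (a : ℝ) / S ≤ ((Nat.div a S : ℕ) : ℝ) + 1 := by
    intro a
    have hS' : (0 : ℝ) < S := by exact_mod_cast hS
    have h1 : (a / S) * S ≤ a := Nat.div_mul_le_self a S
    have h2 : a < (a / S + 1) * S := by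
      have := Nat.lt_div_mul_add hS (a := a)
      nlinarith
    have e : Nat.div a S = a / S := rfl
    rw [e]
    constructor
    · rw [le_div_iff₀ hS']
      exact_mod_cast h1
    · rw [div_le_iff₀ hS']
      exact_mod_cast h2.le
  obtain ⟨a1, a2⟩ := key a
  obtain ⟨b1, b2⟩ := key b
  rw [sub_div, abs_le]
  constructor <;> linarith

lemma Ex.al_re (x : Ex) : x.al.re = (x.pr : ℝ) / 60 := by
  unfold Ex.al
  simp [Complex.add_re, Complex.mul_re, Complex.div_ofNat_re, Complex.div_ofNat_im]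

lemma Ex.al_im (x : Ex) : x.al.im = (x.pi : ℝ) / 60 := by
  unfold Ex.al
  simp [Complex.add_im, Complex.mul_im, Complex.div_ofNat_re, Complex.div_ofNat_im]

lemma norm_cpow_le_one {al : ℂ} (h : 0 ≤ al.re) {y : ℝ} (h0 : 0 < y) (h1 : y ≤ 1) :
    ‖((y : ℝ) : ℂ) ^ al‖ ≤ 1 := by
  rw [Complex.norm_cpow_eq_rpow_re_of_pos h0]
  exact Real.rpow_le_one h0.le h1 h

/-- the constant `c0 ^ al` -/
lemma base_sound {x : Ex} (hx : ExOK x) {n j : ℕ} (n1 : 32 ≤ n) (n2 : n ≤ 64) (hj : j < 64) :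
    ∃ w : ℂ, ‖w - 2 ^ 44 * ((((n : ℝ) / 64) / 2 ^ j : ℝ) : ℂ) ^ x.al‖ ≤ 6001 ∧
      |w.re - (((zre (x.A.get (64 - n)) (x.B.get j)).p : ℝ) -
        (zre (x.A.get (64 - n)) (x.B.get j)).n)| ≤ 1 ∧
      |w.im - (((zim (x.A.get (64 - n)) (x.B.get j)).p : ℝ) -
        (zim (x.A.get (64 - n)) (x.B.get j)).n)| ≤ 1 := by
  have hA := hx.A n n1 n2
  have hB := hx.B j hj
  set u := (x.A.get (64 - n)) with hu
  set v := (x.B.get j) with hv
  have hre : 0 ≤ x.al.re := by rw [Ex.al_re]; positivity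
  have hn : (0 : ℝ) < (n : ℝ) / 64 := by
    have : (0 : ℝ) < n := by exact_mod_cast (by omega : 0 < n)
    positivity
  have hn' : (n : ℝ) / 64 ≤ 1 := by
    have : (n : ℝ) ≤ 64 := by exact_mod_cast n2
    linarith
  have hj' : (0 : ℝ) < 1 / 2 ^ j := by positivity
  have hj1 : (1 : ℝ) / 2 ^ j ≤ 1 := by
    rw [div_le_one (by positivity)]
    exact one_le_pow₀ (by norm_num)
  set Z1 := (((n : ℝ) / 64 : ℝ) : ℂ) ^ x.al with hZ1
  set Z2 := ((1 / 2 ^ j : ℝ) : ℂ) ^ x.al with hZ2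
  have n1' : ‖Z1‖ ≤ 1 := norm_cpow_le_one hre hn hn'
  have n2' : ‖Z2‖ ≤ 1 := norm_cpow_le_one hre hj' hj1
  have hZ : ((((n : ℝ) / 64) / 2 ^ j : ℝ) : ℂ) ^ x.al = Z1 * Z2 := by
    rw [hZ1, hZ2, ← Complex.mul_cpow_ofReal_nonneg hn.le hj'.le]
    congr 1
    push_cast
    ring
  rw [hZ]
  refine ⟨u.val * v.val / 2 ^ 44, ?_, ?_, ?_⟩
  · set e1 := u.val - 2 ^ 44 * Z1 with he1
    set e2 := v.val - 2 ^ 44 * Z2 with he2
    have E : u.val * v.val / 2 ^ 44 - 2 ^ 44 * (Z1 * Z2) = Z1 * e2 + e1 * Z2 + e1 * e2 / 2 ^ 44 := by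
      rw [he1, he2]; ring
    rw [E]
    have h1 : ‖Z1 * e2‖ ≤ 3000 := by
      rw [norm_mul]
      calc ‖Z1‖ * ‖e2‖ ≤ 1 * 3000 := mul_le_mul n1' hB (norm_nonneg _) zero_le_one
        _ = 3000 := by norm_num
    have h2 : ‖e1 * Z2‖ ≤ 3000 := by
      rw [norm_mul]
      calc ‖e1‖ * ‖Z2‖ ≤ 3000 * 1 := mul_le_mul hA n2' (norm_nonneg _) (by norm_num)
        _ = 3000 := by norm_num
    have h3 : ‖e1 * e2 / 2 ^ 44‖ ≤ 1 := by
      rw [norm_div, norm_mul, norm_pow]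
      have : ‖(2 : ℂ)‖ = 2 := by simp
      rw [this, div_le_one (by positivity)]
      calc ‖e1‖ * ‖e2‖ ≤ 3000 * 3000 := mul_le_mul hA hB (norm_nonneg _) (by norm_num)
        _ ≤ 2 ^ 44 := by norm_num
    calc ‖Z1 * e2 + e1 * Z2 + e1 * e2 / 2 ^ 44‖ ≤ ‖Z1 * e2‖ + ‖e1 * Z2‖ + ‖e1 * e2 / 2 ^ 44‖ :=
          norm_add₃_le
      _ ≤ 6001 := by linarith
  · have hre : (u.val * v.val / 2 ^ 44).re = (((u.a : ℝ) * v.a + u.b * v.b + (u.c * v.d + u.d * v.c)) -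
        ((u.a : ℝ) * v.b + u.b * v.a + (u.c * v.c + u.d * v.d))) / S44 := by
      rw [S44_eq]
      have : ((2 : ℂ) ^ 44) = ((2 ^ 44 : ℝ) : ℂ) := by push_cast; rfl
      rw [this, Complex.div_ofReal_re]
      unfold Cx.val
      simp only [Complex.mul_re, Complex.add_re, Complex.sub_re, Complex.natCast_re, Complex.I_re,
        mul_zero, Complex.sub_im, Complex.natCast_im, Complex.I_im, mul_one, Complex.add_im,
        Complex.mul_im]
      ring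
    rw [hre]
    have := floor_diff (u.a * v.a + u.b * v.b + (u.c * v.d + u.d * v.c))
      (u.a * v.b + u.b * v.a + (u.c * v.c + u.d * v.d)) S44 (by unfold S44; norm_num)
    push_cast at this
    exact this
  · have him : (u.val * v.val / 2 ^ 44).im = (((u.a : ℝ) * v.c + u.b * v.d + (u.c * v.a + u.d * v.b)) -
        ((u.a : ℝ) * v.d + u.b * v.c + (u.c * v.b + u.d * v.a))) / S44 := by
      rw [S44_eq]
      have : ((2 : ℂ) ^ 44) = ((2 ^ 44 : ℝ) : ℂ) := by push_cast; rfl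
      rw [this, Complex.div_ofReal_im]
      unfold Cx.val
      simp only [Complex.mul_re, Complex.add_re, Complex.sub_re, Complex.natCast_re, Complex.I_re,
        mul_zero, Complex.sub_im, Complex.natCast_im, Complex.I_im, mul_one, Complex.add_im,
        Complex.mul_im]
      ring
    rw [him]
    have := floor_diff (u.a * v.c + u.b * v.d + (u.c * v.a + u.d * v.b))
      (u.a * v.d + u.b * v.c + (u.c * v.b + u.d * v.a)) S44 (by unfold S44; norm_num)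
    push_cast at this
    exact this

lemma HH_of_re {s t : ℝ} {F : Pk} {w Z : ℝ} (h1 : |w - ((F.p : ℝ) - F.n)| ≤ 1)
    (h2 : |w - Z| ≤ 6001) {p n : ℕ} (hF : F = cst p n E0) : HH s t 0 F Z := by
  rw [hF] at h1 ⊢
  apply HH.cst
  have e1 : ((cst p n E0).p : ℝ) = p := rfl
  have e2 : ((cst p n E0).n : ℝ) = n := rfl
  rw [e1, e2] at h1
  have hE : (E0 : ℝ) = 8192 := by unfold E0; norm_num
  rw [hE]
  rw [abs_le] at h1 h2 ⊢
  constructor <;> linarith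

/-- forms of the constants -/
lemma base_HH {s t : ℝ} {x : Ex} (hx : ExOK x) {n j : ℕ} (n1 : 32 ≤ n) (n2 : n ≤ 64)
    (hj : j < 64) :
    HH s t 0 (zre (x.A.get (64 - n)) (x.B.get j))
      (2 ^ 44 * (((((n : ℝ) / 64) / 2 ^ j : ℝ) : ℂ) ^ x.al).re) ∧
    HH s t 0 (zim (x.A.get (64 - n)) (x.B.get j))
      (2 ^ 44 * (((((n : ℝ) / 64) / 2 ^ j : ℝ) : ℂ) ^ x.al).im) := by
  obtain ⟨w, hw, h1, h2⟩ := base_sound hx n1 n2 hj
  set Z := ((((n : ℝ) / 64) / 2 ^ j : ℝ) : ℂ) ^ x.al with hZ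
  have e44 : ((2 : ℂ) ^ 44) = ((2 ^ 44 : ℝ) : ℂ) := by push_cast; rfl
  have e1 : (w - 2 ^ 44 * Z).re = w.re - 2 ^ 44 * Z.re := by
    rw [e44, Complex.sub_re, Complex.re_ofReal_mul]
  have e2 : (w - 2 ^ 44 * Z).im = w.im - 2 ^ 44 * Z.im := by
    rw [e44, Complex.sub_im, Complex.im_ofReal_mul]
  have h3 : |w.re - 2 ^ 44 * Z.re| ≤ 6001 := by
    rw [← e1]; exact (Complex.abs_re_le_norm _).trans hw
  have h4 : |w.im - 2 ^ 44 * Z.im| ≤ 6001 := by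
    rw [← e2]; exact (Complex.abs_im_le_norm _).trans hw
  exact ⟨HH_of_re h1 h3 rfl, HH_of_re h2 h4 rfl⟩

/-- the Taylor polynomial of degree three of `(1 + ε) ^ al` -/
noncomputable def tp (al : ℂ) (ε : ℝ) : ℂ :=
  1 + al * ε + al * (al - 1) / 2 * ε ^ 2 + al * (al - 1) * (al - 2) / 6 * ε ^ 3

lemma taylor3 {al : ℂ} (h0 : 0 ≤ al.re) (h1 : al.re ≤ 1) {ε r : ℝ} (hr : r < 1) (hε : |ε| ≤ r) :
    ‖((1 + ε : ℝ) : ℂ) ^ al - tp al ε‖ ≤
      ‖al * (al - 1) * (al - 2) * (al - 3) / 24‖ * (r / (1 - r)) ^ 4 := by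
  have h := cpow_taylor al h0 h1 hr hε 4 (by norm_num)
  have e1 : (∑ k ∈ Finset.range 4, (∏ j ∈ Finset.range k, (al - j) / (j + 1)) * (ε : ℂ) ^ k) =
      tp al ε := by
    unfold tp
    simp only [Finset.sum_range_succ, Finset.prod_range_succ, Finset.sum_range_zero,
      Finset.prod_range_zero]
    push_cast
    ring
  have e2 : (∏ j ∈ Finset.range 4, (al - j) / ((j : ℂ) + 1)) =
      al * (al - 1) * (al - 2) * (al - 3) / 24 := by
    simp only [Finset.prod_range_succ, Finset.prod_range_zero]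
    push_cast
    ring
  rw [e1, e2] at h
  refine h.trans ?_
  rw [mul_assoc]
  refine mul_le_mul_of_nonneg_left ?_ (norm_nonneg _)
  have hr0 : 0 ≤ r := (abs_nonneg _).trans hε
  have hr1 : 0 < 1 - r := by linarith
  have h4 : |ε| ^ 4 ≤ r ^ 4 := pow_le_pow_left₀ (abs_nonneg _) hε 4
  have h5 : (1 - r) ^ (al.re - ((4 : ℕ) : ℝ)) ≤ ((1 - r) ^ 4)⁻¹ := by
    rw [Real.rpow_sub hr1, Real.rpow_natCast, div_eq_mul_inv]
    have : (1 - r) ^ al.re ≤ 1 := Real.rpow_le_one hr1.le (by linarith) h0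
    have hpos : 0 ≤ ((1 - r) ^ 4)⁻¹ := by positivity
    nlinarith
  calc |ε| ^ 4 * (1 - r) ^ (al.re - ((4 : ℕ) : ℝ)) ≤ r ^ 4 * ((1 - r) ^ 4)⁻¹ :=
        mul_le_mul h4 h5 (Real.rpow_nonneg hr1.le _) (by positivity)
    _ = (r / (1 - r)) ^ 4 := by rw [div_pow, div_eq_mul_inv]

lemma cst_of_norm {s t : ℝ} {z : Cx} {w : ℂ} (h : ‖z.val - w‖ ≤ 1) :
    HH s t 0 (cst z.a z.b 1) w.re ∧ HH s t 0 (cst z.c z.d 1) w.im := by
  have e1 : (z.val - w).re = ((z.a : ℝ) - z.b) - w.re := by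
    unfold Cx.val
    simp [Complex.add_re, Complex.mul_re, Complex.sub_re]
  have e2 : (z.val - w).im = ((z.c : ℝ) - z.d) - w.im := by
    unfold Cx.val
    simp [Complex.add_im, Complex.mul_im, Complex.sub_im]
  have h1 := (Complex.abs_re_le_norm (z.val - w)).trans h
  have h2 := (Complex.abs_im_le_norm (z.val - w)).trans h
  rw [e1] at h1
  rw [e2] at h2
  constructor
  · apply HH.cst
    rw [abs_sub_comm]
    simpa using h1
  · apply HH.cst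
    rw [abs_sub_comm]
    simpa using h2

/-- the polynomial part -/
lemma pol3_HH {s t : ℝ} (hs : |s| ≤ 1) (ht : |t| ≤ 1) {c : Co} {ε : ℝ} {a1 a2 a3 : Pk}
    {b1 b2 b3 : ℝ} (h1 : HH s t 1 c.ep (2 ^ 32 * ε)) (h2 : HH s t 2 c.e2 (2 ^ 64 * ε ^ 2))
    (h3 : HH s t 3 c.e3 (2 ^ 96 * ε ^ 3)) (k1 : HH s t 0 a1 (2 ^ 32 * b1))
    (k2 : HH s t 0 a2 (2 ^ 32 * b2)) (k3 : HH s t 0 a3 (2 ^ 32 * b3)) :
    HH s t 3 (pol3 a1 a2 a3 c) (2 ^ 128 * (b1 * ε + b2 * ε ^ 2 + b3 * ε ^ 3)) := by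
  have g1 := ((k1.mul hs ht h1).sc P64).mono (by norm_num : 0 + 1 ≤ 3)
  have g2 := ((k2.mul hs ht h2).sc T).mono (by norm_num : 0 + 2 ≤ 3)
  have g3 := (k3.mul hs ht h3).mono (by norm_num : 0 + 3 ≤ 3)
  have g := g1.add (g2.add g3)
  rw [P64_eq, T_eq] at g
  unfold pol3
  convert g using 1
  ring

lemma ofReal_mul_re' (a : ℝ) (z : ℂ) : ((a : ℂ) * z).re = a * z.re := Complex.re_ofReal_mul a z

/-- forms of `(1 + ε) ^ al` -/
lemma taylor_HH {s t : ℝ} (hs : |s| ≤ 1) (ht : |t| ≤ 1) {x : Ex} {c : Co} (hx : ExOK x)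
    {ε r : ℝ} (hε : |ε| ≤ r) (hr : r < 1) (h1 : HH s t 1 c.ep (2 ^ 32 * ε))
    (h2 : HH s t 2 c.e2 (2 ^ 64 * ε ^ 2)) (h3 : HH s t 3 c.e3 (2 ^ 96 * ε ^ 3))
    (hm : 2 ^ 128 * (r / (1 - r)) ^ 4 ≤ c.m4) :
    HH s t 3 (tre x c) (2 ^ 128 * (((1 + ε : ℝ) : ℂ) ^ x.al).re) ∧
    HH s t 3 (tim x c) (2 ^ 128 * (((1 + ε : ℝ) : ℂ) ^ x.al).im) := by
  have hal0 : 0 ≤ x.al.re := by rw [Ex.al_re]; positivity
  have hal1 : x.al.re ≤ 1 := by
    rw [Ex.al_re, div_le_one (by norm_num)]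
    exact_mod_cast hx.le
  set al := x.al with hal
  have hT := taylor3 hal0 hal1 hr hε
  set W := ((1 + ε : ℝ) : ℂ) ^ al with hW
  have hrem : 2 ^ 128 * ‖W - tp al ε‖ ≤ ((Nat.add (Nat.div (Nat.mul x.g4 c.m4) T) 1 : ℕ) : ℝ) := by
    have hr0 : 0 ≤ r := (abs_nonneg _).trans hε
    have hq : 0 ≤ (r / (1 - r)) ^ 4 := by
      have : 0 < 1 - r := by linarith
      positivity
    have a1 : 2 ^ 32 * (2 ^ 128 * ‖W - tp al ε‖) ≤ (x.g4 : ℝ) * c.m4 := by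
      calc (2 : ℝ) ^ 32 * (2 ^ 128 * ‖W - tp al ε‖)
          ≤ 2 ^ 32 * (2 ^ 128 * (‖al * (al - 1) * (al - 2) * (al - 3) / 24‖ * (r / (1 - r)) ^ 4)) := by
            gcongr
        _ = (2 ^ 32 * ‖al * (al - 1) * (al - 2) * (al - 3) / 24‖) *
              (2 ^ 128 * (r / (1 - r)) ^ 4) := by ring
        _ ≤ (x.g4 : ℝ) * c.m4 := mul_le_mul hx.g4 hm (by positivity) (Nat.cast_nonneg _)
    have a2 : ((x.g4 * c.m4 : ℕ) : ℝ) ≤ (((x.g4 * c.m4) / T + 1 : ℕ) : ℝ) * 2 ^ 32 := by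
      have : x.g4 * c.m4 < (x.g4 * c.m4 / T + 1) * T := by
        have := Nat.lt_div_mul_add (a := x.g4 * c.m4) (b := T) (by unfold T; norm_num)
        nlinarith
      rw [← T_eq]
      exact_mod_cast this.le
    have e : ((Nat.add (Nat.div (Nat.mul x.g4 c.m4) T) 1 : ℕ) : ℝ) =
        (((x.g4 * c.m4) / T + 1 : ℕ) : ℝ) := rfl
    rw [e]
    push_cast at a2 ⊢
    have h32 : (0 : ℝ) < 2 ^ 32 := by positivity
    nlinarith
  have c1 := cst_of_norm (s := s) (t := t) hx.c1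
  have c2 := cst_of_norm (s := s) (t := t) hx.c2
  have c3 := cst_of_norm (s := s) (t := t) hx.c3
  rw [← hal] at c1 c2 c3
  have e32 : ((2 : ℂ) ^ 32) = ((2 ^ 32 : ℝ) : ℂ) := by push_cast; rfl
  rw [e32, Complex.re_ofReal_mul, Complex.im_ofReal_mul] at c1 c2 c3
  have gre := pol3_HH hs ht h1 h2 h3 c1.1 c2.1 c3.1
  have gim := pol3_HH hs ht h1 h2 h3 c1.2 c2.2 c3.2
  have tre_eq : (tp al ε).re = 1 + (al.re * ε + (al * (al - 1) / 2).re * ε ^ 2 +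
      (al * (al - 1) * (al - 2) / 6).re * ε ^ 3) := by
    unfold tp
    rw [← Complex.ofReal_pow, ← Complex.ofReal_pow]
    simp only [Complex.add_re, Complex.one_re, Complex.re_mul_ofReal]
    ring
  have tim_eq : (tp al ε).im = al.im * ε + (al * (al - 1) / 2).im * ε ^ 2 +
      (al * (al - 1) * (al - 2) / 6).im * ε ^ 3 := by
    unfold tp
    rw [← Complex.ofReal_pow, ← Complex.ofReal_pow]
    simp only [Complex.add_im, Complex.one_im, Complex.im_mul_ofReal]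
    ring
  have rre : |(W - tp al ε).re| ≤ ‖W - tp al ε‖ := Complex.abs_re_le_norm _
  have rim : |(W - tp al ε).im| ≤ ‖W - tp al ε‖ := Complex.abs_im_le_norm _
  set e := Nat.add (Nat.div (Nat.mul x.g4 c.m4) T) 1 with he
  have f1 : HH s t 0 (cst P128 0 e) (2 ^ 128 * (1 + (W - tp al ε).re)) := by
    apply HH.cst
    rw [P128_eq]
    have : (2 : ℝ) ^ 128 * (1 + (W - tp al ε).re) - (2 ^ 128 - ((0 : ℕ) : ℝ)) =
        2 ^ 128 * (W - tp al ε).re := by push_cast; ring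
    rw [this, abs_mul, abs_of_pos (by positivity : (0 : ℝ) < 2 ^ 128)]
    exact (mul_le_mul_of_nonneg_left rre (by positivity)).trans hrem
  have f2 : HH s t 0 (cst 0 0 e) (2 ^ 128 * (W - tp al ε).im) := by
    apply HH.cst
    have : (2 : ℝ) ^ 128 * (W - tp al ε).im - (((0 : ℕ) : ℝ) - ((0 : ℕ) : ℝ)) =
        2 ^ 128 * (W - tp al ε).im := by push_cast; ring
    rw [this, abs_mul, abs_of_pos (by positivity : (0 : ℝ) < 2 ^ 128)]
    exact (mul_le_mul_of_nonneg_left rim (by positivity)).trans hrem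
  have F1 := (f1.mono (by norm_num : 0 ≤ 3)).add gre
  have F2 := (f2.mono (by norm_num : 0 ≤ 3)).add gim
  constructor
  · have e1 : (2 : ℝ) ^ 128 * W.re = 2 ^ 128 * (1 + (W - tp al ε).re) +
        2 ^ 128 * (al.re * ε + (al * (al - 1) / 2).re * ε ^ 2 +
          (al * (al - 1) * (al - 2) / 6).re * ε ^ 3) := by
      rw [Complex.sub_re, tre_eq]; ring
    rw [e1]
    exact F1
  · have e1 : (2 : ℝ) ^ 128 * W.im = 2 ^ 128 * (W - tp al ε).im +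
        2 ^ 128 * (al.im * ε + (al * (al - 1) / 2).im * ε ^ 2 +
          (al * (al - 1) * (al - 2) / 6).im * ε ^ 3) := by
      rw [Complex.sub_im, tim_eq]; ring
    rw [e1]
    exact F2

lemma abs_val_le_N {p n e : ℕ} : |((cst p n e).p : ℝ) - (cst p n e).n| ≤ ((cst p n e).N : ℝ) := by
  have e1 : ((cst p n e).p : ℝ) = p := rfl
  have e2 : ((cst p n e).n : ℝ) = n := rfl
  have e3 : ((cst p n e).N : ℝ) = p + n := by
    have : (cst p n e).N = p + n := rfl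
    rw [this]; push_cast; rfl
  rw [e1, e2, e3, abs_le]
  constructor
  · have : (0 : ℝ) ≤ p := Nat.cast_nonneg _
    have : (0 : ℝ) ≤ n := Nat.cast_nonneg _
    linarith
  · have : (0 : ℝ) ≤ p := Nat.cast_nonneg _
    have : (0 : ℝ) ≤ n := Nat.cast_nonneg _
    linarith

lemma bnd_HH {s t : ℝ} {m : ℕ} {y : ℝ} (h : |y| ≤ (m : ℝ) + 8192) :
    HH s t 3 (bnd m) (2 ^ 128 * y) := by
  have : HH s t 0 (cst 0 0 (Nat.mul P128 (Nat.add m E0))) (2 ^ 128 * y) := by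
    apply HH.cst
    have e : ((Nat.mul P128 (Nat.add m E0) : ℕ) : ℝ) = 2 ^ 128 * ((m : ℝ) + 8192) := by
      have e1 : (Nat.mul P128 (Nat.add m E0) : ℕ) = P128 * (m + E0) := rfl
      have e2 : (E0 : ℝ) = 8192 := by unfold E0; norm_num
      rw [e1]
      push_cast
      rw [P128_eq, e2]
    rw [e]
    have : (2 : ℝ) ^ 128 * y - (((0 : ℕ) : ℝ) - ((0 : ℕ) : ℝ)) = 2 ^ 128 * y := by
      push_cast; ring
    rw [this, abs_mul, abs_of_pos (by positivity : (0 : ℝ) < 2 ^ 128)]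
    exact mul_le_mul_of_nonneg_left h (by positivity)
  exact this.mono (by norm_num)

lemma Co.c0_pos {s t : ℝ} {c : Co} {X : ℝ} (hc : CoOK s t c X) : 0 < c.c0 := by
  unfold Co.c0
  have : (0 : ℝ) < c.n := by
    have := hc.n1
    exact_mod_cast (by omega : 0 < c.n)
  positivity

lemma cpow_split {c0 ε r : ℝ} (h0 : 0 < c0) (hε : |ε| ≤ r) (hr : r < 1) (al : ℂ) :
    ((c0 * (1 + ε) : ℝ) : ℂ) ^ al = ((c0 : ℝ) : ℂ) ^ al * ((1 + ε : ℝ) : ℂ) ^ al := by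
  have h1 : 0 ≤ 1 + ε := by
    rw [abs_le] at hε
    linarith
  rw [← Complex.mul_cpow_ofReal_nonneg h0.le h1]
  congr 1
  push_cast
  ring

lemma norm_cpow_mono {al : ℂ} (h : 0 < al.re) {X c0 : ℝ} (h0 : 0 ≤ X) (h1 : X ≤ c0)
    (hc : 0 < c0) : ‖((X : ℝ) : ℂ) ^ al‖ ≤ ‖((c0 : ℝ) : ℂ) ^ al‖ := by
  rcases h0.eq_or_lt with h2 | h2
  · rw [← h2]
    have : al ≠ 0 := by
      intro h3; rw [h3] at h; simp at h
    rw [Complex.ofReal_zero, Complex.zero_cpow this, norm_zero]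
    exact norm_nonneg _
  · rw [Complex.norm_cpow_eq_rpow_re_of_pos h2, Complex.norm_cpow_eq_rpow_re_of_pos hc]
    exact Real.rpow_le_rpow h0 h1 h.le

theorem pw_sound {s t : ℝ} (hs : |s| ≤ 1) (ht : |t| ≤ 1) {x : Ex} {c : Co} {X : ℝ}
    (hx : ExOK x) (hc : CoOK s t c X) :
    HH s t 3 (pw x c).re (2 ^ 172 * ((X : ℂ) ^ x.al).re) ∧
      HH s t 3 (pw x c).im (2 ^ 172 * ((X : ℂ) ^ x.al).im) := by
  have hal0 : 0 < x.al.re := by
    rw [Ex.al_re]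
    have : (0 : ℝ) < x.pr := by exact_mod_cast (by have := hx.pos; omega : 0 < x.pr)
    positivity
  have hc0 := Co.c0_pos hc
  have hbase := base_HH (s := s) (t := t) hx hc.n1 hc.n2 hc.j1
  have hc0e : (((((c.n : ℝ) / 64) / 2 ^ c.j : ℝ) : ℂ) ^ x.al) = ((c.c0 : ℝ) : ℂ) ^ x.al := rfl
  rw [hc0e] at hbase
  have hsub : Nat.sub 64 c.n = 64 - c.n := rfl
  cases hok : c.ok with
  | true =>
    obtain ⟨ε, r, hX, hε, hr, h1, h2, h3, hm⟩ := hc.good hok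
    have htay := taylor_HH hs ht hx hε hr h1 h2 h3 hm
    have e : pw x c = cpm ⟨zre (x.A.get (64 - c.n)) (x.B.get c.j), zim (x.A.get (64 - c.n)) (x.B.get c.j)⟩
      ⟨tre x c, tim x c⟩ := by
      unfold pw
      rw [hok]
      rfl
    rw [e, hX, cpow_split hc0 hε hr]
    set Z := ((c.c0 : ℝ) : ℂ) ^ x.al with hZ
    set W := ((1 + ε : ℝ) : ℂ) ^ x.al with hW
    have g1 := (hbase.1.mul hs ht htay.1).add ((hbase.2.mul hs ht htay.2).neg)
    have g2 := (hbase.1.mul hs ht htay.2).add (hbase.2.mul hs ht htay.1)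
    constructor
    · have e1 : (2 : ℝ) ^ 172 * (Z * W).re = 2 ^ 44 * Z.re * (2 ^ 128 * W.re) +
          -(2 ^ 44 * Z.im * (2 ^ 128 * W.im)) := by
        rw [Complex.mul_re]; ring
      rw [e1]
      exact g1
    · have e1 : (2 : ℝ) ^ 172 * (Z * W).im = 2 ^ 44 * Z.re * (2 ^ 128 * W.im) +
          2 ^ 44 * Z.im * (2 ^ 128 * W.re) := by
        rw [Complex.mul_im]; ring
      rw [e1]
      exact g2
  | false =>
    obtain ⟨hX0, hX1⟩ := hc.bad hok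
    obtain ⟨w, hw, hw1, hw2⟩ := base_sound hx hc.n1 hc.n2 hc.j1
    rw [hc0e] at hw
    have hmono := norm_cpow_mono hal0 hX0 hX1 hc0
    set Z := ((c.c0 : ℝ) : ℂ) ^ x.al with hZ
    set Q := ((X : ℝ) : ℂ) ^ x.al with hQ
    have e : pw x c = ⟨bnd (Nat.add (zre (x.A.get (64 - c.n)) (x.B.get c.j)).N
        (zim (x.A.get (64 - c.n)) (x.B.get c.j)).N),
      bnd (Nat.add (zre (x.A.get (64 - c.n)) (x.B.get c.j)).N
        (zim (x.A.get (64 - c.n)) (x.B.get c.j)).N)⟩ := by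
      unfold pw
      rw [hok]
      rfl
    rw [e]
    set F := zre (x.A.get (64 - c.n)) (x.B.get c.j) with hF
    set G := zim (x.A.get (64 - c.n)) (x.B.get c.j) with hG
    have hFN : |(F.p : ℝ) - F.n| ≤ (F.N : ℝ) := abs_val_le_N
    have hGN : |(G.p : ℝ) - G.n| ≤ (G.N : ℝ) := abs_val_le_N
    have hwre : |w.re| ≤ (F.N : ℝ) + 1 := by
      have := abs_sub_abs_le_abs_sub w.re ((F.p : ℝ) - F.n)
      linarith
    have hwim : |w.im| ≤ (G.N : ℝ) + 1 := by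
      have := abs_sub_abs_le_abs_sub w.im ((G.p : ℝ) - G.n)
      linarith
    have hwn : ‖w‖ ≤ |w.re| + |w.im| := Complex.norm_le_abs_re_add_abs_im w
    have h44 : ‖(2 : ℂ) ^ 44 * Z‖ = 2 ^ 44 * ‖Z‖ := by
      rw [norm_mul, norm_pow]; simp
    have hZn : 2 ^ 44 * ‖Z‖ ≤ ‖w‖ + 6001 := by
      rw [← h44]
      have := norm_sub_norm_le ((2 : ℂ) ^ 44 * Z) w
      rw [norm_sub_rev] at hw
      linarith
    have hQn : 2 ^ 44 * ‖Q‖ ≤ ((Nat.add F.N G.N : ℕ) : ℝ) + 8192 := by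
      have e3 : ((Nat.add F.N G.N : ℕ) : ℝ) = (F.N : ℝ) + G.N := by
        have : Nat.add F.N G.N = F.N + G.N := rfl
        rw [this]; push_cast; rfl
      rw [e3]
      have : 2 ^ 44 * ‖Q‖ ≤ 2 ^ 44 * ‖Z‖ := mul_le_mul_of_nonneg_left hmono (by positivity)
      linarith
    have hp44 : (0 : ℝ) < 2 ^ 44 := by positivity
    constructor
    · have e1 : (2 : ℝ) ^ 172 * Q.re = 2 ^ 128 * (2 ^ 44 * Q.re) := by ring
      rw [e1]
      apply bnd_HH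
      rw [abs_mul, abs_of_pos hp44]
      exact (mul_le_mul_of_nonneg_left (Complex.abs_re_le_norm Q) hp44.le).trans hQn
    · have e1 : (2 : ℝ) ^ 172 * Q.im = 2 ^ 128 * (2 ^ 44 * Q.im) := by ring
      rw [e1]
      apply bnd_HH
      rw [abs_mul, abs_of_pos hp44]
      exact (mul_le_mul_of_nonneg_left (Complex.abs_im_le_norm Q) hp44.le).trans hQn

lemma al_real {x : Ex} (h0 : x.pi = 0) : x.al = (((x.pr : ℝ) / 60 : ℝ) : ℂ) := by
  unfold Ex.al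
  rw [h0]
  push_cast
  ring

theorem pwr_sound {s t : ℝ} (hs : |s| ≤ 1) (ht : |t| ≤ 1) {x : Ex} {c : Co} {X : ℝ}
    (hx : ExOK x) (hc : CoOK s t c X) (h0 : x.pi = 0) :
    HH s t 3 (pwr x c) (2 ^ 172 * X ^ ((x.pr : ℝ) / 60)) := by
  have hal0 : 0 < x.al.re := by
    rw [Ex.al_re]
    have : (0 : ℝ) < x.pr := by exact_mod_cast (by have := hx.pos; omega : 0 < x.pr)
    positivity
  have hc0 := Co.c0_pos hc
  have hal := al_real h0
  have hreal : ∀ y : ℝ, 0 ≤ y → ((y : ℝ) : ℂ) ^ x.al = ((y ^ ((x.pr : ℝ) / 60) : ℝ) : ℂ) := by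
    intro y hy
    rw [hal, Complex.ofReal_cpow hy]
  have hbase := base_HH (s := s) (t := t) hx hc.n1 hc.n2 hc.j1
  have hc0e : (((((c.n : ℝ) / 64) / 2 ^ c.j : ℝ) : ℂ) ^ x.al) = ((c.c0 : ℝ) : ℂ) ^ x.al := rfl
  rw [hc0e] at hbase
  cases hok : c.ok with
  | true =>
    obtain ⟨ε, r, hX, hε, hr, h1, h2, h3, hm⟩ := hc.good hok
    have htay := taylor_HH hs ht hx hε hr h1 h2 h3 hm
    have e : pwr x c = (zre (x.A.get (64 - c.n)) (x.B.get c.j)).mul (tre x c) := by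
      unfold pwr
      rw [hok]
      rfl
    have h1ε : 0 ≤ 1 + ε := by
      rw [abs_le] at hε
      linarith
    have g1 := hbase.1.mul hs ht htay.1
    rw [hreal _ hc0.le, hreal _ h1ε, Complex.ofReal_re, Complex.ofReal_re] at g1
    rw [e, hX, Real.mul_rpow hc0.le h1ε]
    have e1 : (2 : ℝ) ^ 172 * (c.c0 ^ ((x.pr : ℝ) / 60) * (1 + ε) ^ ((x.pr : ℝ) / 60)) =
        2 ^ 44 * c.c0 ^ ((x.pr : ℝ) / 60) * (2 ^ 128 * (1 + ε) ^ ((x.pr : ℝ) / 60)) := by ring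
    rw [e1]
    exact g1
  | false =>
    obtain ⟨hX0, hX1⟩ := hc.bad hok
    obtain ⟨w, hw, hw1, -⟩ := base_sound hx hc.n1 hc.n2 hc.j1
    rw [hc0e] at hw
    rw [hreal _ hc0.le] at hw
    have e : pwr x c = bnd (zre (x.A.get (64 - c.n)) (x.B.get c.j)).N := by
      unfold pwr
      rw [hok]
      rfl
    rw [e]
    set F := zre (x.A.get (64 - c.n)) (x.B.get c.j) with hF
    have hFN : |(F.p : ℝ) - F.n| ≤ (F.N : ℝ) := abs_val_le_N
    have hwre : |w.re| ≤ (F.N : ℝ) + 1 := by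
      have := abs_sub_abs_le_abs_sub w.re ((F.p : ℝ) - F.n)
      linarith
    have h3 : |w.re - 2 ^ 44 * c.c0 ^ ((x.pr : ℝ) / 60)| ≤ 6001 := by
      have e44 : ((2 : ℂ) ^ 44) = ((2 ^ 44 : ℝ) : ℂ) := by push_cast; rfl
      have := (Complex.abs_re_le_norm _).trans hw
      rw [e44, Complex.sub_re, Complex.re_ofReal_mul, Complex.ofReal_re] at this
      exact this
    have hexp : 0 ≤ (x.pr : ℝ) / 60 := by positivity
    have h4 : X ^ ((x.pr : ℝ) / 60) ≤ c.c0 ^ ((x.pr : ℝ) / 60) := Real.rpow_le_rpow hX0 hX1 hexp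
    have h5 : 0 ≤ X ^ ((x.pr : ℝ) / 60) := Real.rpow_nonneg hX0 _
    have e1 : (2 : ℝ) ^ 172 * X ^ ((x.pr : ℝ) / 60) = 2 ^ 128 * (2 ^ 44 * X ^ ((x.pr : ℝ) / 60)) := by
      ring
    rw [e1]
    apply bnd_HH
    have hp44 : (0 : ℝ) < 2 ^ 44 := by positivity
    rw [abs_of_nonneg (by positivity)]
    rw [abs_le] at h3
    have h6 := (abs_le.mp hwre).2
    nlinarith

end Vale.Agent.P154.Pk
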