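import Vale.Agent.P154.PkE

/-!
# The functions (task PK-F)
-/

namespace Vale.Agent.P154.Pk

open Near

/-- the real function described by `g`; `x = 4 X` has sum `3` -/
noncomputable def GF.fn (g : GF) (x : Fin 3 → ℝ) : ℝ :=
  match g with
  | GF.half z => gE (1 / 2) ((z.pi : ℝ) / 60) x
  | GF.gen z _ => gE ((z.pr : ℝ) / 60) ((z.pi : ℝ) / 60) x
  | GF.pol k =>
    let s := P2 (fun i => x i - 1)
    let t := (x 0 - 1) * (x 1 - 1) * (x 2 - 1)
    match k with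
    | 0 => s
    | 1 => t
    | 2 => s ^ 2
    | 3 => s * t
    | 4 => s ^ 3
    | _ => t ^ 2

theorem GF.fn_half (z : Ex) (x : Fin 3 → ℝ) :
    GF.fn (GF.half z) x = gE (1 / 2) ((z.pi : ℝ) / 60) x := rfl

theorem GF.fn_gen (z w : Ex) (x : Fin 3 → ℝ) :
    GF.fn (GF.gen z w) x = gE ((z.pr : ℝ) / 60) ((z.pi : ℝ) / 60) x := rfl

theorem GF.fn_pol0 (x : Fin 3 → ℝ) : GF.fn (GF.pol 0) x = P2 (fun i => x i - 1) := rfl

theorem GF.fn_pol1 (x : Fin 3 → ℝ) :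
    GF.fn (GF.pol 1) x = (x 0 - 1) * (x 1 - 1) * (x 2 - 1) := rfl

theorem GF.fn_pol2 (x : Fin 3 → ℝ) : GF.fn (GF.pol 2) x = P2 (fun i => x i - 1) ^ 2 := rfl

theorem GF.fn_pol3 (x : Fin 3 → ℝ) :
    GF.fn (GF.pol 3) x = P2 (fun i => x i - 1) * ((x 0 - 1) * (x 1 - 1) * (x 2 - 1)) := rfl

theorem GF.fn_pol4 (x : Fin 3 → ℝ) : GF.fn (GF.pol 4) x = P2 (fun i => x i - 1) ^ 3 := rfl

theorem GF.fn_pol5 (x : Fin 3 → ℝ) :
    GF.fn (GF.pol 5) x = ((x 0 - 1) * (x 1 - 1) * (x 2 - 1)) ^ 2 := rfl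

/-- admissible function -/
def GFOK (g : GF) : Prop :=
  match g with
  | GF.half z => ExOK z ∧ z.pr = 30
  | GF.gen z w => ExOK z ∧ ExOK w ∧ z.pr < 30 ∧ w.pr + 2 * z.pr = 60 ∧ w.pi = 0
  | GF.pol _ => True

theorem al_eq (z : Ex) : z.al = (((z.pr : ℝ) / 60 : ℝ) : ℂ) + (((z.pi : ℝ) / 60 : ℝ) : ℂ) * Complex.I := by
  unfold Ex.al
  push_cast
  rfl

theorem cpow_parts {X a t : ℝ} (hX : 0 < X) :
    (((X : ℂ) ^ ((a : ℂ) + (t : ℂ) * Complex.I)).re = X ^ a * Real.cos (t * Real.log X)) ∧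
    (((X : ℂ) ^ ((a : ℂ) + (t : ℂ) * Complex.I)).im = X ^ a * Real.sin (t * Real.log X)) := by
  have h0 : (X : ℂ) ≠ 0 := by exact_mod_cast hX.ne'
  rw [Complex.cpow_def_of_ne_zero h0, ← Complex.ofReal_log hX.le, Real.rpow_def_of_pos hX]
  constructor
  · rw [Complex.exp_re]
    simp [mul_comm]
  · rw [Complex.exp_im]
    simp [mul_comm]

theorem cpow_pair {X Y a t : ℝ} (hX : 0 ≤ X) (hY : 0 ≤ Y) (ha : 0 < a) :
    ((X : ℂ) ^ ((a : ℂ) + (t : ℂ) * Complex.I)).re * ((Y : ℂ) ^ ((a : ℂ) + (t : ℂ) * Complex.I)).re +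
      ((X : ℂ) ^ ((a : ℂ) + (t : ℂ) * Complex.I)).im * ((Y : ℂ) ^ ((a : ℂ) + (t : ℂ) * Complex.I)).im
      = (X * Y) ^ a * Real.cos (t * (Real.log X - Real.log Y)) := by
  have hne : (a : ℂ) + (t : ℂ) * Complex.I ≠ 0 := by
    intro h
    have := congrArg Complex.re h
    simp at this
    exact ha.ne' this
  rcases hX.eq_or_lt with rfl | hX'
  · simp [Complex.zero_cpow hne, Real.zero_rpow ha.ne']
  rcases hY.eq_or_lt with rfl | hY'
  · simp [Complex.zero_cpow hne, Real.zero_rpow ha.ne']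
  rw [(cpow_parts hX').1, (cpow_parts hX').2, (cpow_parts hY').1, (cpow_parts hY').2,
    Real.mul_rpow hX hY, mul_sub, Real.cos_sub]
  ring

theorem pair_scale {U V a t : ℝ} (hU : 0 ≤ U) (hV : 0 ≤ V) (ha : 0 < a) :
    ((4 * U) * (4 * V)) ^ a * Real.cos (t * (Real.log (4 * U) - Real.log (4 * V))) =
      (4 : ℝ) ^ (2 * a) * ((U * V) ^ a * Real.cos (t * (Real.log U - Real.log V))) := by
  rcases hU.eq_or_lt with rfl | hU'
  · simp [Real.zero_rpow ha.ne']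
  rcases hV.eq_or_lt with rfl | hV'
  · simp [Real.zero_rpow ha.ne']
  rw [Real.log_mul (by norm_num) hU'.ne', Real.log_mul (by norm_num) hV'.ne']
  have h1 : (4 * U) * (4 * V) = (4 : ℝ) ^ (2 : ℝ) * (U * V) := by
    norm_num
    ring
  rw [h1, Real.mul_rpow (by positivity) (by positivity), ← Real.rpow_mul (by norm_num)]
  have h2 : Real.log 4 + Real.log U - (Real.log 4 + Real.log V) = Real.log U - Real.log V := by ring
  rw [h2]
  ring

theorem gE_scale {X Y Z a t : ℝ} (hX : 0 ≤ X) (hY : 0 ≤ Y) (hZ : 0 ≤ Z) (ha : 0 < a) :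
    gE a t ![4 * X, 4 * Y, 4 * Z] =
      (4 / 3) * (X ^ (1 - 2 * a) * ((Y * Z) ^ a * Real.cos (t * (Real.log Y - Real.log Z))) +
        Y ^ (1 - 2 * a) * ((Z * X) ^ a * Real.cos (t * (Real.log Z - Real.log X))) +
        Z ^ (1 - 2 * a) * ((X * Y) ^ a * Real.cos (t * (Real.log X - Real.log Y)))) := by
  have h0 : gE a t ![4 * X, 4 * Y, 4 * Z] = (1 / 3) * (
      (4 * X) ^ (1 - 2 * a) * (((4 * Y) * (4 * Z)) ^ a *
        Real.cos (t * (Real.log (4 * Y) - Real.log (4 * Z)))) +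
      (4 * Y) ^ (1 - 2 * a) * (((4 * Z) * (4 * X)) ^ a *
        Real.cos (t * (Real.log (4 * Z) - Real.log (4 * X)))) +
      (4 * Z) ^ (1 - 2 * a) * (((4 * X) * (4 * Y)) ^ a *
        Real.cos (t * (Real.log (4 * X) - Real.log (4 * Y))))) := by
    unfold gE
    rw [Fin.sum_univ_three]
    rfl
  have h4 : (4 : ℝ) ^ (1 - 2 * a) * (4 : ℝ) ^ (2 * a) = 4 := by
    rw [← Real.rpow_add (by norm_num)]
    simp
  rw [h0, pair_scale hY hZ ha, pair_scale hZ hX ha, pair_scale hX hY ha]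
  generalize (Y * Z) ^ a * Real.cos (t * (Real.log Y - Real.log Z)) = A
  generalize (Z * X) ^ a * Real.cos (t * (Real.log Z - Real.log X)) = B
  generalize (X * Y) ^ a * Real.cos (t * (Real.log X - Real.log Y)) = C
  rw [Real.mul_rpow (by norm_num) hX, Real.mul_rpow (by norm_num) hY, Real.mul_rpow (by norm_num) hZ]
  calc _ = (1 / 3) * ((4 : ℝ) ^ (1 - 2 * a) * (4 : ℝ) ^ (2 * a)) *
        (X ^ (1 - 2 * a) * A + Y ^ (1 - 2 * a) * B + Z ^ (1 - 2 * a) * C) := by ring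
    _ = _ := by rw [h4]; ring

/-- congruence in the value -/
theorem HH.eq {s t : ℝ} {k : ℕ} {F : Pk} {x y : ℝ} (h : HH s t k F x) (e : x = y) :
    HH s t k F y := e ▸ h

theorem yv_sound {s t : ℝ} {F : Af} {X : ℝ} (hX : AfH s t F X) :
    HH s t 1 (yv F) (2 ^ 60 * (4 * X - 1)) := by
  unfold yv
  refine HH.aff ?_ ?_
  · show _ ≤ Nat.add (Nat.add (Nat.sub (Nat.mul 4 F.v) S60) (Nat.sub S60 (Nat.mul 4 F.v)))
      (Nat.mul 4 (Nat.add (Nat.add F.ap F.an) (Nat.add F.bp F.bn)))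
    simp only [Nat.add_eq, Nat.mul_eq, Nat.sub_eq]
    omega
  · unfold AfH at hX
    have h1 : (((Nat.sub (Nat.mul 4 F.v) S60 : ℕ) : ℝ) - ((Nat.sub S60 (Nat.mul 4 F.v) : ℕ) : ℝ))
        = 4 * (F.v : ℝ) - 2 ^ 60 := by
      have hS : ((S60 : ℕ) : ℝ) = 2 ^ 60 := by unfold S60; norm_num
      simp only [Nat.sub_eq, Nat.mul_eq]
      rcases le_total (4 * F.v) S60 with h | h
      · rw [Nat.sub_eq_zero_of_le h, Nat.cast_sub h]
        push_cast
        rw [hS]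
        ring
      · rw [Nat.sub_eq_zero_of_le h, Nat.cast_sub h]
        push_cast
        rw [hS]
        ring
    rw [h1]
    simp only [Nat.mul_eq]
    push_cast
    have h2 : 2 ^ 60 * (4 * X - 1) - (4 * (F.v : ℝ) - 2 ^ 60 + (4 * (F.ap : ℝ) - 4 * F.an) * s +
        (4 * (F.bp : ℝ) - 4 * F.bn) * t) = 4 * (2 ^ 60 * X - ((F.v : ℝ) + ((F.ap : ℝ) - F.an) * s +
          ((F.bp : ℝ) - F.bn) * t)) := by ring
    rw [h2, abs_mul, abs_of_pos (by norm_num : (0 : ℝ) < 4)]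
    exact mul_le_mul_of_nonneg_left hX (by norm_num)

section

variable {s t : ℝ} (hs : |s| ≤ 1) (ht : |t| ≤ 1)

include hs ht in
theorem fs_sound {F G H : Af} {X Y Z : ℝ} (hX : AfH s t F X) (hY : AfH s t G Y)
    (hZ : AfH s t H Z) :
    HH s t 2 (fs F G H) (2 ^ 120 * ((4 * X - 1) ^ 2 + (4 * Y - 1) ^ 2 + (4 * Z - 1) ^ 2)) := by
  have hx := (HH.mul hs ht (yv_sound hX) (yv_sound hX))
  have hy := (HH.mul hs ht (yv_sound hY) (yv_sound hY))
  have hz := (HH.mul hs ht (yv_sound hZ) (yv_sound hZ))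
  unfold fs
  exact (hx.add (hy.add hz)).eq (by ring)

include hs ht in
theorem ft_sound {F G H : Af} {X Y Z : ℝ} (hX : AfH s t F X) (hY : AfH s t G Y)
    (hZ : AfH s t H Z) :
    HH s t 3 (ft F G H) (2 ^ 180 * ((4 * X - 1) * (4 * Y - 1) * (4 * Z - 1))) := by
  unfold ft
  exact ((HH.mul hs ht (HH.mul hs ht (yv_sound hX) (yv_sound hY)) (yv_sound hZ))).eq (by ring)

theorem cast_pow2 (n : ℕ) : ((Nat.pow 2 n : ℕ) : ℝ) = 2 ^ n := by
  simp

include hs ht in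
theorem rcj_sound {k l : ℕ} {z w : CP} {a b c d : ℝ} (h1 : HH s t k z.re a) (h2 : HH s t k z.im b)
    (h3 : HH s t l w.re c) (h4 : HH s t l w.im d) :
    HH s t (k + l) (rcj z w) (a * c + b * d) :=
  (HH.mul hs ht h1 h3).add (HH.mul hs ht h2 h4)

include hs ht in
theorem nsq_sound {k : ℕ} {z1 z2 z3 : CP} {a1 a2 a3 b1 b2 b3 : ℝ}
    (h1 : HH s t k z1.re a1) (h2 : HH s t k z2.re a2) (h3 : HH s t k z3.re a3)
    (g1 : HH s t k z1.im b1) (g2 : HH s t k z2.im b2) (g3 : HH s t k z3.im b3) :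
    HH s t (k + k) (nsq z1 z2 z3) ((a1 + (a2 + a3)) * (a1 + (a2 + a3)) +
      (b1 + (b2 + b3)) * (b1 + (b2 + b3))) :=
  (HH.mul hs ht (h1.add (h2.add h3)) (h1.add (h2.add h3))).add
    (HH.mul hs ht (g1.add (g2.add g3)) (g1.add (g2.add g3)))

end

theorem term_sound {s t : ℝ} (hs : |s| ≤ 1) (ht : |t| ≤ 1) {g : GF} (hg : GFOK g) {F G H : Af}
    {X Y Z : ℝ} (hX : AfH s t F X) (hY : AfH s t G Y) (hZ : AfH s t H Z) (X0 : 0 ≤ X) (Y0 : 0 ≤ Y)
    (Z0 : 0 ≤ Z) (hsum : X + Y + Z = 3 / 4)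
    (cX : CoOK s t (mkCo F) X) (cY : CoOK s t (mkCo G) Y) (cZ : CoOK s t (mkCo H) Z) (k : Sg) :
    HH s t 9 (term g k (qF g (mkPt F G H)))
      (2 ^ 516 * (6 * ((k.p : ℝ) - k.n) * g.fn ![4 * X, 4 * Y, 4 * Z])) := by
  have h516 : ((P516 : ℕ) : ℝ) = 2 ^ 516 := cast_pow2 516
  have h172 : ((P172 : ℕ) : ℝ) = 2 ^ 172 := cast_pow2 172
  match g, hg with
  | GF.half z, hg =>
    obtain ⟨hz, hpr⟩ := hg
    have px := pw_sound hs ht hz cX
    have py := pw_sound hs ht hz cY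
    have pz := pw_sound hs ht hz cZ
    have h1 := nsq_sound hs ht px.1 py.1 pz.1 px.2 py.2 pz.2
    have ha : (((z.pr : ℝ) / 60 : ℝ)) = 1 / 2 := by rw [hpr]; norm_num
    have hal := al_eq z
    rw [ha] at hal
    set τ : ℝ := (z.pi : ℝ) / 60 with hτ
    have hh : (0 : ℝ) < 1 / 2 := by norm_num
    have eXY := cpow_pair (t := τ) X0 Y0 hh
    have eZX := cpow_pair (t := τ) Z0 X0 hh
    have eYZ := cpow_pair (t := τ) Y0 Z0 hh
    have eXX := cpow_pair (t := τ) X0 X0 hh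
    have eYY := cpow_pair (t := τ) Y0 Y0 hh
    have eZZ := cpow_pair (t := τ) Z0 Z0 hh
    rw [← hal] at eXY eZX eYZ eXX eYY eZZ
    have sq : ∀ {U : ℝ}, 0 ≤ U → (U * U) ^ ((1 : ℝ) / 2) * Real.cos (τ * (Real.log U - Real.log U)) = U := by
      intro U hU
      rw [sub_self, mul_zero, Real.cos_zero, mul_one, ← Real.sqrt_eq_rpow, Real.sqrt_mul_self hU]
    rw [sq X0] at eXX
    rw [sq Y0] at eYY
    rw [sq Z0] at eZZ
    have hfn : (GF.half z).fn ![4 * X, 4 * Y, 4 * Z] = (4 / 3) * (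
        ((Y * Z) ^ ((1 : ℝ) / 2) * Real.cos (τ * (Real.log Y - Real.log Z))) +
        ((Z * X) ^ ((1 : ℝ) / 2) * Real.cos (τ * (Real.log Z - Real.log X))) +
        ((X * Y) ^ ((1 : ℝ) / 2) * Real.cos (τ * (Real.log X - Real.log Y)))) := by
      show gE (1 / 2) τ ![4 * X, 4 * Y, 4 * Z] = _
      rw [gE_scale X0 Y0 Z0 hh]
      have h0 : (1 : ℝ) - 2 * (1 / 2) = 0 := by norm_num
      rw [h0]
      simp only [Real.rpow_zero, one_mul]
    rw [hfn, ← eXY, ← eZX, ← eYZ]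
    have h2 := ((HH.sc P172 h1).sm k)
    have h3 := ((HH.sc 4 h2).mono (show 6 ≤ 9 by norm_num)).add
      ((HH.cst (s := s) (t := t) (Nat.mul (Nat.mul 3 k.n) P516) (Nat.mul (Nat.mul 3 k.p) P516) 0
        (x := 3 * ((k.n : ℝ) - k.p) * 2 ^ 516) (by
          simp only [Nat.mul_eq]
          push_cast
          rw [h516]
          have : 3 * ((k.n : ℝ) - k.p) * 2 ^ 516 - (3 * (k.n : ℝ) * 2 ^ 516 - 3 * (k.p : ℝ) * 2 ^ 516) = 0 := by
            ring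
          rw [this]
          simp)).mono (show 0 ≤ 9 by norm_num))
    refine HH.eq h3 ?_
    rw [h172]
    push_cast
    generalize ((X : ℂ) ^ z.al).re = xr at *
    generalize ((X : ℂ) ^ z.al).im = xi at *
    generalize ((Y : ℂ) ^ z.al).re = yr at *
    generalize ((Y : ℂ) ^ z.al).im = yi at *
    generalize ((Z : ℂ) ^ z.al).re = zr at *
    generalize ((Z : ℂ) ^ z.al).im = zi at *
    have hq : (xr * xr + xi * xi) + (yr * yr + yi * yi) + (zr * zr + zi * zi) = 3 / 4 := by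
      rw [eXX, eYY, eZZ]; exact hsum
    have hK : (2 : ℝ) ^ 516 = 2 ^ 172 * (2 ^ 172 * 2 ^ 172) := by rw [← pow_add, ← pow_add]
    rw [hK]
    generalize (2 : ℝ) ^ 172 = K
    linear_combination (4 * K ^ 3 * ((k.p : ℝ) - k.n)) * hq
  | GF.gen z w, hg =>
    obtain ⟨hz, hw, hzp, hsumw, hwi⟩ := hg
    have px := pw_sound hs ht hz cX
    have py := pw_sound hs ht hz cY
    have pz := pw_sound hs ht hz cZ
    have wx := pwr_sound hs ht hw cX hwi
    have wy := pwr_sound hs ht hw cY hwi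
    have wz := pwr_sound hs ht hw cZ hwi
    have h1 := (HH.mul hs ht wx (rcj_sound hs ht py.1 py.2 pz.1 pz.2)).add
      ((HH.mul hs ht wy (rcj_sound hs ht pz.1 pz.2 px.1 px.2)).add
        (HH.mul hs ht wz (rcj_sound hs ht px.1 px.2 py.1 py.2)))
    have hal := al_eq z
    set a : ℝ := (z.pr : ℝ) / 60 with haa
    set τ : ℝ := (z.pi : ℝ) / 60 with hτ
    have hh : 0 < a := by
      have h15 : (15 : ℝ) ≤ z.pr := by exact_mod_cast hz.pos
      exact div_pos (by linarith) (by norm_num)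
    have hwa : (w.pr : ℝ) / 60 = 1 - 2 * a := by
      have : ((w.pr + 2 * z.pr : ℕ) : ℝ) = 60 := by exact_mod_cast hsumw
      push_cast at this
      rw [haa]
      linarith
    rw [hwa] at h1
    have eXY := cpow_pair (t := τ) X0 Y0 hh
    have eZX := cpow_pair (t := τ) Z0 X0 hh
    have eYZ := cpow_pair (t := τ) Y0 Z0 hh
    rw [← hal] at eXY eZX eYZ
    have hfn : (GF.gen z w).fn ![4 * X, 4 * Y, 4 * Z] = _ := gE_scale (t := τ) X0 Y0 Z0 hh
    rw [hfn, ← eXY, ← eZX, ← eYZ]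
    have h2 := HH.sc 8 (h1.sm k)
    refine HH.eq h2 ?_
    push_cast
    have hK : (2 : ℝ) ^ 516 = 2 ^ 172 * (2 ^ 172 * 2 ^ 172) := by rw [← pow_add, ← pow_add]
    rw [hK]
    generalize (2 : ℝ) ^ 172 = K
    ring
  | GF.pol j, _ =>
    have hfs := fs_sound hs ht hX hY hZ
    have hft := ft_sound hs ht hX hY hZ
    set S : ℝ := (4 * X - 1) ^ 2 + (4 * Y - 1) ^ 2 + (4 * Z - 1) ^ 2 with hS
    set Q : ℝ := (4 * X - 1) * (4 * Y - 1) * (4 * Z - 1) with hQ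
    have key : HH s t 9 (monE j (mkPt F G H)) (2 ^ 516 * (GF.pol j).fn ![4 * X, 4 * Y, 4 * Z]) := by
      match j with
      | 0 =>
        refine ((HH.sc (Nat.pow 2 396) hfs).mono (show 2 ≤ 9 by norm_num)).eq ?_
        rw [cast_pow2]
        show _ = 2 ^ 516 * S
        have e : (2 : ℝ) ^ 516 = 2 ^ 396 * 2 ^ 120 := by rw [← pow_add]
        rw [e]
        ring
      | 1 =>
        refine ((HH.sc (Nat.pow 2 336) hft).mono (show 3 ≤ 9 by norm_num)).eq ?_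
        rw [cast_pow2]
        show _ = 2 ^ 516 * Q
        have e : (2 : ℝ) ^ 516 = 2 ^ 336 * 2 ^ 180 := by rw [← pow_add]
        rw [e]
        ring
      | 2 =>
        refine ((HH.sc (Nat.pow 2 276) (HH.mul hs ht hfs hfs)).mono (show 4 ≤ 9 by norm_num)).eq ?_
        rw [cast_pow2]
        show _ = 2 ^ 516 * S ^ 2
        have e : (2 : ℝ) ^ 516 = 2 ^ 276 * (2 ^ 120 * 2 ^ 120) := by rw [← pow_add, ← pow_add]
        rw [e]
        ring
      | 3 =>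
        refine ((HH.sc (Nat.pow 2 216) (HH.mul hs ht hfs hft)).mono (show 5 ≤ 9 by norm_num)).eq ?_
        rw [cast_pow2]
        show _ = 2 ^ 516 * (S * Q)
        have e : (2 : ℝ) ^ 516 = 2 ^ 216 * (2 ^ 120 * 2 ^ 180) := by rw [← pow_add, ← pow_add]
        rw [e]
        ring
      | 4 =>
        refine ((HH.sc (Nat.pow 2 156) (HH.mul hs ht (HH.mul hs ht hfs hfs) hfs)).mono
          (show 6 ≤ 9 by norm_num)).eq ?_
        rw [cast_pow2]
        show _ = 2 ^ 516 * S ^ 3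
        have e : (2 : ℝ) ^ 516 = 2 ^ 156 * (2 ^ 120 * (2 ^ 120 * 2 ^ 120)) := by
          rw [← pow_add, ← pow_add, ← pow_add]
        rw [e]
        ring
      | (n + 5) =>
        refine ((HH.sc (Nat.pow 2 156) (HH.mul hs ht hft hft)).mono
          (show 6 ≤ 9 by norm_num)).eq ?_
        rw [cast_pow2]
        show _ = 2 ^ 516 * Q ^ 2
        have e : (2 : ℝ) ^ 516 = 2 ^ 156 * (2 ^ 180 * 2 ^ 180) := by rw [← pow_add, ← pow_add]
        rw [e]
        ring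
    refine (HH.sc 6 (key.sm k)).eq ?_
    push_cast
    ring

end Vale.Agent.P154.Pk
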