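import Vale.Agent.P154.PkI4
import Vale.Agent.P154.KA4
import Vale.Agent.P154.KA5
import Vale.Agent.P154.KA6
import Vale.Agent.P154.KA7
import Vale.Agent.P154.KA8
import Vale.Agent.P154.KB4

/-!
# The critical regular trees, `4 ≤ d ≤ 8`, negative `lam`
-/

namespace Vale.Agent.P154.Pk

open Filter Topology Dat

theorem chA5 : ChOK A5.ch (-(1 / √((5 : ℕ) : ℝ))) :=
  chOK_of (by norm_num) (by norm_num) (by norm_num) (by norm_num [S60]) (by norm_num)

theorem crit5 : Tendsto (aReg 3 5 (-(1 / √((5 : ℕ) : ℝ)))) atTop (𝓝 0) :=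
  reg_of_runs (d := 5) (by norm_num) (by norm_num) chA5
    (Mt := 641238617) (AR := 7298088960) (AC := 11295766649) (K0 := 105856) (K1 := 317567) (bot := 1017039)
    (by norm_num [K261]) (by norm_num [K261, aC]) (by norm_num [K261, kc])
    (by norm_num [K261, kc]) A5.ces_ok A5.ces_cover (by norm_num [U]) A5.cells_cover
    (by rw [A5.rows_eq]; exact A5.runs)

theorem chA6 : ChOK A6.ch (-(1 / √((6 : ℕ) : ℝ))) :=
  chOK_of (by norm_num) (by norm_num) (by norm_num) (by norm_num [S60]) (by norm_num)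

theorem crit6 : Tendsto (aReg 3 6 (-(1 / √((6 : ℕ) : ℝ)))) atTop (𝓝 0) :=
  reg_of_runs (d := 6) (by norm_num) (by norm_num) chA6
    (Mt := 468151435) (AR := 10947133440) (AC := 16937158068) (K0 := 158784) (K1 := 476350) (bot := 1394810)
    (by norm_num [K261]) (by norm_num [K261, aC]) (by norm_num [K261, kc])
    (by norm_num [K261, kc]) A6.ces_ok A6.ces_cover (by norm_num [U]) A6.cells_cover
    (by rw [A6.rows_eq]; exact A6.runs)

theorem chA7 : ChOK A7.ch (-(1 / √((7 : ℕ) : ℝ))) :=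
  chOK_of (by norm_num) (by norm_num) (by norm_num) (by norm_num [S60]) (by norm_num)

theorem crit7 : Tendsto (aReg 3 7 (-(1 / √((7 : ℕ) : ℝ)))) atTop (𝓝 0) :=
  reg_of_runs (d := 7) (by norm_num) (by norm_num) chA7
    (Mt := 370763051) (AR := 15325986816) (AC := 23702932627) (K0 := 222298) (K1 := 666891) (bot := 1238597)
    (by norm_num [K261]) (by norm_num [K261, aC]) (by norm_num [K261, kc])
    (by norm_num [K261, kc]) A7.ces_ok A7.ces_cover (by norm_num [U]) A7.cells_cover
    (by rw [A7.rows_eq]; exact A7.runs)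

theorem chA8 : ChOK A8.ch (-(1 / √((8 : ℕ) : ℝ))) :=
  chOK_of (by norm_num) (by norm_num) (by norm_num) (by norm_num [S60]) (by norm_num)

theorem crit8 : Tendsto (aReg 3 8 (-(1 / √((8 : ℕ) : ℝ)))) atTop (𝓝 0) :=
  reg_of_runs (d := 8) (by norm_num) (by norm_num) chA8
    (Mt := 307197535) (AR := 20434649088) (AC := 31591791945) (K0 := 296397) (K1 := 889188) (bot := 1005625)
    (by norm_num [K261]) (by norm_num [K261, aC]) (by norm_num [K261, kc])
    (by norm_num [K261, kc]) A8.ces_ok A8.ces_cover (by norm_num [U]) A8.cells_cover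
    (by rw [A8.rows_eq]; exact A8.runs)

theorem chA4 : ChOK A4.ch (-(1 / √((4 : ℕ) : ℝ))) :=
  chOK_of (by norm_num) (by norm_num) (by norm_num) (by norm_num [S60]) (by norm_num)

theorem coverB : cover 60344291 U (B4.ce :: B4.ces) = true := by decide +kernel

theorem crit4 : Tendsto (aReg 3 4 (-(1 / √((4 : ℕ) : ℝ)))) atTop (𝓝 0) :=
  reg_of_runs4 chA4
    (Mt := 1127321541) (AR := 4378853376) (AC := 6780056751) (K0 := 63514) (K1 := 190540)
    (bot := 1294369) (topA := 60344291)
    (by norm_num [K261]) (by norm_num [K261, aC]) (by norm_num [K261, kc])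
    (by norm_num [K261, kc]) A4.ces_ok A4.ces_cover (by norm_num [U]) A4.cells_cover
    (by rw [A4.rows_eq]; exact A4.runs) B4.ces_ok coverB rfl (by norm_num [U]) B4.cells_cover
    (by rw [B4.rows_eq]; exact B4.runs)

end Vale.Agent.P154.Pk
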