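import Vale.Agent.P154.PkDefs

/-!
# Certificates: integer data (units `2 ^ (-30)`)
-/

set_option linter.dupNamespace false

namespace Vale.Agent.P154.Pk

deriving instance DecidableEq for Sg
deriving instance DecidableEq for Row

/-- a positive term: multiplier, tangent line `ic + sl s` (times the multiplier), tangent point -/
structure Ps where
  rho : ℕ
  ic : ℕ
  sl : ℕ
  sg : ℕ

/-- certificate on the interval `[m0, m1]` -/
structure Ce where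
  m0 : ℕ
  m1 : ℕ
  mu0 : Sg
  mu1 : Sg
  R : ℕ
  pos : List Ps

/-- unit -/
def U : ℕ := 1073741824

/-- constant of the row at `m` -/
def Ce.rowc (d : ℕ) (ce : Ce) (m : ℕ) (mu : Sg) : Sg :=
  ⟨(ce.pos.map Ps.rho).sum + mu.p * (U - m) / U,
   (ce.pos.map fun q => q.ic + q.sl).sum + (ce.R * (U - m) ^ d / U ^ d + 1) +
    (mu.n * (U - m) / U + 1) + 2⟩

/-- row at `m`: for the functions `[R, pos…]` (all of type `gE`) -/
def Ce.row (d : ℕ) (ce : Ce) (m : ℕ) (mu : Sg) : Row :=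
  ⟨ce.rowc d m mu, ⟨ce.R, 0⟩ :: ce.pos.map (fun q => ⟨0, q.rho⟩),
   ⟨mu.n, mu.p⟩ :: ce.pos.map (fun q => ⟨q.sl, 0⟩), false, 0, false⟩

/-- the two rows of a certificate -/
def Ce.rows (d : ℕ) (ce : Ce) : List Row := [ce.row d ce.m0 ce.mu0, ce.row d ce.m1 ce.mu1]

/-- check of a tangent line -/
def psOK (d : ℕ) (q : Ps) : Bool :=
  decide (0 < q.rho) && decide (q.sg ≤ U) &&
  decide (q.rho * U ^ d ≤ q.ic * U ^ d + q.rho * ((U - q.sg) ^ (d - 1) * (U + (d - 1) * q.sg))) &&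
  decide (q.rho * (U ^ d + (d - 1) * (U - q.sg) ^ d) ≤ (q.ic + q.sl) * U ^ d)

/-- check of a certificate (`N` positive terms) -/
def ceOK (d N : ℕ) (ce : Ce) : Bool :=
  decide (ce.m0 < ce.m1) && decide (ce.m1 ≤ U) && decide (ce.pos.length = N) &&
  ce.pos.all (psOK d) &&
  decide (2 * (ce.mu0.p + ce.mu1.n) * U ^ (d - 1) ≤
    2 * (ce.mu1.p + ce.mu0.n) * U ^ (d - 1) + ce.R * (d * (d - 1)) * (U - ce.m1) ^ (d - 2) * (ce.m1 - ce.m0))

/-- consecutive certificates are adjacent (listed downwards): they cover `[bot, top]` -/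
def cover : ℕ → ℕ → List Ce → Bool
  | bot, top, [] => decide (top ≤ bot)
  | bot, top, ce :: ces => decide (top ≤ ce.m1) && cover bot ce.m0 ces

/-- row `0 < gE_j (B x)` for the function number `j` among `n` -/
def rowNN (n j : ℕ) : Row :=
  ⟨⟨0, 0⟩, List.replicate n ⟨0, 0⟩, (List.range n).map (fun i => if i = j then ⟨1, 0⟩ else ⟨0, 0⟩),
    false, 0, false⟩

/-- row `phiR (B x) < Mt / U` for the functions `[R, C, pol 0]` (`Mt` may exceed `U`) -/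
def rowM (Mt : ℕ) : Row :=
  ⟨⟨Mt - U, U - Mt⟩, [⟨0, 0⟩, ⟨0, 0⟩, ⟨0, 0⟩], [⟨U, 0⟩, ⟨0, 0⟩, ⟨0, 0⟩], false, 0, false⟩

/-- row `P2 / 100 < phiR (B x)` outside the zone `|x_i - 1| ≤ 1 / 8`, functions `[R, C, pol 0]` -/
def rowL : Row :=
  ⟨⟨100, 0⟩, [⟨0, 0⟩, ⟨0, 0⟩, ⟨0, 1⟩], [⟨0, 100⟩, ⟨0, 0⟩, ⟨0, 0⟩], true, 36028797018963968, false⟩

/-- `261 * 2 ^ 30` -/
def K261 : ℕ := 280246616064
/-- `688 * 2 ^ 30` -/
def K688 : ℕ := 738734374912

/-- row `Z0` of `small_cert`, times `261 * 2 ^ 30`;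
`K0 ≥ 261 * 2 ^ 30 * (d (d - 1) * (61 / 1369) / (4 * 768 ^ 2))` -/
def rowZ0 (d K0 : ℕ) : Row :=
  ⟨⟨0, (K688 - K261) * (d - 1) + K0 + 1⟩, [⟨K261, 0⟩, ⟨0, K688⟩, ⟨0, 0⟩],
    [⟨0, d * K261⟩, ⟨d * K688, 0⟩, ⟨0, 0⟩], true, 36028797018963968, false⟩

/-- row `Z1` of `small_cert`, times `261 * 2 ^ 30`; `AR ≥ 261 * 2 ^ 30 * d (d - 1) / 768`,
`AC ≤ 261 * 2 ^ 30 * aC d / 768`, `K1 ≤ 3 * 261 * 2 ^ 30 * (d (d - 1) * (61 / 1369) / (4 * 768 ^ 2))` -/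
def rowZ1 (d AR AC K1 : ℕ) : Row :=
  ⟨⟨AC + K1, (K688 - K261) * (d - 1) + AR + 1⟩, [⟨K261, 0⟩, ⟨0, K688⟩, ⟨0, 0⟩],
    [⟨AR, d * K261⟩, ⟨d * K688, AC⟩, ⟨0, 0⟩], true, 36028797018963968, false⟩

/-- the special rows for the functions `[R, C, pol 0]` -/
def special (d Mt AR AC K0 K1 : ℕ) : List Row :=
  [rowNN 3 1, rowM Mt, rowL, rowZ0 d K0, rowZ1 d AR AC K1]

/-- initial cell -/
def cell0 : Cell := ⟨216172782113783808, 216172782113783808, 144115188075855872, 144115188075855872⟩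

/-- the rows of run A: certificates for `[R, C]` padded with a zero coefficient for `pol 0` -/
def pad (r : Row) : Row := ⟨r.c, r.cx ++ [⟨0, 0⟩], r.cy ++ [⟨0, 0⟩], r.zf, r.z, r.cap⟩

/-- rows of run A -/
def rowsA (d Mt AR AC K0 K1 : ℕ) (ces : List Ce) : List Row :=
  special d Mt AR AC K0 K1 ++ (ces.flatMap (Ce.rows d)).map pad

/-- the row at `m = 1` (`m1 = U`) with an additional slack, used for `1 ≤ m ≤ 1.05` -/
def Ce.rowTop (d : ℕ) (ce : Ce) : Row :=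
  ⟨⟨(ce.rowc d U ce.mu1).p, (ce.rowc d U ce.mu1).n + 100000⟩,
    ⟨ce.R, 0⟩ :: ce.pos.map (fun q => ⟨0, q.rho⟩),
    ⟨ce.mu1.n, ce.mu1.p⟩ :: ce.pos.map (fun q => ⟨q.sl, 0⟩), false, 0, false⟩

/-- check of a tangent line for `d = 4` (then valid on the whole real line) -/
def psOK4 (q : Ps) : Bool :=
  decide (0 < q.rho) && decide (q.sg ≤ U) &&
  decide (q.rho * U ^ 4 ≤ q.ic * U ^ 4 + q.rho * ((U - q.sg) ^ 3 * (U + 3 * q.sg))) &&
  decide (q.rho * (4 * (U - q.sg) ^ 3) ≤ q.sl * U ^ 3)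

/-- check of a certificate (`N` positive terms) for `d = 4` -/
def ceOK4 (N : ℕ) (ce : Ce) : Bool :=
  decide (ce.m0 < ce.m1) && decide (ce.m1 ≤ U) && decide (ce.pos.length = N) &&
  decide (ce.R ≤ U) && ce.pos.all psOK4 &&
  decide (2 * (ce.mu0.p + ce.mu1.n) * U ^ 3 ≤
    2 * (ce.mu1.p + ce.mu0.n) * U ^ 3 + ce.R * 12 * (U - ce.m1) ^ 2 * (ce.m1 - ce.m0))

/-- rows of run B (`d = 4`, functions `[R, pos…]`), `ce` is the first certificate -/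
def rowsB (ce : Ce) (ces : List Ce) : List Row :=
  ce.rowTop 4 :: (ce :: ces).flatMap (Ce.rows 4)

end Vale.Agent.P154.Pk
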