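import Mathlib
import Vale.Agent.P154.Core

/-!
Parametricity and homogeneity lemmas for the program of `Core`.
-/

set_option linter.unusedVariables false

namespace Vale.Agent.P154

/-- closure of a relation under the operations -/
structure Closed {R S : Type*} (Rel : R → S → Prop) (ad sb ml : R → R → R) (c : ℤ → R)
    (ad' sb' ml' : S → S → S) (c' : ℤ → S) : Prop where
  ad : ∀ {a a' b b'}, Rel a a' → Rel b b' → Rel (ad a b) (ad' a' b')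
  sb : ∀ {a a' b b'}, Rel a a' → Rel b b' → Rel (sb a b) (sb' a' b')
  ml : ∀ {a a' b b'}, Rel a a' → Rel b b' → Rel (ml a b) (ml' a' b')
  c : ∀ n, Rel (c n) (c' n)

theorem st48_rel {R S : Type*} {Rel : R → S → Prop} {ad sb ml : R → R → R} {c : ℤ → R}
    {ad' sb' ml' : S → S → S} {c' : ℤ → S} (cl : Closed Rel ad sb ml c ad' sb' ml' c') (p : Par)
    {ed : R} {ed' : S} (hed : Rel ed ed') {Pi : R} {Pi' : S} (hPi : Rel Pi Pi') {Q1 : R} {Q1' : S} (hQ1 : Rel Q1 Q1') {Q2 : R} {Q2' : S} (hQ2 : Rel Q2 Q2') :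
    Rel (st48 ad sb ml c p ed Pi Q1 Q2) (st48 ad' sb' ml' c' p ed' Pi' Q1' Q2') :=
  (cl.sb hQ1 (cl.ml (cl.ml hPi hQ2) hed))

theorem st47_rel {R S : Type*} {Rel : R → S → Prop} {ad sb ml : R → R → R} {c : ℤ → R}
    {ad' sb' ml' : S → S → S} {c' : ℤ → S} (cl : Closed Rel ad sb ml c ad' sb' ml' c') (p : Par)
    {ed : R} {ed' : S} (hed : Rel ed ed') {D : R} {D' : S} (hD : Rel D D') {H : R} {H' : S} (hH : Rel H H') {Eas : R} {Eas' : S} (hEas : Rel Eas Eas') {D2 : R} {D2' : S} (hD2 : Rel D2 D2') {U2 : R} {U2' : S} (hU2 : Rel U2 U2') {U5 : R} {U5' : S} (hU5 : Rel U5 U5') {E4 : R} {E4' : S} (hE4 : Rel E4 E4') {Pi : R} {Pi' : S} (hPi : Rel Pi Pi') {Q1 : R} {Q1' : S} (hQ1 : Rel Q1 Q1') :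
    Rel (st47 ad sb ml c p ed D H Eas D2 U2 U5 E4 Pi Q1) (st47 ad' sb' ml' c' p ed' D' H' Eas' D2' U2' U5' E4' Pi' Q1') :=
  st48_rel cl p hed hPi hQ1 (cl.ad (cl.ml hD (cl.ad (cl.ml (cl.c _) (cl.ml (cl.ml (cl.ml hU2 hD2) hH) hEas)) (cl.ml (cl.c _) hE4))) (cl.ml (cl.c _) (cl.ml (cl.ml hPi hU5) hed)))

theorem st46_rel {R S : Type*} {Rel : R → S → Prop} {ad sb ml : R → R → R} {c : ℤ → R}
    {ad' sb' ml' : S → S → S} {c' : ℤ → S} (cl : Closed Rel ad sb ml c ad' sb' ml' c') (p : Par)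
    {ed : R} {ed' : S} (hed : Rel ed ed') {D : R} {D' : S} (hD : Rel D D') {H : R} {H' : S} (hH : Rel H H') {Hed : R} {Hed' : S} (hHed : Rel Hed Hed') {Eas : R} {Eas' : S} (hEas : Rel Eas Eas') {D2 : R} {D2' : S} (hD2 : Rel D2 D2') {U2 : R} {U2' : S} (hU2 : Rel U2 U2') {U5 : R} {U5' : S} (hU5 : Rel U5 U5') {E1 : R} {E1' : S} (hE1 : Rel E1 E1') {E4 : R} {E4' : S} (hE4 : Rel E4 E4') {E3 : R} {E3' : S} (hE3 : Rel E3 E3') {Pi : R} {Pi' : S} (hPi : Rel Pi Pi') {R0 : R} {R0' : S} (hR0 : Rel R0 R0') :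
    Rel (st46 ad sb ml c p ed D H Hed Eas D2 U2 U5 E1 E4 E3 Pi R0) (st46 ad' sb' ml' c' p ed' D' H' Hed' Eas' D2' U2' U5' E1' E4' E3' Pi' R0') :=
  st47_rel cl p hed hD hH hEas hD2 hU2 hU5 hE4 hPi (cl.ml (cl.sb (cl.ml (cl.sb (cl.ml hD hR0) (cl.ml (cl.c _) (cl.ml hE1 (cl.ml hHed hEas)))) hD2) (cl.ml (cl.c _) hE3)) hD2)

theorem st45_rel {R S : Type*} {Rel : R → S → Prop} {ad sb ml : R → R → R} {c : ℤ → R}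
    {ad' sb' ml' : S → S → S} {c' : ℤ → S} (cl : Closed Rel ad sb ml c ad' sb' ml' c') (p : Par)
    {ed : R} {ed' : S} (hed : Rel ed ed') {D : R} {D' : S} (hD : Rel D D') {H : R} {H' : S} (hH : Rel H H') {Hed : R} {Hed' : S} (hHed : Rel Hed Hed') {Eas : R} {Eas' : S} (hEas : Rel Eas Eas') {D2 : R} {D2' : S} (hD2 : Rel D2 D2') {U2 : R} {U2' : S} (hU2 : Rel U2 U2') {U5 : R} {U5' : S} (hU5 : Rel U5 U5') {E1 : R} {E1' : S} (hE1 : Rel E1 E1') {E4 : R} {E4' : S} (hE4 : Rel E4 E4') {E3 : R} {E3' : S} (hE3 : Rel E3 E3') {Pi : R} {Pi' : S} (hPi : Rel Pi Pi') {RA : R} {RA' : S} (hRA : Rel RA RA') {RB : R} {RB' : S} (hRB : Rel RB RB') {gs : R} {gs' : S} (hgs : Rel gs gs') {ha : R} {ha' : S} (hha : Rel ha ha') :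
    Rel (st45 ad sb ml c p ed D H Hed Eas D2 U2 U5 E1 E4 E3 Pi RA RB gs ha) (st45 ad' sb' ml' c' p ed' D' H' Hed' Eas' D2' U2' U5' E1' E4' E3' Pi' RA' RB' gs' ha') :=
  st46_rel cl p hed hD hH hHed hEas hD2 hU2 hU5 hE1 hE4 hE3 hPi (cl.sb (cl.ad (cl.ml hRA (cl.ml hgs hgs)) (cl.ml hRB (cl.ml hha hha))) (cl.ml (cl.c _) (cl.ml (cl.ml hha hha) (cl.ml hgs hgs))))

theorem st44_rel {R S : Type*} {Rel : R → S → Prop} {ad sb ml : R → R → R} {c : ℤ → R}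
    {ad' sb' ml' : S → S → S} {c' : ℤ → S} (cl : Closed Rel ad sb ml c ad' sb' ml' c') (p : Par)
    {h : R} {h' : S} (hh : Rel h h') {ea : R} {ea' : S} (hea : Rel ea ea') {ed : R} {ed' : S} (hed : Rel ed ed') {D : R} {D' : S} (hD : Rel D D') {H : R} {H' : S} (hH : Rel H H') {Hed : R} {Hed' : S} (hHed : Rel Hed Hed') {Eas : R} {Eas' : S} (hEas : Rel Eas Eas') {D2 : R} {D2' : S} (hD2 : Rel D2 D2') {U2 : R} {U2' : S} (hU2 : Rel U2 U2') {U5 : R} {U5' : S} (hU5 : Rel U5 U5') {E1 : R} {E1' : S} (hE1 : Rel E1 E1') {E4 : R} {E4' : S} (hE4 : Rel E4 E4') {E3 : R} {E3' : S} (hE3 : Rel E3 E3') {Pi : R} {Pi' : S} (hPi : Rel Pi Pi') {RA : R} {RA' : S} (hRA : Rel RA RA') {RB : R} {RB' : S} (hRB : Rel RB RB') {gs : R} {gs' : S} (hgs : Rel gs gs') :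
    Rel (st44 ad sb ml c p h ea ed D H Hed Eas D2 U2 U5 E1 E4 E3 Pi RA RB gs) (st44 ad' sb' ml' c' p h' ea' ed' D' H' Hed' Eas' D2' U2' U5' E1' E4' E3' Pi' RA' RB' gs') :=
  st45_rel cl p hed hD hH hHed hEas hD2 hU2 hU5 hE1 hE4 hE3 hPi hRA hRB hgs (cl.ml hh hea)

theorem st43_rel {R S : Type*} {Rel : R → S → Prop} {ad sb ml : R → R → R} {c : ℤ → R}
    {ad' sb' ml' : S → S → S} {c' : ℤ → S} (cl : Closed Rel ad sb ml c ad' sb' ml' c') (p : Par)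
    {h : R} {h' : S} (hh : Rel h h') {g : R} {g' : S} (hg : Rel g g') {ea : R} {ea' : S} (hea : Rel ea ea') {es : R} {es' : S} (hes : Rel es es') {ed : R} {ed' : S} (hed : Rel ed ed') {D : R} {D' : S} (hD : Rel D D') {H : R} {H' : S} (hH : Rel H H') {Hed : R} {Hed' : S} (hHed : Rel Hed Hed') {Eas : R} {Eas' : S} (hEas : Rel Eas Eas') {D2 : R} {D2' : S} (hD2 : Rel D2 D2') {U2 : R} {U2' : S} (hU2 : Rel U2 U2') {U5 : R} {U5' : S} (hU5 : Rel U5 U5') {E1 : R} {E1' : S} (hE1 : Rel E1 E1') {E4 : R} {E4' : S} (hE4 : Rel E4 E4') {E3 : R} {E3' : S} (hE3 : Rel E3 E3') {Pi : R} {Pi' : S} (hPi : Rel Pi Pi') {RA : R} {RA' : S} (hRA : Rel RA RA') {RB : R} {RB' : S} (hRB : Rel RB RB') :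
    Rel (st43 ad sb ml c p h g ea es ed D H Hed Eas D2 U2 U5 E1 E4 E3 Pi RA RB) (st43 ad' sb' ml' c' p h' g' ea' es' ed' D' H' Hed' Eas' D2' U2' U5' E1' E4' E3' Pi' RA' RB') :=
  st44_rel cl p hh hea hed hD hH hHed hEas hD2 hU2 hU5 hE1 hE4 hE3 hPi hRA hRB (cl.ml hg hes)

theorem st42_rel {R S : Type*} {Rel : R → S → Prop} {ad sb ml : R → R → R} {c : ℤ → R}
    {ad' sb' ml' : S → S → S} {c' : ℤ → S} (cl : Closed Rel ad sb ml c ad' sb' ml' c') (p : Par)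
    {h : R} {h' : S} (hh : Rel h h') {g : R} {g' : S} (hg : Rel g g') {ea : R} {ea' : S} (hea : Rel ea ea') {es : R} {es' : S} (hes : Rel es es') {ed : R} {ed' : S} (hed : Rel ed ed') {B : R} {B' : S} (hB : Rel B B') {s : R} {s' : S} (hs : Rel s s') {D : R} {D' : S} (hD : Rel D D') {H : R} {H' : S} (hH : Rel H H') {Hed : R} {Hed' : S} (hHed : Rel Hed Hed') {Eas : R} {Eas' : S} (hEas : Rel Eas Eas') {D2 : R} {D2' : S} (hD2 : Rel D2 D2') {U2 : R} {U2' : S} (hU2 : Rel U2 U2') {U5 : R} {U5' : S} (hU5 : Rel U5 U5') {E1 : R} {E1' : S} (hE1 : Rel E1 E1') {E4 : R} {E4' : S} (hE4 : Rel E4 E4') {E3 : R} {E3' : S} (hE3 : Rel E3 E3') {Pi : R} {Pi' : S} (hPi : Rel Pi Pi') {es2 : R} {es2' : S} (hes2 : Rel es2 es2') {RA : R} {RA' : S} (hRA : Rel RA RA') :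
    Rel (st42 ad sb ml c p h g ea es ed B s D H Hed Eas D2 U2 U5 E1 E4 E3 Pi es2 RA) (st42 ad' sb' ml' c' p h' g' ea' es' ed' B' s' D' H' Hed' Eas' D2' U2' U5' E1' E4' E3' Pi' es2' RA') :=
  st43_rel cl p hh hg hea hes hed hD hH hHed hEas hD2 hU2 hU5 hE1 hE4 hE3 hPi hRA (cl.ad (cl.sb (cl.ml (cl.ad (cl.ml (cl.c _) (cl.ml hB hg)) (cl.ml (cl.c _) (cl.ml hB hB))) hes2) (cl.ml (cl.c _) (cl.ml (cl.ml hB hs) hes))) (cl.ml (cl.c _) (cl.ml hs hs)))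

theorem st41_rel {R S : Type*} {Rel : R → S → Prop} {ad sb ml : R → R → R} {c : ℤ → R}
    {ad' sb' ml' : S → S → S} {c' : ℤ → S} (cl : Closed Rel ad sb ml c ad' sb' ml' c') (p : Par)
    {h : R} {h' : S} (hh : Rel h h') {g : R} {g' : S} (hg : Rel g g') {ea : R} {ea' : S} (hea : Rel ea ea') {es : R} {es' : S} (hes : Rel es es') {ed : R} {ed' : S} (hed : Rel ed ed') {A : R} {A' : S} (hA : Rel A A') {B : R} {B' : S} (hB : Rel B B') {t : R} {t' : S} (ht : Rel t t') {s : R} {s' : S} (hs : Rel s s') {D : R} {D' : S} (hD : Rel D D') {H : R} {H' : S} (hH : Rel H H') {Hed : R} {Hed' : S} (hHed : Rel Hed Hed') {Eas : R} {Eas' : S} (hEas : Rel Eas Eas') {D2 : R} {D2' : S} (hD2 : Rel D2 D2') {U2 : R} {U2' : S} (hU2 : Rel U2 U2') {U5 : R} {U5' : S} (hU5 : Rel U5 U5') {E1 : R} {E1' : S} (hE1 : Rel E1 E1') {E4 : R}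 {E4' : S} (hE4 : Rel E4 E4') {E3 : R} {E3' : S} (hE3 : Rel E3 E3') {Pi : R} {Pi' : S} (hPi : Rel Pi Pi') {ea2 : R} {ea2' : S} (hea2 : Rel ea2 ea2') {es2 : R} {es2' : S} (hes2 : Rel es2 es2') :
    Rel (st41 ad sb ml c p h g ea es ed A B t s D H Hed Eas D2 U2 U5 E1 E4 E3 Pi ea2 es2) (st41 ad' sb' ml' c' p h' g' ea' es' ed' A' B' t' s' D' H' Hed' Eas' D2' U2' U5' E1' E4' E3' Pi' ea2' es2') :=
  st42_rel cl p hh hg hea hes hed hB hs hD hH hHed hEas hD2 hU2 hU5 hE1 hE4 hE3 hPi hes2 (cl.ad (cl.sb (cl.ml (cl.ad (cl.ml (cl.c _) (cl.ml hA hh)) (cl.ml (cl.c _) (cl.ml hA hA))) hea2) (cl.ml (cl.c _) (cl.ml (cl.ml hA ht) hea))) (cl.ml (cl.c _) (cl.ml ht ht)))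

theorem st40_rel {R S : Type*} {Rel : R → S → Prop} {ad sb ml : R → R → R} {c : ℤ → R}
    {ad' sb' ml' : S → S → S} {c' : ℤ → S} (cl : Closed Rel ad sb ml c ad' sb' ml' c') (p : Par)
    {h : R} {h' : S} (hh : Rel h h') {g : R} {g' : S} (hg : Rel g g') {ea : R} {ea' : S} (hea : Rel ea ea') {es : R} {es' : S} (hes : Rel es es') {ed : R} {ed' : S} (hed : Rel ed ed') {A : R} {A' : S} (hA : Rel A A') {B : R} {B' : S} (hB : Rel B B') {t : R} {t' : S} (ht : Rel t t') {s : R} {s' : S} (hs : Rel s s') {D : R} {D' : S} (hD : Rel D D') {H : R} {H' : S} (hH : Rel H H') {Hed : R} {Hed' : S} (hHed : Rel Hed Hed') {Eas : R} {Eas' : S} (hEas : Rel Eas Eas') {D2 : R} {D2' : S} (hD2 : Rel D2 D2') {U2 : R} {U2' : S} (hU2 : Rel U2 U2') {U5 : R} {U5' : S} (hU5 : Rel U5 U5') {E1 : R} {E1' : S} (hE1 : Rel E1 E1') {E4 : R}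 {E4' : S} (hE4 : Rel E4 E4') {E3 : R} {E3' : S} (hE3 : Rel E3 E3') {Pi : R} {Pi' : S} (hPi : Rel Pi Pi') {ea2 : R} {ea2' : S} (hea2 : Rel ea2 ea2') :
    Rel (st40 ad sb ml c p h g ea es ed A B t s D H Hed Eas D2 U2 U5 E1 E4 E3 Pi ea2) (st40 ad' sb' ml' c' p h' g' ea' es' ed' A' B' t' s' D' H' Hed' Eas' D2' U2' U5' E1' E4' E3' Pi' ea2') :=
  st41_rel cl p hh hg hea hes hed hA hB ht hs hD hH hHed hEas hD2 hU2 hU5 hE1 hE4 hE3 hPi hea2 (cl.ml hes hes)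

theorem st39_rel {R S : Type*} {Rel : R → S → Prop} {ad sb ml : R → R → R} {c : ℤ → R}
    {ad' sb' ml' : S → S → S} {c' : ℤ → S} (cl : Closed Rel ad sb ml c ad' sb' ml' c') (p : Par)
    {h : R} {h' : S} (hh : Rel h h') {g : R} {g' : S} (hg : Rel g g') {ea : R} {ea' : S} (hea : Rel ea ea') {es : R} {es' : S} (hes : Rel es es') {ed : R} {ed' : S} (hed : Rel ed ed') {A : R} {A' : S} (hA : Rel A A') {B : R} {B' : S} (hB : Rel B B') {t : R} {t' : S} (ht : Rel t t') {s : R} {s' : S} (hs : Rel s s') {D : R} {D' : S} (hD : Rel D D') {H : R} {H' : S} (hH : Rel H H') {Hed : R} {Hed' : S} (hHed : Rel Hed Hed') {Eas : R} {Eas' : S} (hEas : Rel Eas Eas') {D2 : R} {D2' : S} (hD2 : Rel D2 D2') {U2 : R} {U2' : S} (hU2 : Rel U2 U2') {U5 : R} {U5' : S} (hU5 : Rel U5 U5') {E1 : R} {E1' : S} (hE1 : Rel E1 E1') {E4 : R}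 {E4' : S} (hE4 : Rel E4 E4') {E3 : R} {E3' : S} (hE3 : Rel E3 E3') {Pi : R} {Pi' : S} (hPi : Rel Pi Pi') :
    Rel (st39 ad sb ml c p h g ea es ed A B t s D H Hed Eas D2 U2 U5 E1 E4 E3 Pi) (st39 ad' sb' ml' c' p h' g' ea' es' ed' A' B' t' s' D' H' Hed' Eas' D2' U2' U5' E1' E4' E3' Pi') :=
  st40_rel cl p hh hg hea hes hed hA hB ht hs hD hH hHed hEas hD2 hU2 hU5 hE1 hE4 hE3 hPi (cl.ml hea hea)

theorem st38_rel {R S : Type*} {Rel : R → S → Prop} {ad sb ml : R → R → R} {c : ℤ → R}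
    {ad' sb' ml' : S → S → S} {c' : ℤ → S} (cl : Closed Rel ad sb ml c ad' sb' ml' c') (p : Par)
    {h : R} {h' : S} (hh : Rel h h') {g : R} {g' : S} (hg : Rel g g') {ea : R} {ea' : S} (hea : Rel ea ea') {es : R} {es' : S} (hes : Rel es es') {ed : R} {ed' : S} (hed : Rel ed ed') {A : R} {A' : S} (hA : Rel A A') {B : R} {B' : S} (hB : Rel B B') {t : R} {t' : S} (ht : Rel t t') {s : R} {s' : S} (hs : Rel s s') {D : R} {D' : S} (hD : Rel D D') {H : R} {H' : S} (hH : Rel H H') {Hed : R} {Hed' : S} (hHed : Rel Hed Hed') {Eas : R} {Eas' : S} (hEas : Rel Eas Eas') {D2 : R} {D2' : S} (hD2 : Rel D2 D2') {U2 : R} {U2' : S} (hU2 : Rel U2 U2') {U5 : R} {U5' : S} (hU5 : Rel U5 U5') {E1 : R} {E1' : S} (hE1 : Rel E1 E1') {E4 : R} {E4' : S} (hE4 : Rel E4 E4') {E3 : R} {E3' : S} (hE3 : Rel E3 E3') {Pa : R} {Pa' : S} (hPa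 : Rel Pa Pa') {Pb : R} {Pb' : S} (hPb : Rel Pb Pb') :
    Rel (st38 ad sb ml c p h g ea es ed A B t s D H Hed Eas D2 U2 U5 E1 E4 E3 Pa Pb) (st38 ad' sb' ml' c' p h' g' ea' es' ed' A' B' t' s' D' H' Hed' Eas' D2' U2' U5' E1' E4' E3' Pa' Pb') :=
  st39_rel cl p hh hg hea hes hed hA hB ht hs hD hH hHed hEas hD2 hU2 hU5 hE1 hE4 hE3 (cl.ml hPa hPb)

theorem st37_rel {R S : Type*} {Rel : R → S → Prop} {ad sb ml : R → R → R} {c : ℤ → R}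
    {ad' sb' ml' : S → S → S} {c' : ℤ → S} (cl : Closed Rel ad sb ml c ad' sb' ml' c') (p : Par)
    {h : R} {h' : S} (hh : Rel h h') {g : R} {g' : S} (hg : Rel g g') {ea : R} {ea' : S} (hea : Rel ea ea') {es : R} {es' : S} (hes : Rel es es') {ed : R} {ed' : S} (hed : Rel ed ed') {A : R} {A' : S} (hA : Rel A A') {B : R} {B' : S} (hB : Rel B B') {t : R} {t' : S} (ht : Rel t t') {s : R} {s' : S} (hs : Rel s s') {D : R} {D' : S} (hD : Rel D D') {H : R} {H' : S} (hH : Rel H H') {Hed : R} {Hed' : S} (hHed : Rel Hed Hed') {Eas : R} {Eas' : S} (hEas : Rel Eas Eas') {D2 : R} {D2' : S} (hD2 : Rel D2 D2') {U2 : R} {U2' : S} (hU2 : Rel U2 U2') {U5 : R} {U5' : S} (hU5 : Rel U5 U5') {E1 : R} {E1' : S} (hE1 : Rel E1 E1') {E4 : R} {E4' : S} (hE4 : Rel E4 E4') {E3 : R} {E3' : S} (hE3 : Rel E3 E3') {Pa : R} {Pa' : S} (hPa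 : Rel Pa Pa') :
    Rel (st37 ad sb ml c p h g ea es ed A B t s D H Hed Eas D2 U2 U5 E1 E4 E3 Pa) (st37 ad' sb' ml' c' p h' g' ea' es' ed' A' B' t' s' D' H' Hed' Eas' D2' U2' U5' E1' E4' E3' Pa') :=
  st38_rel cl p hh hg hea hes hed hA hB ht hs hD hH hHed hEas hD2 hU2 hU5 hE1 hE4 hE3 hPa (cl.ad (cl.ml (cl.sb hg (cl.ml (cl.c _) hB)) hes) hs)

theorem st36_rel {R S : Type*} {Rel : R → S → Prop} {ad sb ml : R → R → R} {c : ℤ → R}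
    {ad' sb' ml' : S → S → S} {c' : ℤ → S} (cl : Closed Rel ad sb ml c ad' sb' ml' c') (p : Par)
    {h : R} {h' : S} (hh : Rel h h') {g : R} {g' : S} (hg : Rel g g') {ea : R} {ea' : S} (hea : Rel ea ea') {es : R} {es' : S} (hes : Rel es es') {ed : R} {ed' : S} (hed : Rel ed ed') {A : R} {A' : S} (hA : Rel A A') {B : R} {B' : S} (hB : Rel B B') {t : R} {t' : S} (ht : Rel t t') {s : R} {s' : S} (hs : Rel s s') {D : R} {D' : S} (hD : Rel D D') {H : R} {H' : S} (hH : Rel H H') {Hed : R} {Hed' : S} (hHed : Rel Hed Hed') {Eas : R} {Eas' : S} (hEas : Rel Eas Eas') {D2 : R} {D2' : S} (hD2 : Rel D2 D2') {U2 : R} {U2' : S} (hU2 : Rel U2 U2') {U5 : R} {U5' : S} (hU5 : Rel U5 U5') {E1 : R} {E1' : S} (hE1 : Rel E1 E1') {E4 : R} {E4' : S} (hE4 : Rel E4 E4') {E3 : R} {E3' : S} (hE3 : Rel E3 E3') :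
    Rel (st36 ad sb ml c p h g ea es ed A B t s D H Hed Eas D2 U2 U5 E1 E4 E3) (st36 ad' sb' ml' c' p h' g' ea' es' ed' A' B' t' s' D' H' Hed' Eas' D2' U2' U5' E1' E4' E3') :=
  st37_rel cl p hh hg hea hes hed hA hB ht hs hD hH hHed hEas hD2 hU2 hU5 hE1 hE4 hE3 (cl.ad (cl.ml (cl.sb hh (cl.ml (cl.c _) hA)) hea) ht)

theorem st35_rel {R S : Type*} {Rel : R → S → Prop} {ad sb ml : R → R → R} {c : ℤ → R}
    {ad' sb' ml' : S → S → S} {c' : ℤ → S} (cl : Closed Rel ad sb ml c ad' sb' ml' c') (p : Par)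
    {h : R} {h' : S} (hh : Rel h h') {g : R} {g' : S} (hg : Rel g g') {ea : R} {ea' : S} (hea : Rel ea ea') {es : R} {es' : S} (hes : Rel es es') {ed : R} {ed' : S} (hed : Rel ed ed') {A : R} {A' : S} (hA : Rel A A') {B : R} {B' : S} (hB : Rel B B') {t : R} {t' : S} (ht : Rel t t') {s : R} {s' : S} (hs : Rel s s') {D : R} {D' : S} (hD : Rel D D') {H : R} {H' : S} (hH : Rel H H') {ed2 : R} {ed2' : S} (hed2 : Rel ed2 ed2') {Hed : R} {Hed' : S} (hHed : Rel Hed Hed') {Eas : R} {Eas' : S} (hEas : Rel Eas Eas') {K0 : R} {K0' : S} (hK0 : Rel K0 K0') {D2 : R} {D2' : S} (hD2 : Rel D2 D2') {U2 : R} {U2' : S} (hU2 : Rel U2 U2') {U3 : R} {U3' : S} (hU3 : Rel U3 U3') {U5 : R} {U5' : S} (hU5 : Rel U5 U5') {v3 : R} {v3' : S} (hv3 : Rel v3 v3') {w3 : R} {w3' : S} (hw3 : Rel w3 w3') {E1 : R} {E1' : S} (hE1 : Rel E1 E1')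 {E4 : R} {E4' : S} (hE4 : Rel E4 E4') {G1 : R} {G1' : S} (hG1 : Rel G1 G1') {G2 : R} {G2' : S} (hG2 : Rel G2 G2') {G3 : R} {G3' : S} (hG3 : Rel G3 G3') :
    Rel (st35 ad sb ml c p h g ea es ed A B t s D H ed2 Hed Eas K0 D2 U2 U3 U5 v3 w3 E1 E4 G1 G2 G3) (st35 ad' sb' ml' c' p h' g' ea' es' ed' A' B' t' s' D' H' ed2' Hed' Eas' K0' D2' U2' U3' U5' v3' w3' E1' E4' G1' G2' G3') :=
  st36_rel cl p hh hg hea hes hed hA hB ht hs hD hH hHed hEas hD2 hU2 hU5 hE1 hE4 (cl.ad (cl.sb (cl.ml (cl.ad (cl.ad (cl.ml (cl.ml hG1 hD2) hH) (cl.ml (cl.ml hG2 hD) hHed)) (cl.ml hG3 hU3)) hEas) (cl.ml (cl.ml (cl.c _) (cl.ml hK0 (cl.ad (cl.ml hv3 hh) (cl.ml hw3 hg)))) (cl.ml hEas hed2))) (cl.ml (cl.ad (cl.ml (cl.ml hs hw3) hea) (cl.ml (cl.ml ht hv3) hes)) (cl.ml hed2 hH)))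

theorem st34_rel {R S : Type*} {Rel : R → S → Prop} {ad sb ml : R → R → R} {c : ℤ → R}
    {ad' sb' ml' : S → S → S} {c' : ℤ → S} (cl : Closed Rel ad sb ml c ad' sb' ml' c') (p : Par)
    {h : R} {h' : S} (hh : Rel h h') {g : R} {g' : S} (hg : Rel g g') {ea : R} {ea' : S} (hea : Rel ea ea') {es : R} {es' : S} (hes : Rel es es') {ed : R} {ed' : S} (hed : Rel ed ed') {A : R} {A' : S} (hA : Rel A A') {B : R} {B' : S} (hB : Rel B B') {t : R} {t' : S} (ht : Rel t t') {s : R} {s' : S} (hs : Rel s s') {D : R} {D' : S} (hD : Rel D D') {H : R} {H' : S} (hH : Rel H H') {ed2 : R} {ed2' : S} (hed2 : Rel ed2 ed2') {Hed : R} {Hed' : S} (hHed : Rel Hed Hed') {Eas : R} {Eas' : S} (hEas : Rel Eas Eas') {X : R} {X' : S} (hX : Rel X X') {ApB : R} {ApB' : S} (hApB : Rel ApB ApB') {K0 : R} {K0' : S} (hK0 : Rel K0 K0') {D2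 : R} {D2' : S} (hD2 : Rel D2 D2') {U2 : R} {U2' : S} (hU2 : Rel U2 U2') {U3 : R} {U3' : S} (hU3 : Rel U3 U3') {U5 : R} {U5' : S} (hU5 : Rel U5 U5') {v3 : R} {v3' : S} (hv3 : Rel v3 v3') {w3 : R} {w3' : S} (hw3 : Rel w3 w3') {E1 : R} {E1' : S} (hE1 : Rel E1 E1') {E4 : R} {E4' : S} (hE4 : Rel E4 E4') {X2 : R} {X2' : S} (hX2 : Rel X2 X2') {kap : R} {kap' : S} (hkap : Rel kap kap') {G1 : R} {G1' : S} (hG1 : Rel G1 G1') {G2 : R} {G2' : S} (hG2 : Rel G2 G2') :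
    Rel (st34 ad sb ml c p h g ea es ed A B t s D H ed2 Hed Eas X ApB K0 D2 U2 U3 U5 v3 w3 E1 E4 X2 kap G1 G2) (st34 ad' sb' ml' c' p h' g' ea' es' ed' A' B' t' s' D' H' ed2' Hed' Eas' X' ApB' K0' D2' U2' U3' U5' v3' w3' E1' E4' X2' kap' G1' G2') :=
  st35_rel cl p hh hg hea hes hed hA hB ht hs hD hH hed2 hHed hEas hK0 hD2 hU2 hU3 hU5 hv3 hw3 hE1 hE4 hG1 hG2 (cl.ad (cl.ml (cl.ad (cl.sb (cl.ml hK0 hK0) (cl.ml hApB hH)) (cl.sb (cl.ml (cl.c _) (cl.ml hX hApB)) (cl.ml hX2 hH))) (cl.ml hEas hed)) (cl.ml (cl.c _) (cl.ml hkap hH)))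

theorem st33_rel {R S : Type*} {Rel : R → S → Prop} {ad sb ml : R → R → R} {c : ℤ → R}
    {ad' sb' ml' : S → S → S} {c' : ℤ → S} (cl : Closed Rel ad sb ml c ad' sb' ml' c') (p : Par)
    {h : R} {h' : S} (hh : Rel h h') {g : R} {g' : S} (hg : Rel g g') {ea : R} {ea' : S} (hea : Rel ea ea') {es : R} {es' : S} (hes : Rel es es') {ed : R} {ed' : S} (hed : Rel ed ed') {A : R} {A' : S} (hA : Rel A A') {B : R} {B' : S} (hB : Rel B B') {t : R} {t' : S} (ht : Rel t t') {s : R} {s' : S} (hs : Rel s s') {D : R} {D' : S} (hD : Rel D D') {H : R} {H' : S} (hH : Rel H H') {ed2 : R} {ed2' : S} (hed2 : Rel ed2 ed2') {Hed : R} {Hed' : S} (hHed : Rel Hed Hed') {Eas : R} {Eas' : S} (hEas : Rel Eas Eas') {X : R} {X' : S} (hX : Rel X X') {ApB : R} {ApB' : S} (hApB : Rel ApB ApB') {K0 : R} {K0' : S} (hK0 : Rel K0 K0') {D2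 : R} {D2' : S} (hD2 : Rel D2 D2') {U2 : R} {U2' : S} (hU2 : Rel U2 U2') {U3 : R} {U3' : S} (hU3 : Rel U3 U3') {U5 : R} {U5' : S} (hU5 : Rel U5 U5') {V2 : R} {V2' : S} (hV2 : Rel V2 V2') {v3 : R} {v3' : S} (hv3 : Rel v3 v3') {w3 : R} {w3' : S} (hw3 : Rel w3 w3') {E1 : R} {E1' : S} (hE1 : Rel E1 E1') {E4 : R} {E4' : S} (hE4 : Rel E4 E4') {X2 : R} {X2' : S} (hX2 : Rel X2 X2') {kap : R} {kap' : S} (hkap : Rel kap kap') {G1 : R} {G1' : S} (hG1 : Rel G1 G1') :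
    Rel (st33 ad sb ml c p h g ea es ed A B t s D H ed2 Hed Eas X ApB K0 D2 U2 U3 U5 V2 v3 w3 E1 E4 X2 kap G1) (st33 ad' sb' ml' c' p h' g' ea' es' ed' A' B' t' s' D' H' ed2' Hed' Eas' X' ApB' K0' D2' U2' U3' U5' V2' v3' w3' E1' E4' X2' kap' G1') :=
  st34_rel cl p hh hg hea hes hed hA hB ht hs hD hH hed2 hHed hEas hX hApB hK0 hD2 hU2 hU3 hU5 hv3 hw3 hE1 hE4 hX2 hkap hG1 (cl.ad (cl.ml (cl.c _) hV2) (cl.ml (cl.c _) (cl.ml (cl.ml (cl.sb (cl.ad hApB hX) hK0) hU2) hEas)))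

theorem st32_rel {R S : Type*} {Rel : R → S → Prop} {ad sb ml : R → R → R} {c : ℤ → R}
    {ad' sb' ml' : S → S → S} {c' : ℤ → S} (cl : Closed Rel ad sb ml c ad' sb' ml' c') (p : Par)
    {h : R} {h' : S} (hh : Rel h h') {g : R} {g' : S} (hg : Rel g g') {ea : R} {ea' : S} (hea : Rel ea ea') {es : R} {es' : S} (hes : Rel es es') {ed : R} {ed' : S} (hed : Rel ed ed') {A : R} {A' : S} (hA : Rel A A') {B : R} {B' : S} (hB : Rel B B') {t : R} {t' : S} (ht : Rel t t') {s : R} {s' : S} (hs : Rel s s') {D : R} {D' : S} (hD : Rel D D') {H : R} {H' : S} (hH : Rel H H') {ed2 : R} {ed2' : S} (hed2 : Rel ed2 ed2') {Hed : R} {Hed' : S} (hHed : Rel Hed Hed') {Eas : R} {Eas' : S} (hEas : Rel Eas Eas') {X : R} {X' : S} (hX : Rel X X') {Y : R} {Y' : S} (hY : Rel Y Y') {ApB : R} {ApB' : S} (hApB : Rel ApB ApB') {K0 : R}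 {K0' : S} (hK0 : Rel K0 K0') {D2 : R} {D2' : S} (hD2 : Rel D2 D2') {U2 : R} {U2' : S} (hU2 : Rel U2 U2') {U3 : R} {U3' : S} (hU3 : Rel U3 U3') {U5 : R} {U5' : S} (hU5 : Rel U5 U5') {gg : R} {gg' : S} (hgg : Rel gg gg') {V2 : R} {V2' : S} (hV2 : Rel V2 V2') {v3 : R} {v3' : S} (hv3 : Rel v3 v3') {w3 : R} {w3' : S} (hw3 : Rel w3 w3') {E1 : R} {E1' : S} (hE1 : Rel E1 E1') {E4 : R} {E4' : S} (hE4 : Rel E4 E4') {X2 : R} {X2' : S} (hX2 : Rel X2 X2') {kap : R} {kap' : S} (hkap : Rel kap kap') :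
    Rel (st32 ad sb ml c p h g ea es ed A B t s D H ed2 Hed Eas X Y ApB K0 D2 U2 U3 U5 gg V2 v3 w3 E1 E4 X2 kap) (st32 ad' sb' ml' c' p h' g' ea' es' ed' A' B' t' s' D' H' ed2' Hed' Eas' X' Y' ApB' K0' D2' U2' U3' U5' gg' V2' v3' w3' E1' E4' X2' kap') :=
  st33_rel cl p hh hg hea hes hed hA hB ht hs hD hH hed2 hHed hEas hX hApB hK0 hD2 hU2 hU3 hU5 hV2 hv3 hw3 hE1 hE4 hX2 hkap (cl.sb (cl.sb (cl.ml (cl.ml (cl.sb (cl.ad hH (cl.ml (cl.c _) hK0)) hApB) hY) (cl.ml hEas hed)) (cl.ml (cl.ml hD hH) hEas)) (cl.ml (cl.c _) (cl.ml hgg hed)))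

theorem st31_rel {R S : Type*} {Rel : R → S → Prop} {ad sb ml : R → R → R} {c : ℤ → R}
    {ad' sb' ml' : S → S → S} {c' : ℤ → S} (cl : Closed Rel ad sb ml c ad' sb' ml' c') (p : Par)
    {h : R} {h' : S} (hh : Rel h h') {g : R} {g' : S} (hg : Rel g g') {ea : R} {ea' : S} (hea : Rel ea ea') {es : R} {es' : S} (hes : Rel es es') {ed : R} {ed' : S} (hed : Rel ed ed') {A : R} {A' : S} (hA : Rel A A') {B : R} {B' : S} (hB : Rel B B') {t : R} {t' : S} (ht : Rel t t') {s : R} {s' : S} (hs : Rel s s') {D : R} {D' : S} (hD : Rel D D') {H : R} {H' : S} (hH : Rel H H') {ed2 : R} {ed2' : S} (hed2 : Rel ed2 ed2') {Hed : R} {Hed' : S} (hHed : Rel Hed Hed') {Eas : R} {Eas' : S} (hEas : Rel Eas Eas') {X : R} {X' : S} (hX : Rel X X') {Y : R} {Y' : S} (hY : Rel Y Y') {ApB : R} {ApB' : S} (hApB : Rel ApB ApB') {K0 : R}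 {K0' : S} (hK0 : Rel K0 K0') {D2 : R} {D2' : S} (hD2 : Rel D2 D2') {U2 : R} {U2' : S} (hU2 : Rel U2 U2') {U3 : R} {U3' : S} (hU3 : Rel U3 U3') {U5 : R} {U5' : S} (hU5 : Rel U5 U5') {gg : R} {gg' : S} (hgg : Rel gg gg') {V2 : R} {V2' : S} (hV2 : Rel V2 V2') {v3 : R} {v3' : S} (hv3 : Rel v3 v3') {w3 : R} {w3' : S} (hw3 : Rel w3 w3') {E1 : R} {E1' : S} (hE1 : Rel E1 E1') {E4 : R} {E4' : S} (hE4 : Rel E4 E4') {X2 : R} {X2' : S} (hX2 : Rel X2 X2') :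
    Rel (st31 ad sb ml c p h g ea es ed A B t s D H ed2 Hed Eas X Y ApB K0 D2 U2 U3 U5 gg V2 v3 w3 E1 E4 X2) (st31 ad' sb' ml' c' p h' g' ea' es' ed' A' B' t' s' D' H' ed2' Hed' Eas' X' Y' ApB' K0' D2' U2' U3' U5' gg' V2' v3' w3' E1' E4' X2') :=
  st32_rel cl p hh hg hea hes hed hA hB ht hs hD hH hed2 hHed hEas hX hY hApB hK0 hD2 hU2 hU3 hU5 hgg hV2 hv3 hw3 hE1 hE4 hX2 (cl.ad (cl.sb (cl.ml (cl.ml ht hs) hed) (cl.ml hD hEas)) (cl.ml (cl.ml (cl.sb hH (cl.ml (cl.c _) hX)) hEas) hed))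

theorem st30_rel {R S : Type*} {Rel : R → S → Prop} {ad sb ml : R → R → R} {c : ℤ → R}
    {ad' sb' ml' : S → S → S} {c' : ℤ → S} (cl : Closed Rel ad sb ml c ad' sb' ml' c') (p : Par)
    {h : R} {h' : S} (hh : Rel h h') {g : R} {g' : S} (hg : Rel g g') {ea : R} {ea' : S} (hea : Rel ea ea') {es : R} {es' : S} (hes : Rel es es') {ed : R} {ed' : S} (hed : Rel ed ed') {A : R} {A' : S} (hA : Rel A A') {B : R} {B' : S} (hB : Rel B B') {t : R} {t' : S} (ht : Rel t t') {s : R} {s' : S} (hs : Rel s s') {D : R} {D' : S} (hD : Rel D D') {H : R} {H' : S} (hH : Rel H H') {ed2 : R} {ed2' : S} (hed2 : Rel ed2 ed2') {Hed : R} {Hed' : S} (hHed : Rel Hed Hed') {Eas : R} {Eas' : S} (hEas : Rel Eas Eas') {X : R} {X' : S} (hX : Rel X X') {Y : R} {Y' : S} (hY : Rel Y Y') {ApB : R} {ApB' : S} (hApB : Rel ApB ApB') {K0 : R}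 {K0' : S} (hK0 : Rel K0 K0') {D2 : R} {D2' : S} (hD2 : Rel D2 D2') {U2 : R} {U2' : S} (hU2 : Rel U2 U2') {U3 : R} {U3' : S} (hU3 : Rel U3 U3') {U5 : R} {U5' : S} (hU5 : Rel U5 U5') {gg : R} {gg' : S} (hgg : Rel gg gg') {V2 : R} {V2' : S} (hV2 : Rel V2 V2') {v3 : R} {v3' : S} (hv3 : Rel v3 v3') {w3 : R} {w3' : S} (hw3 : Rel w3 w3') {E1 : R} {E1' : S} (hE1 : Rel E1 E1') {E4 : R} {E4' : S} (hE4 : Rel E4 E4') :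
    Rel (st30 ad sb ml c p h g ea es ed A B t s D H ed2 Hed Eas X Y ApB K0 D2 U2 U3 U5 gg V2 v3 w3 E1 E4) (st30 ad' sb' ml' c' p h' g' ea' es' ed' A' B' t' s' D' H' ed2' Hed' Eas' X' Y' ApB' K0' D2' U2' U3' U5' gg' V2' v3' w3' E1' E4') :=
  st31_rel cl p hh hg hea hes hed hA hB ht hs hD hH hed2 hHed hEas hX hY hApB hK0 hD2 hU2 hU3 hU5 hgg hV2 hv3 hw3 hE1 hE4 (cl.ml (cl.c _) hX)

theorem st29_rel {R S : Type*} {Rel : R → S → Prop} {ad sb ml : R → R → R} {c : ℤ → R}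
    {ad' sb' ml' : S → S → S} {c' : ℤ → S} (cl : Closed Rel ad sb ml c ad' sb' ml' c') (p : Par)
    {h : R} {h' : S} (hh : Rel h h') {g : R} {g' : S} (hg : Rel g g') {ea : R} {ea' : S} (hea : Rel ea ea') {es : R} {es' : S} (hes : Rel es es') {ed : R} {ed' : S} (hed : Rel ed ed') {A : R} {A' : S} (hA : Rel A A') {B : R} {B' : S} (hB : Rel B B') {t : R} {t' : S} (ht : Rel t t') {s : R} {s' : S} (hs : Rel s s') {D : R} {D' : S} (hD : Rel D D') {H : R} {H' : S} (hH : Rel H H') {ed2 : R} {ed2' : S} (hed2 : Rel ed2 ed2') {Hed : R} {Hed' : S} (hHed : Rel Hed Hed') {Eas : R} {Eas' : S} (hEas : Rel Eas Eas') {X : R} {X' : S} (hX : Rel X X') {Y : R} {Y' : S} (hY : Rel Y Y') {ApB : R} {ApB' : S} (hApB : Rel ApB ApB') {K0 : R} {K0' : S} (hK0 : Rel K0 K0') {D2 : R} {D2' : S} (hD2 : Rel D2 D2') {U2 : R} {U2' : S} (hU2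 : Rel U2 U2') {U3 : R} {U3' : S} (hU3 : Rel U3 U3') {U4 : R} {U4' : S} (hU4 : Rel U4 U4') {U5 : R} {U5' : S} (hU5 : Rel U5 U5') {gg : R} {gg' : S} (hgg : Rel gg gg') {V2 : R} {V2' : S} (hV2 : Rel V2 V2') {v3 : R} {v3' : S} (hv3 : Rel v3 v3') {w3 : R} {w3' : S} (hw3 : Rel w3 w3') {V4 : R} {V4' : S} (hV4 : Rel V4 V4') {E1 : R} {E1' : S} (hE1 : Rel E1 E1') :
    Rel (st29 ad sb ml c p h g ea es ed A B t s D H ed2 Hed Eas X Y ApB K0 D2 U2 U3 U4 U5 gg V2 v3 w3 V4 E1) (st29 ad' sb' ml' c' p h' g' ea' es' ed' A' B' t' s' D' H' ed2' Hed' Eas' X' Y' ApB' K0' D2' U2' U3' U4' U5' gg' V2' v3' w3' V4' E1') :=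
  st30_rel cl p hh hg hea hes hed hA hB ht hs hD hH hed2 hHed hEas hX hY hApB hK0 hD2 hU2 hU3 hU5 hgg hV2 hv3 hw3 hE1 (cl.sb (cl.ml (cl.ad (cl.ml (cl.sb (cl.ml hD2 hU2) (cl.ml hD hU3)) hH) (cl.ml (cl.ml hK0 hU4) hed)) hEas) (cl.ml hV4 hed))

theorem st28_rel {R S : Type*} {Rel : R → S → Prop} {ad sb ml : R → R → R} {c : ℤ → R}
    {ad' sb' ml' : S → S → S} {c' : ℤ → S} (cl : Closed Rel ad sb ml c ad' sb' ml' c') (p : Par)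
    {h : R} {h' : S} (hh : Rel h h') {g : R} {g' : S} (hg : Rel g g') {ea : R} {ea' : S} (hea : Rel ea ea') {es : R} {es' : S} (hes : Rel es es') {ed : R} {ed' : S} (hed : Rel ed ed') {A : R} {A' : S} (hA : Rel A A') {B : R} {B' : S} (hB : Rel B B') {t : R} {t' : S} (ht : Rel t t') {s : R} {s' : S} (hs : Rel s s') {D : R} {D' : S} (hD : Rel D D') {H : R} {H' : S} (hH : Rel H H') {ed2 : R} {ed2' : S} (hed2 : Rel ed2 ed2') {Hed : R} {Hed' : S} (hHed : Rel Hed Hed') {Eas : R} {Eas' : S} (hEas : Rel Eas Eas') {X : R} {X' : S} (hX : Rel X X') {Y : R} {Y' : S} (hY : Rel Y Y') {ApB : R} {ApB' : S} (hApB : Rel ApB ApB') {K0 : R} {K0' : S} (hK0 : Rel K0 K0') {D2 : R} {D2' : S} (hD2 : Rel D2 D2') {U2 : R} {U2' : S} (hU2 : Rel U2 U2') {U3 : R} {U3' : S} (hU3 : Rel U3 U3') {U4 : R} {U4' : S} (hU4 : Rel U4 U4') {U5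 : R} {U5' : S} (hU5 : Rel U5 U5') {gg : R} {gg' : S} (hgg : Rel gg gg') {V2 : R} {V2' : S} (hV2 : Rel V2 V2') {v3 : R} {v3' : S} (hv3 : Rel v3 v3') {w3 : R} {w3' : S} (hw3 : Rel w3 w3') {V4 : R} {V4' : S} (hV4 : Rel V4 V4') :
    Rel (st28 ad sb ml c p h g ea es ed A B t s D H ed2 Hed Eas X Y ApB K0 D2 U2 U3 U4 U5 gg V2 v3 w3 V4) (st28 ad' sb' ml' c' p h' g' ea' es' ed' A' B' t' s' D' H' ed2' Hed' Eas' X' Y' ApB' K0' D2' U2' U3' U4' U5' gg' V2' v3' w3' V4') :=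
  st29_rel cl p hh hg hea hes hed hA hB ht hs hD hH hed2 hHed hEas hX hY hApB hK0 hD2 hU2 hU3 hU4 hU5 hgg hV2 hv3 hw3 hV4 (cl.sb (cl.ml (cl.ml hK0 hY) hEas) hgg)

theorem st27_rel {R S : Type*} {Rel : R → S → Prop} {ad sb ml : R → R → R} {c : ℤ → R}
    {ad' sb' ml' : S → S → S} {c' : ℤ → S} (cl : Closed Rel ad sb ml c ad' sb' ml' c') (p : Par)
    {h : R} {h' : S} (hh : Rel h h') {g : R} {g' : S} (hg : Rel g g') {ea : R} {ea' : S} (hea : Rel ea ea') {es : R} {es' : S} (hes : Rel es es') {ed : R} {ed' : S} (hed : Rel ed ed') {A : R} {A' : S} (hA : Rel A A') {B : R} {B' : S} (hB : Rel B B') {t : R} {t' : S} (ht : Rel t t') {s : R} {s' : S} (hs : Rel s s') {D : R} {D' : S} (hD : Rel D D') {H : R} {H' : S} (hH : Rel H H') {ed2 : R} {ed2' : S} (hed2 : Rel ed2 ed2') {Hed : R} {Hed' : S} (hHed : Rel Hed Hed')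 {Eas : R} {Eas' : S} (hEas : Rel Eas Eas') {X : R} {X' : S} (hX : Rel X X') {Y : R} {Y' : S} (hY : Rel Y Y') {ApB : R} {ApB' : S} (hApB : Rel ApB ApB') {K0 : R} {K0' : S} (hK0 : Rel K0 K0') {Y3 : R} {Y3' : S} (hY3 : Rel Y3 Y3') {D2 : R} {D2' : S} (hD2 : Rel D2 D2') {YD : R} {YD' : S} (hYD : Rel YD YD') {U2 : R} {U2' : S} (hU2 : Rel U2 U2') {U3 : R} {U3' : S} (hU3 : Rel U3 U3') {U4 : R} {U4' : S} (hU4 : Rel U4 U4') {U5 : R} {U5' : S} (hU5 : Rel U5 U5') {gg : R} {gg' : S} (hgg : Rel gg gg') {ST : R} {ST' : S} (hST : Rel ST ST') {V2 : R} {V2' : S} (hV2 : Rel V2 V2') {Bgq : R} {Bgq' : S} (hBgq : Rel Bgq Bgq') {Agp : R} {Agp' : S} (hAgp : Rel Agp Agp') {v3 : R} {v3' : S} (hv3 : Rel v3 v3') {w3 : R} {w3' : S} (hw3 : Rel w3 w3') :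
    Rel (st27 ad sb ml c p h g ea es ed A B t s D H ed2 Hed Eas X Y ApB K0 Y3 D2 YD U2 U3 U4 U5 gg ST V2 Bgq Agp v3 w3) (st27 ad' sb' ml' c' p h' g' ea' es' ed' A' B' t' s' D' H' ed2' Hed' Eas' X' Y' ApB' K0' Y3' D2' YD' U2' U3' U4' U5' gg' ST' V2' Bgq' Agp' v3' w3') :=
  st28_rel cl p hh hg hea hes hed hA hB ht hs hD hH hed2 hHed hEas hX hY hApB hK0 hD2 hU2 hU3 hU4 hU5 hgg hV2 hv3 hw3 (cl.ad (cl.sb (cl.ml (cl.ml (cl.sb hgg (cl.ml (cl.c _) (cl.ml hST hH))) hH) hD2) (cl.ml (cl.c _) (cl.ml (cl.ml hYD (cl.ad (cl.ad (cl.ml (cl.c _) hgg) hBgq) hAgp)) hHed))) (cl.ml (cl.c _) (cl.ml (cl.ml hY3 hgg) hed2)))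

theorem st26_rel {R S : Type*} {Rel : R → S → Prop} {ad sb ml : R → R → R} {c : ℤ → R}
    {ad' sb' ml' : S → S → S} {c' : ℤ → S} (cl : Closed Rel ad sb ml c ad' sb' ml' c') (p : Par)
    {h : R} {h' : S} (hh : Rel h h') {g : R} {g' : S} (hg : Rel g g') {ea : R} {ea' : S} (hea : Rel ea ea') {es : R} {es' : S} (hes : Rel es es') {ed : R} {ed' : S} (hed : Rel ed ed') {A : R} {A' : S} (hA : Rel A A') {B : R} {B' : S} (hB : Rel B B') {t : R} {t' : S} (ht : Rel t t') {s : R} {s' : S} (hs : Rel s s') {D : R} {D' : S} (hD : Rel D D') {H : R} {H' : S} (hH : Rel H H') {ed2 : R} {ed2' : S} (hed2 : Rel ed2 ed2') {Hed : R} {Hed' : S} (hHed : Rel Hed Hed') {Eas : R} {Eas' : S} (hEas : Rel Eas Eas') {X : R} {X' : S} (hX : Rel X X') {Y : R} {Y' : S} (hY : Rel Y Y') {ApB : R} {ApB' : S} (hApB : Rel ApB ApB') {K0 : R}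 {K0' : S} (hK0 : Rel K0 K0') {Y2 : R} {Y2' : S} (hY2 : Rel Y2 Y2') {Y3 : R} {Y3' : S} (hY3 : Rel Y3 Y3') {D2 : R} {D2' : S} (hD2 : Rel D2 D2') {YD : R} {YD' : S} (hYD : Rel YD YD') {U2 : R} {U2' : S} (hU2 : Rel U2 U2') {U3 : R} {U3' : S} (hU3 : Rel U3 U3') {U4 : R} {U4' : S} (hU4 : Rel U4 U4') {U5 : R} {U5' : S} (hU5 : Rel U5 U5') {gq : R} {gq' : S} (hgq : Rel gq gq') {gg : R} {gg' : S} (hgg : Rel gg gg') {ST : R} {ST' : S} (hST : Rel ST ST') {V2 : R} {V2' : S} (hV2 : Rel V2 V2') {Bgq : R} {Bgq' : S} (hBgq : Rel Bgq Bgq') {Agp : R} {Agp' : S} (hAgp : Rel Agp Agp') {v3 : R} {v3' : S} (hv3 : Rel v3 v3') :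
    Rel (st26 ad sb ml c p h g ea es ed A B t s D H ed2 Hed Eas X Y ApB K0 Y2 Y3 D2 YD U2 U3 U4 U5 gq gg ST V2 Bgq Agp v3) (st26 ad' sb' ml' c' p h' g' ea' es' ed' A' B' t' s' D' H' ed2' Hed' Eas' X' Y' ApB' K0' Y2' Y3' D2' YD' U2' U3' U4' U5' gq' gg' ST' V2' Bgq' Agp' v3') :=
  st27_rel cl p hh hg hea hes hed hA hB ht hs hD hH hed2 hHed hEas hX hY hApB hK0 hY3 hD2 hYD hU2 hU3 hU4 hU5 hgg hST hV2 hBgq hAgp hv3 (cl.sb (cl.ml (cl.c _) (cl.ml (cl.ml hY2 hgq) hed)) (cl.ml (cl.ml (cl.ad (cl.ml (cl.c _) (cl.ml hgq hg)) (cl.ml (cl.c _) hAgp)) hD) hh))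

theorem st25_rel {R S : Type*} {Rel : R → S → Prop} {ad sb ml : R → R → R} {c : ℤ → R}
    {ad' sb' ml' : S → S → S} {c' : ℤ → S} (cl : Closed Rel ad sb ml c ad' sb' ml' c') (p : Par)
    {h : R} {h' : S} (hh : Rel h h') {g : R} {g' : S} (hg : Rel g g') {ea : R} {ea' : S} (hea : Rel ea ea') {es : R} {es' : S} (hes : Rel es es') {ed : R} {ed' : S} (hed : Rel ed ed') {A : R} {A' : S} (hA : Rel A A') {B : R} {B' : S} (hB : Rel B B') {t : R} {t' : S} (ht : Rel t t') {s : R} {s' : S} (hs : Rel s s') {D : R} {D' : S} (hD : Rel D D') {H : R} {H' : S} (hH : Rel H H') {ed2 : R} {ed2' : S} (hed2 : Rel ed2 ed2') {Hed : R} {Hed' : S} (hHed : Rel Hed Hed') {Eas : R} {Eas' : S} (hEas : Rel Eas Eas') {X : R} {X' : S} (hX : Rel X X') {Y : R} {Y' : S} (hY : Rel Y Y') {ApB : R} {ApB' : S} (hApB : Rel ApB ApB') {K0 : R}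 {K0' : S} (hK0 : Rel K0 K0') {Y2 : R} {Y2' : S} (hY2 : Rel Y2 Y2') {Y3 : R} {Y3' : S} (hY3 : Rel Y3 Y3') {D2 : R} {D2' : S} (hD2 : Rel D2 D2') {YD : R} {YD' : S} (hYD : Rel YD YD') {U2 : R} {U2' : S} (hU2 : Rel U2 U2') {U3 : R} {U3' : S} (hU3 : Rel U3 U3') {U4 : R} {U4' : S} (hU4 : Rel U4 U4') {U5 : R} {U5' : S} (hU5 : Rel U5 U5') {gp : R} {gp' : S} (hgp : Rel gp gp') {gq : R} {gq' : S} (hgq : Rel gq gq') {gg : R} {gg' : S} (hgg : Rel gg gg') {ST : R} {ST' : S} (hST : Rel ST ST') {V2 : R} {V2' : S} (hV2 : Rel V2 V2') {Bgq : R} {Bgq' : S} (hBgq : Rel Bgq Bgq') {Agp : R} {Agp' : S} (hAgp : Rel Agp Agp') :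
    Rel (st25 ad sb ml c p h g ea es ed A B t s D H ed2 Hed Eas X Y ApB K0 Y2 Y3 D2 YD U2 U3 U4 U5 gp gq gg ST V2 Bgq Agp) (st25 ad' sb' ml' c' p h' g' ea' es' ed' A' B' t' s' D' H' ed2' Hed' Eas' X' Y' ApB' K0' Y2' Y3' D2' YD' U2' U3' U4' U5' gp' gq' gg' ST' V2' Bgq' Agp') :=
  st26_rel cl p hh hg hea hes hed hA hB ht hs hD hH hed2 hHed hEas hX hY hApB hK0 hY2 hY3 hD2 hYD hU2 hU3 hU4 hU5 hgq hgg hST hV2 hBgq hAgp (cl.sb (cl.ml (cl.c _) (cl.ml (cl.ml hY2 hgp) hed)) (cl.ml (cl.ml (cl.ad (cl.ml (cl.c _) (cl.ml hgp hh)) (cl.ml (cl.c _) hBgq)) hD) hg))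

theorem st24_rel {R S : Type*} {Rel : R → S → Prop} {ad sb ml : R → R → R} {c : ℤ → R}
    {ad' sb' ml' : S → S → S} {c' : ℤ → S} (cl : Closed Rel ad sb ml c ad' sb' ml' c') (p : Par)
    {h : R} {h' : S} (hh : Rel h h') {g : R} {g' : S} (hg : Rel g g') {ea : R} {ea' : S} (hea : Rel ea ea') {es : R} {es' : S} (hes : Rel es es') {ed : R} {ed' : S} (hed : Rel ed ed') {A : R} {A' : S} (hA : Rel A A') {B : R} {B' : S} (hB : Rel B B') {t : R} {t' : S} (ht : Rel t t') {s : R} {s' : S} (hs : Rel s s') {D : R} {D' : S} (hD : Rel D D') {H : R} {H' : S} (hH : Rel H H') {ed2 : R} {ed2' : S} (hed2 : Rel ed2 ed2') {Hed : R} {Hed' : S} (hHed : Rel Hed Hed') {Eas : R} {Eas' : S} (hEas : Rel Eas Eas') {X : R} {X' : S} (hX : Rel X X') {Y : R} {Y' : S} (hY : Rel Y Y') {ApB : R} {ApB' : S} (hApB : Rel ApB ApB') {K0 : R}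 {K0' : S} (hK0 : Rel K0 K0') {Y2 : R} {Y2' : S} (hY2 : Rel Y2 Y2') {Y3 : R} {Y3' : S} (hY3 : Rel Y3 Y3') {D2 : R} {D2' : S} (hD2 : Rel D2 D2') {YD : R} {YD' : S} (hYD : Rel YD YD') {U2 : R} {U2' : S} (hU2 : Rel U2 U2') {U3 : R} {U3' : S} (hU3 : Rel U3 U3') {U4 : R} {U4' : S} (hU4 : Rel U4 U4') {U5 : R} {U5' : S} (hU5 : Rel U5 U5') {gp : R} {gp' : S} (hgp : Rel gp gp') {gq : R} {gq' : S} (hgq : Rel gq gq') {gg : R} {gg' : S} (hgg : Rel gg gg') {ST : R} {ST' : S} (hST : Rel ST ST') {V2 : R} {V2' : S} (hV2 : Rel V2 V2') {Bgq : R} {Bgq' : S} (hBgq : Rel Bgq Bgq') :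
    Rel (st24 ad sb ml c p h g ea es ed A B t s D H ed2 Hed Eas X Y ApB K0 Y2 Y3 D2 YD U2 U3 U4 U5 gp gq gg ST V2 Bgq) (st24 ad' sb' ml' c' p h' g' ea' es' ed' A' B' t' s' D' H' ed2' Hed' Eas' X' Y' ApB' K0' Y2' Y3' D2' YD' U2' U3' U4' U5' gp' gq' gg' ST' V2' Bgq') :=
  st25_rel cl p hh hg hea hes hed hA hB ht hs hD hH hed2 hHed hEas hX hY hApB hK0 hY2 hY3 hD2 hYD hU2 hU3 hU4 hU5 hgp hgq hgg hST hV2 hBgq (cl.ml hA hgp)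

theorem st23_rel {R S : Type*} {Rel : R → S → Prop} {ad sb ml : R → R → R} {c : ℤ → R}
    {ad' sb' ml' : S → S → S} {c' : ℤ → S} (cl : Closed Rel ad sb ml c ad' sb' ml' c') (p : Par)
    {h : R} {h' : S} (hh : Rel h h') {g : R} {g' : S} (hg : Rel g g') {ea : R} {ea' : S} (hea : Rel ea ea') {es : R} {es' : S} (hes : Rel es es') {ed : R} {ed' : S} (hed : Rel ed ed') {A : R} {A' : S} (hA : Rel A A') {B : R} {B' : S} (hB : Rel B B') {t : R} {t' : S} (ht : Rel t t') {s : R} {s' : S} (hs : Rel s s') {D : R} {D' : S} (hD : Rel D D') {H : R} {H' : S} (hH : Rel H H') {ed2 : R} {ed2' : S} (hed2 : Rel ed2 ed2') {Hed : R} {Hed' : S} (hHed : Rel Hed Hed') {Eas : R} {Eas' : S} (hEas : Rel Eas Eas') {X : R} {X' : S} (hX : Rel X X') {Y : R} {Y' : S} (hY : Rel Y Y') {ApB : R} {ApB' : S} (hApB : Rel ApB ApB') {K0 : R}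 {K0' : S} (hK0 : Rel K0 K0') {Y2 : R} {Y2' : S} (hY2 : Rel Y2 Y2') {Y3 : R} {Y3' : S} (hY3 : Rel Y3 Y3') {D2 : R} {D2' : S} (hD2 : Rel D2 D2') {YD : R} {YD' : S} (hYD : Rel YD YD') {U2 : R} {U2' : S} (hU2 : Rel U2 U2') {U3 : R} {U3' : S} (hU3 : Rel U3 U3') {U4 : R} {U4' : S} (hU4 : Rel U4 U4') {U5 : R} {U5' : S} (hU5 : Rel U5 U5') {gp : R} {gp' : S} (hgp : Rel gp gp') {gq : R} {gq' : S} (hgq : Rel gq gq') {gg : R} {gg' : S} (hgg : Rel gg gg') {ST : R} {ST' : S} (hST : Rel ST ST') {V2 : R} {V2' : S} (hV2 : Rel V2 V2') :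
    Rel (st23 ad sb ml c p h g ea es ed A B t s D H ed2 Hed Eas X Y ApB K0 Y2 Y3 D2 YD U2 U3 U4 U5 gp gq gg ST V2) (st23 ad' sb' ml' c' p h' g' ea' es' ed' A' B' t' s' D' H' ed2' Hed' Eas' X' Y' ApB' K0' Y2' Y3' D2' YD' U2' U3' U4' U5' gp' gq' gg' ST' V2') :=
  st24_rel cl p hh hg hea hes hed hA hB ht hs hD hH hed2 hHed hEas hX hY hApB hK0 hY2 hY3 hD2 hYD hU2 hU3 hU4 hU5 hgp hgq hgg hST hV2 (cl.ml hB hgq)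

theorem st22_rel {R S : Type*} {Rel : R → S → Prop} {ad sb ml : R → R → R} {c : ℤ → R}
    {ad' sb' ml' : S → S → S} {c' : ℤ → S} (cl : Closed Rel ad sb ml c ad' sb' ml' c') (p : Par)
    {h : R} {h' : S} (hh : Rel h h') {g : R} {g' : S} (hg : Rel g g') {ea : R} {ea' : S} (hea : Rel ea ea') {es : R} {es' : S} (hes : Rel es es') {ed : R} {ed' : S} (hed : Rel ed ed') {A : R} {A' : S} (hA : Rel A A') {B : R} {B' : S} (hB : Rel B B') {t : R} {t' : S} (ht : Rel t t') {s : R} {s' : S} (hs : Rel s s') {D : R} {D' : S} (hD : Rel D D') {H : R} {H' : S} (hH : Rel H H') {ed2 : R} {ed2' : S} (hed2 : Rel ed2 ed2') {Hed : R} {Hed' : S} (hHed : Rel Hed Hed') {Eas : R} {Eas' : S} (hEas : Rel Eas Eas') {X : R} {X' : S} (hX : Rel X X') {Y : R} {Y' : S} (hY : Rel Y Y') {ApB : R} {ApB' : S} (hApB : Rel ApB ApB') {K0 : R}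 {K0' : S} (hK0 : Rel K0 K0') {Y2 : R} {Y2' : S} (hY2 : Rel Y2 Y2') {Y3 : R} {Y3' : S} (hY3 : Rel Y3 Y3') {D2 : R} {D2' : S} (hD2 : Rel D2 D2') {YD : R} {YD' : S} (hYD : Rel YD YD') {U2 : R} {U2' : S} (hU2 : Rel U2 U2') {U3 : R} {U3' : S} (hU3 : Rel U3 U3') {U4 : R} {U4' : S} (hU4 : Rel U4 U4') {U5 : R} {U5' : S} (hU5 : Rel U5 U5') {gp : R} {gp' : S} (hgp : Rel gp gp') {gq : R} {gq' : S} (hgq : Rel gq gq') {gg : R} {gg' : S} (hgg : Rel gg gg') {ST : R} {ST' : S} (hST : Rel ST ST') :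
    Rel (st22 ad sb ml c p h g ea es ed A B t s D H ed2 Hed Eas X Y ApB K0 Y2 Y3 D2 YD U2 U3 U4 U5 gp gq gg ST) (st22 ad' sb' ml' c' p h' g' ea' es' ed' A' B' t' s' D' H' ed2' Hed' Eas' X' Y' ApB' K0' Y2' Y3' D2' YD' U2' U3' U4' U5' gp' gq' gg' ST') :=
  st23_rel cl p hh hg hea hes hed hA hB ht hs hD hH hed2 hHed hEas hX hY hApB hK0 hY2 hY3 hD2 hYD hU2 hU3 hU4 hU5 hgp hgq hgg hST (cl.ad (cl.ml (cl.ml hST hD) hH) (cl.ml (cl.c _) (cl.ml (cl.ml hY hgg) hed)))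

theorem st21_rel {R S : Type*} {Rel : R → S → Prop} {ad sb ml : R → R → R} {c : ℤ → R}
    {ad' sb' ml' : S → S → S} {c' : ℤ → S} (cl : Closed Rel ad sb ml c ad' sb' ml' c') (p : Par)
    {h : R} {h' : S} (hh : Rel h h') {g : R} {g' : S} (hg : Rel g g') {ea : R} {ea' : S} (hea : Rel ea ea') {es : R} {es' : S} (hes : Rel es es') {ed : R} {ed' : S} (hed : Rel ed ed') {A : R} {A' : S} (hA : Rel A A') {B : R} {B' : S} (hB : Rel B B') {t : R} {t' : S} (ht : Rel t t') {s : R} {s' : S} (hs : Rel s s') {D : R} {D' : S} (hD : Rel D D') {H : R} {H' : S} (hH : Rel H H') {ed2 : R} {ed2' : S} (hed2 : Rel ed2 ed2') {Hed : R} {Hed' : S} (hHed : Rel Hed Hed') {Eas : R} {Eas' : S} (hEas : Rel Eas Eas') {X : R} {X' : S} (hX : Rel X X') {Y : R} {Y' : S} (hY : Rel Y Y') {ApB : R} {ApB' : S} (hApB : Rel ApB ApB') {K0 : R}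 {K0' : S} (hK0 : Rel K0 K0') {Y2 : R} {Y2' : S} (hY2 : Rel Y2 Y2') {Y3 : R} {Y3' : S} (hY3 : Rel Y3 Y3') {D2 : R} {D2' : S} (hD2 : Rel D2 D2') {YD : R} {YD' : S} (hYD : Rel YD YD') {U2 : R} {U2' : S} (hU2 : Rel U2 U2') {U3 : R} {U3' : S} (hU3 : Rel U3 U3') {U4 : R} {U4' : S} (hU4 : Rel U4 U4') {U5 : R} {U5' : S} (hU5 : Rel U5 U5') {As : R} {As' : S} (hAs : Rel As As') {Bt : R} {Bt' : S} (hBt : Rel Bt Bt') {gp : R} {gp' : S} (hgp : Rel gp gp') {gq : R} {gq' : S} (hgq : Rel gq gq') {gg : R} {gg' : S} (hgg : Rel gg gg') :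
    Rel (st21 ad sb ml c p h g ea es ed A B t s D H ed2 Hed Eas X Y ApB K0 Y2 Y3 D2 YD U2 U3 U4 U5 As Bt gp gq gg) (st21 ad' sb' ml' c' p h' g' ea' es' ed' A' B' t' s' D' H' ed2' Hed' Eas' X' Y' ApB' K0' Y2' Y3' D2' YD' U2' U3' U4' U5' As' Bt' gp' gq' gg') :=
  st22_rel cl p hh hg hea hes hed hA hB ht hs hD hH hed2 hHed hEas hX hY hApB hK0 hY2 hY3 hD2 hYD hU2 hU3 hU4 hU5 hgp hgq hgg (cl.ad (cl.ml hAs hea) (cl.ml hBt hes))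

theorem st20_rel {R S : Type*} {Rel : R → S → Prop} {ad sb ml : R → R → R} {c : ℤ → R}
    {ad' sb' ml' : S → S → S} {c' : ℤ → S} (cl : Closed Rel ad sb ml c ad' sb' ml' c') (p : Par)
    {h : R} {h' : S} (hh : Rel h h') {g : R} {g' : S} (hg : Rel g g') {ea : R} {ea' : S} (hea : Rel ea ea') {es : R} {es' : S} (hes : Rel es es') {ed : R} {ed' : S} (hed : Rel ed ed') {A : R} {A' : S} (hA : Rel A A') {B : R} {B' : S} (hB : Rel B B') {t : R} {t' : S} (ht : Rel t t') {s : R} {s' : S} (hs : Rel s s') {D : R} {D' : S} (hD : Rel D D') {H : R} {H' : S} (hH : Rel H H') {ed2 : R} {ed2' : S} (hed2 : Rel ed2 ed2') {Hed : R} {Hed' : S} (hHed : Rel Hed Hed') {Eas : R} {Eas' : S} (hEas : Rel Eas Eas') {X : R} {X' : S} (hX : Rel X X') {Y : R} {Y' : S} (hY : Rel Y Y') {ApB : R} {ApB' : S} (hApB : Rel ApB ApB') {K0 : R}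 {K0' : S} (hK0 : Rel K0 K0') {Y2 : R} {Y2' : S} (hY2 : Rel Y2 Y2') {Y3 : R} {Y3' : S} (hY3 : Rel Y3 Y3') {D2 : R} {D2' : S} (hD2 : Rel D2 D2') {YD : R} {YD' : S} (hYD : Rel YD YD') {U2 : R} {U2' : S} (hU2 : Rel U2 U2') {U3 : R} {U3' : S} (hU3 : Rel U3 U3') {U4 : R} {U4' : S} (hU4 : Rel U4 U4') {U5 : R} {U5' : S} (hU5 : Rel U5 U5') {As : R} {As' : S} (hAs : Rel As As') {Bt : R} {Bt' : S} (hBt : Rel Bt Bt') {gp : R} {gp' : S} (hgp : Rel gp gp') {gq : R} {gq' : S} (hgq : Rel gq gq') :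
    Rel (st20 ad sb ml c p h g ea es ed A B t s D H ed2 Hed Eas X Y ApB K0 Y2 Y3 D2 YD U2 U3 U4 U5 As Bt gp gq) (st20 ad' sb' ml' c' p h' g' ea' es' ed' A' B' t' s' D' H' ed2' Hed' Eas' X' Y' ApB' K0' Y2' Y3' D2' YD' U2' U3' U4' U5' As' Bt' gp' gq') :=
  st21_rel cl p hh hg hea hes hed hA hB ht hs hD hH hed2 hHed hEas hX hY hApB hK0 hY2 hY3 hD2 hYD hU2 hU3 hU4 hU5 hAs hBt hgp hgq (cl.ad (cl.ml hgp hh) (cl.ml hgq hg))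

theorem st19_rel {R S : Type*} {Rel : R → S → Prop} {ad sb ml : R → R → R} {c : ℤ → R}
    {ad' sb' ml' : S → S → S} {c' : ℤ → S} (cl : Closed Rel ad sb ml c ad' sb' ml' c') (p : Par)
    {h : R} {h' : S} (hh : Rel h h') {g : R} {g' : S} (hg : Rel g g') {ea : R} {ea' : S} (hea : Rel ea ea') {es : R} {es' : S} (hes : Rel es es') {ed : R} {ed' : S} (hed : Rel ed ed') {A : R} {A' : S} (hA : Rel A A') {B : R} {B' : S} (hB : Rel B B') {t : R} {t' : S} (ht : Rel t t') {s : R} {s' : S} (hs : Rel s s') {D : R} {D' : S} (hD : Rel D D') {H : R} {H' : S} (hH : Rel H H') {ed2 : R} {ed2' : S} (hed2 : Rel ed2 ed2') {Hed : R} {Hed' : S} (hHed : Rel Hed Hed') {Eas : R} {Eas' : S} (hEas : Rel Eas Eas') {X : R} {X' : S} (hX : Rel X X') {Y : R} {Y' : S} (hY : Rel Y Y') {ApB : R} {ApB' : S} (hApB : Rel ApB ApB') {K0 : R}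 {K0' : S} (hK0 : Rel K0 K0') {Y2 : R} {Y2' : S} (hY2 : Rel Y2 Y2') {Y3 : R} {Y3' : S} (hY3 : Rel Y3 Y3') {D2 : R} {D2' : S} (hD2 : Rel D2 D2') {YD : R} {YD' : S} (hYD : Rel YD YD') {U2 : R} {U2' : S} (hU2 : Rel U2 U2') {U3 : R} {U3' : S} (hU3 : Rel U3 U3') {U4 : R} {U4' : S} (hU4 : Rel U4 U4') {U5 : R} {U5' : S} (hU5 : Rel U5 U5') {As : R} {As' : S} (hAs : Rel As As') {Bt : R} {Bt' : S} (hBt : Rel Bt Bt') {gp : R} {gp' : S} (hgp : Rel gp gp') :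
    Rel (st19 ad sb ml c p h g ea es ed A B t s D H ed2 Hed Eas X Y ApB K0 Y2 Y3 D2 YD U2 U3 U4 U5 As Bt gp) (st19 ad' sb' ml' c' p h' g' ea' es' ed' A' B' t' s' D' H' ed2' Hed' Eas' X' Y' ApB' K0' Y2' Y3' D2' YD' U2' U3' U4' U5' As' Bt' gp') :=
  st20_rel cl p hh hg hea hes hed hA hB ht hs hD hH hed2 hHed hEas hX hY hApB hK0 hY2 hY3 hD2 hYD hU2 hU3 hU4 hU5 hAs hBt hgp (cl.sb (cl.ml (cl.ml hA hAs) hea) (cl.ml (cl.ml hBt hh) hes))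

theorem st18_rel {R S : Type*} {Rel : R → S → Prop} {ad sb ml : R → R → R} {c : ℤ → R}
    {ad' sb' ml' : S → S → S} {c' : ℤ → S} (cl : Closed Rel ad sb ml c ad' sb' ml' c') (p : Par)
    {h : R} {h' : S} (hh : Rel h h') {g : R} {g' : S} (hg : Rel g g') {ea : R} {ea' : S} (hea : Rel ea ea') {es : R} {es' : S} (hes : Rel es es') {ed : R} {ed' : S} (hed : Rel ed ed') {A : R} {A' : S} (hA : Rel A A') {B : R} {B' : S} (hB : Rel B B') {t : R} {t' : S} (ht : Rel t t') {s : R} {s' : S} (hs : Rel s s') {D : R} {D' : S} (hD : Rel D D') {H : R} {H' : S} (hH : Rel H H') {ed2 : R} {ed2' : S} (hed2 : Rel ed2 ed2') {Hed : R} {Hed' : S} (hHed : Rel Hed Hed') {Eas : R} {Eas' : S} (hEas : Rel Eas Eas') {X : R} {X' : S} (hX : Rel X X') {Y : R} {Y' : S} (hY : Rel Y Y') {ApB : R} {ApB' : S} (hApB : Rel ApB ApB') {K0 : R}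 {K0' : S} (hK0 : Rel K0 K0') {Y2 : R} {Y2' : S} (hY2 : Rel Y2 Y2') {Y3 : R} {Y3' : S} (hY3 : Rel Y3 Y3') {D2 : R} {D2' : S} (hD2 : Rel D2 D2') {YD : R} {YD' : S} (hYD : Rel YD YD') {U2 : R} {U2' : S} (hU2 : Rel U2 U2') {U3 : R} {U3' : S} (hU3 : Rel U3 U3') {U4 : R} {U4' : S} (hU4 : Rel U4 U4') {U5 : R} {U5' : S} (hU5 : Rel U5 U5') {As : R} {As' : S} (hAs : Rel As As') {Bt : R} {Bt' : S} (hBt : Rel Bt Bt') :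
    Rel (st18 ad sb ml c p h g ea es ed A B t s D H ed2 Hed Eas X Y ApB K0 Y2 Y3 D2 YD U2 U3 U4 U5 As Bt) (st18 ad' sb' ml' c' p h' g' ea' es' ed' A' B' t' s' D' H' ed2' Hed' Eas' X' Y' ApB' K0' Y2' Y3' D2' YD' U2' U3' U4' U5' As' Bt') :=
  st19_rel cl p hh hg hea hes hed hA hB ht hs hD hH hed2 hHed hEas hX hY hApB hK0 hY2 hY3 hD2 hYD hU2 hU3 hU4 hU5 hAs hBt (cl.sb (cl.ml (cl.ml hB hBt) hes) (cl.ml (cl.ml hAs hg) hea))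

theorem st17_rel {R S : Type*} {Rel : R → S → Prop} {ad sb ml : R → R → R} {c : ℤ → R}
    {ad' sb' ml' : S → S → S} {c' : ℤ → S} (cl : Closed Rel ad sb ml c ad' sb' ml' c') (p : Par)
    {h : R} {h' : S} (hh : Rel h h') {g : R} {g' : S} (hg : Rel g g') {ea : R} {ea' : S} (hea : Rel ea ea') {es : R} {es' : S} (hes : Rel es es') {ed : R} {ed' : S} (hed : Rel ed ed') {A : R} {A' : S} (hA : Rel A A') {B : R} {B' : S} (hB : Rel B B') {t : R} {t' : S} (ht : Rel t t') {s : R} {s' : S} (hs : Rel s s') {D : R} {D' : S} (hD : Rel D D') {H : R} {H' : S} (hH : Rel H H') {ed2 : R} {ed2' : S} (hed2 : Rel ed2 ed2') {Hed : R} {Hed' : S} (hHed : Rel Hed Hed') {Eas : R} {Eas' : S} (hEas : Rel Eas Eas') {X : R} {X' : S} (hX : Rel X X') {Y : R} {Y' : S} (hY : Rel Y Y') {ApB : R} {ApB' : S} (hApB : Rel ApB ApB') {K0 : R}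 {K0' : S} (hK0 : Rel K0 K0') {Y2 : R} {Y2' : S} (hY2 : Rel Y2 Y2') {Y3 : R} {Y3' : S} (hY3 : Rel Y3 Y3') {D2 : R} {D2' : S} (hD2 : Rel D2 D2') {YD : R} {YD' : S} (hYD : Rel YD YD') {U2 : R} {U2' : S} (hU2 : Rel U2 U2') {U3 : R} {U3' : S} (hU3 : Rel U3 U3') {U4 : R} {U4' : S} (hU4 : Rel U4 U4') {U5 : R} {U5' : S} (hU5 : Rel U5 U5') {As : R} {As' : S} (hAs : Rel As As') :
    Rel (st17 ad sb ml c p h g ea es ed A B t s D H ed2 Hed Eas X Y ApB K0 Y2 Y3 D2 YD U2 U3 U4 U5 As) (st17 ad' sb' ml' c' p h' g' ea' es' ed' A' B' t' s' D' H' ed2' Hed' Eas' X' Y' ApB' K0' Y2' Y3' D2' YD' U2' U3' U4' U5' As') :=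
  st18_rel cl p hh hg hea hes hed hA hB ht hs hD hH hed2 hHed hEas hX hY hApB hK0 hY2 hY3 hD2 hYD hU2 hU3 hU4 hU5 hAs (cl.ml hB ht)

theorem st16_rel {R S : Type*} {Rel : R → S → Prop} {ad sb ml : R → R → R} {c : ℤ → R}
    {ad' sb' ml' : S → S → S} {c' : ℤ → S} (cl : Closed Rel ad sb ml c ad' sb' ml' c') (p : Par)
    {h : R} {h' : S} (hh : Rel h h') {g : R} {g' : S} (hg : Rel g g') {ea : R} {ea' : S} (hea : Rel ea ea') {es : R} {es' : S} (hes : Rel es es') {ed : R} {ed' : S} (hed : Rel ed ed') {A : R} {A' : S} (hA : Rel A A') {B : R} {B' : S} (hB : Rel B B') {t : R} {t' : S} (ht : Rel t t') {s : R} {s' : S} (hs : Rel s s') {D : R} {D' : S} (hD : Rel D D') {H : R} {H' : S} (hH : Rel H H') {ed2 : R} {ed2' : S} (hed2 : Rel ed2 ed2') {Hed : R} {Hed' : S} (hHed : Rel Hed Hed') {Eas : R} {Eas' : S} (hEas :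 Rel Eas Eas') {X : R} {X' : S} (hX : Rel X X') {Y : R} {Y' : S} (hY : Rel Y Y') {ApB : R} {ApB' : S} (hApB : Rel ApB ApB') {K0 : R} {K0' : S} (hK0 : Rel K0 K0') {Y2 : R} {Y2' : S} (hY2 : Rel Y2 Y2') {Y3 : R} {Y3' : S} (hY3 : Rel Y3 Y3') {D2 : R} {D2' : S} (hD2 : Rel D2 D2') {YD : R} {YD' : S} (hYD : Rel YD YD') {U2 : R} {U2' : S} (hU2 : Rel U2 U2') {U3 : R} {U3' : S} (hU3 : Rel U3 U3') {U4 : R} {U4' : S} (hU4 : Rel U4 U4') {U5 : R} {U5' : S} (hU5 : Rel U5 U5') :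
    Rel (st16 ad sb ml c p h g ea es ed A B t s D H ed2 Hed Eas X Y ApB K0 Y2 Y3 D2 YD U2 U3 U4 U5) (st16 ad' sb' ml' c' p h' g' ea' es' ed' A' B' t' s' D' H' ed2' Hed' Eas' X' Y' ApB' K0' Y2' Y3' D2' YD' U2' U3' U4' U5') :=
  st17_rel cl p hh hg hea hes hed hA hB ht hs hD hH hed2 hHed hEas hX hY hApB hK0 hY2 hY3 hD2 hYD hU2 hU3 hU4 hU5 (cl.ml hA hs)

theorem st15_rel {R S : Type*} {Rel : R → S → Prop} {ad sb ml : R → R → R} {c : ℤ → R}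
    {ad' sb' ml' : S → S → S} {c' : ℤ → S} (cl : Closed Rel ad sb ml c ad' sb' ml' c') (p : Par)
    {h : R} {h' : S} (hh : Rel h h') {g : R} {g' : S} (hg : Rel g g') {ea : R} {ea' : S} (hea : Rel ea ea') {es : R} {es' : S} (hes : Rel es es') {ed : R} {ed' : S} (hed : Rel ed ed') {A : R} {A' : S} (hA : Rel A A') {B : R} {B' : S} (hB : Rel B B') {t : R} {t' : S} (ht : Rel t t') {s : R} {s' : S} (hs : Rel s s') {D : R} {D' : S} (hD : Rel D D') {H : R} {H' : S} (hH : Rel H H') {ed2 : R} {ed2' : S} (hed2 : Rel ed2 ed2') {Hed : R} {Hed' : S} (hHed : Rel Hed Hed') {Eas : R} {Eas' : S} (hEas : Rel Eas Eas') {X : R} {X' : S} (hX : Rel X X') {Y : R} {Y' : S} (hY : Rel Y Y') {ApB : R} {ApB' : S} (hApB : Rel ApB ApB') {K0 : R} {K0' : S} (hK0 : Rel K0 K0') {Y2 : R} {Y2' : S} (hY2 : Rel Y2 Y2') {Y3 : R} {Y3' : S} (hY3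 : Rel Y3 Y3') {D2 : R} {D2' : S} (hD2 : Rel D2 D2') {YD : R} {YD' : S} (hYD : Rel YD YD') {U2 : R} {U2' : S} (hU2 : Rel U2 U2') {U3 : R} {U3' : S} (hU3 : Rel U3 U3') {U4 : R} {U4' : S} (hU4 : Rel U4 U4') :
    Rel (st15 ad sb ml c p h g ea es ed A B t s D H ed2 Hed Eas X Y ApB K0 Y2 Y3 D2 YD U2 U3 U4) (st15 ad' sb' ml' c' p h' g' ea' es' ed' A' B' t' s' D' H' ed2' Hed' Eas' X' Y' ApB' K0' Y2' Y3' D2' YD' U2' U3' U4') :=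
  st16_rel cl p hh hg hea hes hed hA hB ht hs hD hH hed2 hHed hEas hX hY hApB hK0 hY2 hY3 hD2 hYD hU2 hU3 hU4 (cl.ad (cl.sb (cl.ml (cl.sb (cl.ml (cl.ad (cl.ml (cl.c _) hY2) (cl.ml (cl.c _) (cl.ml hY hH))) hHed) (cl.ml (cl.c _) (cl.ml hD (cl.ml hH hH)))) hD2) (cl.ml (cl.c _) (cl.ml (cl.ml hY2 hYD) (cl.ml hHed hed)))) (cl.ml (cl.c _) (cl.ml (cl.ml hY3 hY2) (cl.ml hed2 hed))))

theorem st14_rel {R S : Type*} {Rel : R → S → Prop} {ad sb ml : R → R → R} {c : ℤ → R}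
    {ad' sb' ml' : S → S → S} {c' : ℤ → S} (cl : Closed Rel ad sb ml c ad' sb' ml' c') (p : Par)
    {h : R} {h' : S} (hh : Rel h h') {g : R} {g' : S} (hg : Rel g g') {ea : R} {ea' : S} (hea : Rel ea ea') {es : R} {es' : S} (hes : Rel es es') {ed : R} {ed' : S} (hed : Rel ed ed') {A : R} {A' : S} (hA : Rel A A') {B : R} {B' : S} (hB : Rel B B') {t : R} {t' : S} (ht : Rel t t') {s : R} {s' : S} (hs : Rel s s') {D : R} {D' : S} (hD : Rel D D') {H : R} {H' : S} (hH : Rel H H') {ed2 : R} {ed2' : S} (hed2 : Rel ed2 ed2') {Hed : R} {Hed' : S} (hHed : Rel Hed Hed') {Eas : R} {Eas' : S} (hEas : Rel Eas Eas') {X : R} {X' : S} (hX : Rel X X') {Y : R} {Y' : S} (hY : Rel Y Y') {ApB : R} {ApB' : S} (hApB : Rel ApB ApB') {K0 : R} {K0' : S} (hK0 : Rel K0 K0') {Y2 : R} {Y2' : S} (hY2 : Rel Y2 Y2') {Y3 : R} {Y3' : S} (hY3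 : Rel Y3 Y3') {D2 : R} {D2' : S} (hD2 : Rel D2 D2') {YD : R} {YD' : S} (hYD : Rel YD YD') {U2 : R} {U2' : S} (hU2 : Rel U2 U2') {U3 : R} {U3' : S} (hU3 : Rel U3 U3') :
    Rel (st14 ad sb ml c p h g ea es ed A B t s D H ed2 Hed Eas X Y ApB K0 Y2 Y3 D2 YD U2 U3) (st14 ad' sb' ml' c' p h' g' ea' es' ed' A' B' t' s' D' H' ed2' Hed' Eas' X' Y' ApB' K0' Y2' Y3' D2' YD' U2' U3') :=
  st15_rel cl p hh hg hea hes hed hA hB ht hs hD hH hed2 hHed hEas hX hY hApB hK0 hY2 hY3 hD2 hYD hU2 hU3 (cl.ad (cl.sb (cl.ml (cl.ml (cl.ad (cl.ml (cl.c _) hY) (cl.ml (cl.c _) hH)) hH) hD2) (cl.ml (cl.c _) (cl.ml (cl.ml hY hYD) hHed))) (cl.ml (cl.c _) (cl.ml (cl.ml hY2 hY2) hed2)))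

theorem st13_rel {R S : Type*} {Rel : R → S → Prop} {ad sb ml : R → R → R} {c : ℤ → R}
    {ad' sb' ml' : S → S → S} {c' : ℤ → S} (cl : Closed Rel ad sb ml c ad' sb' ml' c') (p : Par)
    {h : R} {h' : S} (hh : Rel h h') {g : R} {g' : S} (hg : Rel g g') {ea : R} {ea' : S} (hea : Rel ea ea') {es : R} {es' : S} (hes : Rel es es') {ed : R} {ed' : S} (hed : Rel ed ed') {A : R} {A' : S} (hA : Rel A A') {B : R} {B' : S} (hB : Rel B B') {t : R} {t' : S} (ht : Rel t t') {s : R} {s' : S} (hs : Rel s s') {D : R} {D' : S} (hD : Rel D D') {H : R} {H' : S} (hH : Rel H H') {ed2 : R} {ed2' : S} (hed2 : Rel ed2 ed2') {Hed : R} {Hed' : S} (hHed : Rel Hed Hed') {Eas : R} {Eas' : S} (hEas : Rel Eas Eas') {X : R} {X' : S} (hX : Rel X X') {Y : R} {Y' : S} (hY : Rel Y Y') {ApB : R} {ApB' : S} (hApB : Rel ApB ApB') {K0 : R}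 {K0' : S} (hK0 : Rel K0 K0') {Y2 : R} {Y2' : S} (hY2 : Rel Y2 Y2') {Y3 : R} {Y3' : S} (hY3 : Rel Y3 Y3') {D2 : R} {D2' : S} (hD2 : Rel D2 D2') {YD : R} {YD' : S} (hYD : Rel YD YD') {U2 : R} {U2' : S} (hU2 : Rel U2 U2') :
    Rel (st13 ad sb ml c p h g ea es ed A B t s D H ed2 Hed Eas X Y ApB K0 Y2 Y3 D2 YD U2) (st13 ad' sb' ml' c' p h' g' ea' es' ed' A' B' t' s' D' H' ed2' Hed' Eas' X' Y' ApB' K0' Y2' Y3' D2' YD' U2') :=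
  st14_rel cl p hh hg hea hes hed hA hB ht hs hD hH hed2 hHed hEas hX hY hApB hK0 hY2 hY3 hD2 hYD hU2 (cl.ad (cl.ml hH (cl.sb hD2 (cl.ml (cl.c _) (cl.ml hYD hed)))) (cl.ml (cl.c _) (cl.ml hY3 hed2)))

theorem st12_rel {R S : Type*} {Rel : R → S → Prop} {ad sb ml : R → R → R} {c : ℤ → R}
    {ad' sb' ml' : S → S → S} {c' : ℤ → S} (cl : Closed Rel ad sb ml c ad' sb' ml' c') (p : Par)
    {h : R} {h' : S} (hh : Rel h h') {g : R} {g' : S} (hg : Rel g g') {ea : R} {ea' : S} (hea : Rel ea ea') {es : R} {es' : S} (hes : Rel es es') {ed : R} {ed' : S} (hed : Rel ed ed') {A : R} {A' : S} (hA : Rel A A') {B : R} {B' : S} (hB : Rel B B') {t : R} {t' : S} (ht : Rel t t') {s : R} {s' : S} (hs : Rel s s') {D : R} {D' : S} (hD : Rel D D') {H : R} {H' : S} (hH : Rel H H') {ed2 : R} {ed2' : S} (hed2 : Rel ed2 ed2') {Hed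 : R} {Hed' : S} (hHed : Rel Hed Hed') {Eas : R} {Eas' : S} (hEas : Rel Eas Eas') {X : R} {X' : S} (hX : Rel X X') {Y : R} {Y' : S} (hY : Rel Y Y') {ApB : R} {ApB' : S} (hApB : Rel ApB ApB') {K0 : R} {K0' : S} (hK0 : Rel K0 K0') {Y2 : R} {Y2' : S} (hY2 : Rel Y2 Y2') {Y3 : R} {Y3' : S} (hY3 : Rel Y3 Y3') {D2 : R} {D2' : S} (hD2 : Rel D2 D2') {YD : R} {YD' : S} (hYD : Rel YD YD') :
    Rel (st12 ad sb ml c p h g ea es ed A B t s D H ed2 Hed Eas X Y ApB K0 Y2 Y3 D2 YD) (st12 ad' sb' ml' c' p h' g' ea' es' ed' A' B' t' s' D' H' ed2' Hed' Eas' X' Y' ApB' K0' Y2' Y3' D2' YD') :=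
  st13_rel cl p hh hg hea hes hed hA hB ht hs hD hH hed2 hHed hEas hX hY hApB hK0 hY2 hY3 hD2 hYD (cl.sb (cl.ml (cl.c _) (cl.ml hY2 hed)) (cl.ml (cl.c _) (cl.ml hD hH)))

theorem st11_rel {R S : Type*} {Rel : R → S → Prop} {ad sb ml : R → R → R} {c : ℤ → R}
    {ad' sb' ml' : S → S → S} {c' : ℤ → S} (cl : Closed Rel ad sb ml c ad' sb' ml' c') (p : Par)
    {h : R} {h' : S} (hh : Rel h h') {g : R} {g' : S} (hg : Rel g g') {ea : R} {ea' : S} (hea : Rel ea ea') {es : R} {es' : S} (hes : Rel es es') {ed : R} {ed' : S} (hed : Rel ed ed') {A : R} {A' : S} (hA : Rel A A') {B : R} {B' : S} (hB : Rel B B') {t : R} {t' : S} (ht : Rel t t') {s : R} {s' : S} (hs : Rel s s') {D : R} {D' : S} (hD : Rel D D') {H : R} {H' : S} (hH : Rel H H') {ed2 : R} {ed2' : S} (hed2 : Rel ed2 ed2') {Hed : R} {Hed' : S} (hHed : Rel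 Hed Hed') {Eas : R} {Eas' : S} (hEas : Rel Eas Eas') {X : R} {X' : S} (hX : Rel X X') {Y : R} {Y' : S} (hY : Rel Y Y') {ApB : R} {ApB' : S} (hApB : Rel ApB ApB') {K0 : R} {K0' : S} (hK0 : Rel K0 K0') {Y2 : R} {Y2' : S} (hY2 : Rel Y2 Y2') {Y3 : R} {Y3' : S} (hY3 : Rel Y3 Y3') {D2 : R} {D2' : S} (hD2 : Rel D2 D2') :
    Rel (st11 ad sb ml c p h g ea es ed A B t s D H ed2 Hed Eas X Y ApB K0 Y2 Y3 D2) (st11 ad' sb' ml' c' p h' g' ea' es' ed' A' B' t' s' D' H' ed2' Hed' Eas' X' Y' ApB' K0' Y2' Y3' D2') :=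
  st12_rel cl p hh hg hea hes hed hA hB ht hs hD hH hed2 hHed hEas hX hY hApB hK0 hY2 hY3 hD2 (cl.ml hY hD)

theorem st10_rel {R S : Type*} {Rel : R → S → Prop} {ad sb ml : R → R → R} {c : ℤ → R}
    {ad' sb' ml' : S → S → S} {c' : ℤ → S} (cl : Closed Rel ad sb ml c ad' sb' ml' c') (p : Par)
    {h : R} {h' : S} (hh : Rel h h') {g : R} {g' : S} (hg : Rel g g') {ea : R} {ea' : S} (hea : Rel ea ea') {es : R} {es' : S} (hes : Rel es es') {ed : R} {ed' : S} (hed : Rel ed ed') {A : R} {A' : S} (hA : Rel A A') {B : R} {B' : S} (hB : Rel B B') {t : R} {t' : S} (ht : Rel t t') {s : R} {s' : S} (hs : Rel s s') {D : R} {D' : S} (hD : Rel D D') {H : R} {H' : S} (hH : Rel H H') {ed2 : R} {ed2' : S} (hed2 : Rel ed2 ed2') {Hed : R} {Hed' : S} (hHed : Rel Hed Hed') {Eas : R} {Eas' : S} (hEas : Rel Eas Eas') {X : R} {X'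 : S} (hX : Rel X X') {Y : R} {Y' : S} (hY : Rel Y Y') {ApB : R} {ApB' : S} (hApB : Rel ApB ApB') {K0 : R} {K0' : S} (hK0 : Rel K0 K0') {Y2 : R} {Y2' : S} (hY2 : Rel Y2 Y2') {Y3 : R} {Y3' : S} (hY3 : Rel Y3 Y3') :
    Rel (st10 ad sb ml c p h g ea es ed A B t s D H ed2 Hed Eas X Y ApB K0 Y2 Y3) (st10 ad' sb' ml' c' p h' g' ea' es' ed' A' B' t' s' D' H' ed2' Hed' Eas' X' Y' ApB' K0' Y2' Y3') :=
  st11_rel cl p hh hg hea hes hed hA hB ht hs hD hH hed2 hHed hEas hX hY hApB hK0 hY2 hY3 (cl.ml hD hD)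

theorem st9_rel {R S : Type*} {Rel : R → S → Prop} {ad sb ml : R → R → R} {c : ℤ → R}
    {ad' sb' ml' : S → S → S} {c' : ℤ → S} (cl : Closed Rel ad sb ml c ad' sb' ml' c') (p : Par)
    {h : R} {h' : S} (hh : Rel h h') {g : R} {g' : S} (hg : Rel g g') {ea : R} {ea' : S} (hea : Rel ea ea') {es : R} {es' : S} (hes : Rel es es') {ed : R} {ed' : S} (hed : Rel ed ed') {A : R} {A' : S} (hA : Rel A A') {B : R} {B' : S} (hB : Rel B B') {t : R} {t' : S} (ht : Rel t t') {s : R} {s' : S} (hs : Rel s s') {D : R} {D' : S} (hD : Rel D D') {H : R} {H' : S} (hH : Rel H H') {ed2 : R} {ed2' : S} (hed2 : Rel ed2 ed2') {Hed : R} {Hed' : S} (hHed : Rel Hed Hed') {Eas : R} {Eas' : S} (hEas : Rel Eas Eas') {X : R} {X' : S} (hX : Rel X X') {Y : R} {Y' : S} (hY : Rel Y Y') {ApB : R} {ApB' : S} (hApB : Rel ApB ApB') {K0 : R}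 {K0' : S} (hK0 : Rel K0 K0') {Y2 : R} {Y2' : S} (hY2 : Rel Y2 Y2') :
    Rel (st9 ad sb ml c p h g ea es ed A B t s D H ed2 Hed Eas X Y ApB K0 Y2) (st9 ad' sb' ml' c' p h' g' ea' es' ed' A' B' t' s' D' H' ed2' Hed' Eas' X' Y' ApB' K0' Y2') :=
  st10_rel cl p hh hg hea hes hed hA hB ht hs hD hH hed2 hHed hEas hX hY hApB hK0 hY2 (cl.ml hY2 hY)

theorem st8_rel {R S : Type*} {Rel : R → S → Prop} {ad sb ml : R → R → R} {c : ℤ → R}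
    {ad' sb' ml' : S → S → S} {c' : ℤ → S} (cl : Closed Rel ad sb ml c ad' sb' ml' c') (p : Par)
    {h : R} {h' : S} (hh : Rel h h') {g : R} {g' : S} (hg : Rel g g') {ea : R} {ea' : S} (hea : Rel ea ea') {es : R} {es' : S} (hes : Rel es es') {ed : R} {ed' : S} (hed : Rel ed ed') {A : R} {A' : S} (hA : Rel A A') {B : R} {B' : S} (hB : Rel B B') {t : R} {t' : S} (ht : Rel t t') {s : R} {s' : S} (hs : Rel s s') {D : R} {D' : S} (hD : Rel D D') {H : R} {H' : S} (hH : Rel H H') {ed2 : R} {ed2' : S} (hed2 : Rel ed2 ed2') {Hed : R} {Hed' : S} (hHed : Rel Hed Hed') {Eas : R} {Eas' : S} (hEas : Rel Eas Eas') {X : R} {X' : S} (hX : Rel X X') {Y : R} {Y' : S} (hY : Rel Y Y') {ApB : R} {ApB' : S} (hApB : Rel ApB ApB') {K0 : R} {K0' : S} (hK0 : Rel K0 K0') :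
    Rel (st8 ad sb ml c p h g ea es ed A B t s D H ed2 Hed Eas X Y ApB K0) (st8 ad' sb' ml' c' p h' g' ea' es' ed' A' B' t' s' D' H' ed2' Hed' Eas' X' Y' ApB' K0') :=
  st9_rel cl p hh hg hea hes hed hA hB ht hs hD hH hed2 hHed hEas hX hY hApB hK0 (cl.ml hY hY)

theorem st7_rel {R S : Type*} {Rel : R → S → Prop} {ad sb ml : R → R → R} {c : ℤ → R}
    {ad' sb' ml' : S → S → S} {c' : ℤ → S} (cl : Closed Rel ad sb ml c ad' sb' ml' c') (p : Par)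
    {h : R} {h' : S} (hh : Rel h h') {g : R} {g' : S} (hg : Rel g g') {ea : R} {ea' : S} (hea : Rel ea ea') {es : R} {es' : S} (hes : Rel es es') {ed : R} {ed' : S} (hed : Rel ed ed') {A : R} {A' : S} (hA : Rel A A') {B : R} {B' : S} (hB : Rel B B') {t : R} {t' : S} (ht : Rel t t') {s : R} {s' : S} (hs : Rel s s') {D : R} {D' : S} (hD : Rel D D') {H : R} {H' : S} (hH : Rel H H') {ed2 : R} {ed2' : S} (hed2 : Rel ed2 ed2') {Hed : R} {Hed' : S} (hHed : Rel Hed Hed') {Eas : R} {Eas' : S} (hEas : Rel Eas Eas') {X : R} {X' : S} (hX : Rel X X') {Y : R} {Y' : S} (hY : Rel Y Y') {ApB : R} {ApB' : S} (hApB : Rel ApB ApB') :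
    Rel (st7 ad sb ml c p h g ea es ed A B t s D H ed2 Hed Eas X Y ApB) (st7 ad' sb' ml' c' p h' g' ea' es' ed' A' B' t' s' D' H' ed2' Hed' Eas' X' Y' ApB') :=
  st8_rel cl p hh hg hea hes hed hA hB ht hs hD hH hed2 hHed hEas hX hY hApB (cl.sb hY hApB)

theorem st6_rel {R S : Type*} {Rel : R → S → Prop} {ad sb ml : R → R → R} {c : ℤ → R}
    {ad' sb' ml' : S → S → S} {c' : ℤ → S} (cl : Closed Rel ad sb ml c ad' sb' ml' c') (p : Par)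
    {h : R} {h' : S} (hh : Rel h h') {g : R} {g' : S} (hg : Rel g g') {ea : R} {ea' : S} (hea : Rel ea ea') {es : R} {es' : S} (hes : Rel es es') {ed : R} {ed' : S} (hed : Rel ed ed') {A : R} {A' : S} (hA : Rel A A') {B : R} {B' : S} (hB : Rel B B') {t : R} {t' : S} (ht : Rel t t') {s : R} {s' : S} (hs : Rel s s') {D : R} {D' : S} (hD : Rel D D') {H : R} {H' : S} (hH : Rel H H') {ed2 : R} {ed2' : S} (hed2 : Rel ed2 ed2') {Hed : R} {Hed' : S} (hHed : Rel Hed Hed') {Eas : R} {Eas' : S} (hEas : Rel Eas Eas') {X : R} {X' : S} (hX : Rel X X') {Y : R} {Y' : S} (hY : Rel Y Y') :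
    Rel (st6 ad sb ml c p h g ea es ed A B t s D H ed2 Hed Eas X Y) (st6 ad' sb' ml' c' p h' g' ea' es' ed' A' B' t' s' D' H' ed2' Hed' Eas' X' Y') :=
  st7_rel cl p hh hg hea hes hed hA hB ht hs hD hH hed2 hHed hEas hX hY (cl.ad (cl.ml hA hg) (cl.ml hB hh))

theorem st5_rel {R S : Type*} {Rel : R → S → Prop} {ad sb ml : R → R → R} {c : ℤ → R}
    {ad' sb' ml' : S → S → S} {c' : ℤ → S} (cl : Closed Rel ad sb ml c ad' sb' ml' c') (p : Par)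
    {h : R} {h' : S} (hh : Rel h h') {g : R} {g' : S} (hg : Rel g g') {ea : R} {ea' : S} (hea : Rel ea ea') {es : R} {es' : S} (hes : Rel es es') {ed : R} {ed' : S} (hed : Rel ed ed') {A : R} {A' : S} (hA : Rel A A') {B : R} {B' : S} (hB : Rel B B') {t : R} {t' : S} (ht : Rel t t') {s : R} {s' : S} (hs : Rel s s') {D : R} {D' : S} (hD : Rel D D') {H : R} {H' : S} (hH : Rel H H') {ed2 : R} {ed2' : S} (hed2 : Rel ed2 ed2') {Hed : R} {Hed' : S} (hHed : Rel Hed Hed') {Eas : R} {Eas' : S} (hEas : Rel Eas Eas') {X : R} {X' : S} (hX : Rel X X') :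
    Rel (st5 ad sb ml c p h g ea es ed A B t s D H ed2 Hed Eas X) (st5 ad' sb' ml' c' p h' g' ea' es' ed' A' B' t' s' D' H' ed2' Hed' Eas' X') :=
  st6_rel cl p hh hg hea hes hed hA hB ht hs hD hH hed2 hHed hEas hX (cl.sb hH hX)

theorem st4_rel {R S : Type*} {Rel : R → S → Prop} {ad sb ml : R → R → R} {c : ℤ → R}
    {ad' sb' ml' : S → S → S} {c' : ℤ → S} (cl : Closed Rel ad sb ml c ad' sb' ml' c') (p : Par)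
    {h : R} {h' : S} (hh : Rel h h') {g : R} {g' : S} (hg : Rel g g') {ea : R} {ea' : S} (hea : Rel ea ea') {es : R} {es' : S} (hes : Rel es es') {ed : R} {ed' : S} (hed : Rel ed ed') {A : R} {A' : S} (hA : Rel A A') {B : R} {B' : S} (hB : Rel B B') {t : R} {t' : S} (ht : Rel t t') {s : R} {s' : S} (hs : Rel s s') {D : R} {D' : S} (hD : Rel D D') {H : R} {H' : S} (hH : Rel H H') {ed2 : R} {ed2' : S} (hed2 : Rel ed2 ed2') {Hed : R} {Hed' : S} (hHed : Rel Hed Hed') {Eas : R} {Eas' : S} (hEas : Rel Eas Eas') :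
    Rel (st4 ad sb ml c p h g ea es ed A B t s D H ed2 Hed Eas) (st4 ad' sb' ml' c' p h' g' ea' es' ed' A' B' t' s' D' H' ed2' Hed' Eas') :=
  st5_rel cl p hh hg hea hes hed hA hB ht hs hD hH hed2 hHed hEas (cl.ml hA hB)

theorem st3_rel {R S : Type*} {Rel : R → S → Prop} {ad sb ml : R → R → R} {c : ℤ → R}
    {ad' sb' ml' : S → S → S} {c' : ℤ → S} (cl : Closed Rel ad sb ml c ad' sb' ml' c') (p : Par)
    {h : R} {h' : S} (hh : Rel h h') {g : R} {g' : S} (hg : Rel g g') {ea : R} {ea' : S} (hea : Rel ea ea') {es : R} {es' : S} (hes : Rel es es') {ed : R} {ed' : S} (hed : Rel ed ed') {A : R} {A' : S} (hA : Rel A A') {B : R} {B' : S} (hB : Rel B B') {t : R} {t' : S} (ht : Rel t t') {s : R} {s' : S} (hs : Rel s s') {D : R} {D' : S} (hD : Rel D D') {H : R} {H' : S} (hH : Rel H H') {ed2 : R} {ed2' : S} (hed2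 : Rel ed2 ed2') {Hed : R} {Hed' : S} (hHed : Rel Hed Hed') :
    Rel (st3 ad sb ml c p h g ea es ed A B t s D H ed2 Hed) (st3 ad' sb' ml' c' p h' g' ea' es' ed' A' B' t' s' D' H' ed2' Hed') :=
  st4_rel cl p hh hg hea hes hed hA hB ht hs hD hH hed2 hHed (cl.ml hea hes)

theorem st2_rel {R S : Type*} {Rel : R → S → Prop} {ad sb ml : R → R → R} {c : ℤ → R}
    {ad' sb' ml' : S → S → S} {c' : ℤ → S} (cl : Closed Rel ad sb ml c ad' sb' ml' c') (p : Par)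
    {h : R} {h' : S} (hh : Rel h h') {g : R} {g' : S} (hg : Rel g g') {ea : R} {ea' : S} (hea : Rel ea ea') {es : R} {es' : S} (hes : Rel es es') {ed : R} {ed' : S} (hed : Rel ed ed') {A : R} {A' : S} (hA : Rel A A') {B : R} {B' : S} (hB : Rel B B') {t : R} {t' : S} (ht : Rel t t') {s : R} {s' : S} (hs : Rel s s') {D : R} {D' : S} (hD : Rel D D') {H : R} {H' : S} (hH : Rel H H') {ed2 : R} {ed2' : S} (hed2 : Rel ed2 ed2') :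
    Rel (st2 ad sb ml c p h g ea es ed A B t s D H ed2) (st2 ad' sb' ml' c' p h' g' ea' es' ed' A' B' t' s' D' H' ed2') :=
  st3_rel cl p hh hg hea hes hed hA hB ht hs hD hH hed2 (cl.ml hH hed)

theorem st1_rel {R S : Type*} {Rel : R → S → Prop} {ad sb ml : R → R → R} {c : ℤ → R}
    {ad' sb' ml' : S → S → S} {c' : ℤ → S} (cl : Closed Rel ad sb ml c ad' sb' ml' c') (p : Par)
    {h : R} {h' : S} (hh : Rel h h') {g : R} {g' : S} (hg : Rel g g') {ea : R} {ea' : S} (hea : Rel ea ea') {es : R} {es' : S} (hes : Rel es es') {ed : R} {ed' : S} (hed : Rel ed ed') {A : R} {A' : S} (hA : Rel A A') {B : R} {B' : S} (hB : Rel B B') {t : R} {t' : S} (ht : Rel t t') {s : R} {s' : S} (hs : Rel s s') {D : R} {D' : S} (hD : Rel D D') {H : R} {H' : S} (hH : Rel H H') :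
    Rel (st1 ad sb ml c p h g ea es ed A B t s D H) (st1 ad' sb' ml' c' p h' g' ea' es' ed' A' B' t' s' D' H') :=
  st2_rel cl p hh hg hea hes hed hA hB ht hs hD hH (cl.ml hed hed)

theorem st0_rel {R S : Type*} {Rel : R → S → Prop} {ad sb ml : R → R → R} {c : ℤ → R}
    {ad' sb' ml' : S → S → S} {c' : ℤ → S} (cl : Closed Rel ad sb ml c ad' sb' ml' c') (p : Par)
    {h : R} {h' : S} (hh : Rel h h') {g : R} {g' : S} (hg : Rel g g') {ea : R} {ea' : S} (hea : Rel ea ea') {es : R} {es' : S} (hes : Rel es es') {ed : R} {ed' : S} (hed : Rel ed ed') {A : R} {A' : S} (hA : Rel A A') {B : R} {B' : S} (hB : Rel B B') {t : R} {t' : S} (ht : Rel t t') {s : R} {s' : S} (hs : Rel s s') {D : R} {D' : S} (hD : Rel D D') :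
    Rel (st0 ad sb ml c p h g ea es ed A B t s D) (st0 ad' sb' ml' c' p h' g' ea' es' ed' A' B' t' s' D') :=
  st1_rel cl p hh hg hea hes hed hA hB ht hs hD (cl.ml hh hg)

theorem st48_hom (p : Par) (h g ea es ed Pi Q1 Q2 : ℝ) :
    st48 (· + ·) (· - ·) (· * ·) (fun n : ℤ => (n : ℝ)) p ed (Pi*(h*g*ea*es)) (Q1*(h^7*g^7*ea^2*es^2*ed^5)) (Q2*(h^6*g^6*ea*es*ed^4)) =
    st48 (· + ·) (· - ·) (· * ·) (fun n : ℤ => (n : ℝ)) p 1 Pi Q1 Q2 * (h^7*g^7*ea^2*es^2*ed^5) := by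
  simp only [st48]; ring

theorem st47_hom (p : Par) (h g ea es ed D H Eas D2 U2 U5 E4 Pi Q1 : ℝ) :
    st47 (· + ·) (· - ·) (· * ·) (fun n : ℤ => (n : ℝ)) p ed (D*(h*g*ed)) (H*(h*g)) (Eas*(ea*es)) (D2*(h^2*g^2*ed^2)) (U2*(h^2*g^2*ed)) (U5*(h^5*g^5*ed^3)) (E4*(h^5*g^5*ea*es*ed^3)) (Pi*(h*g*ea*es)) (Q1*(h^7*g^7*ea^2*es^2*ed^5)) =
    st47 (· + ·) (· - ·) (· * ·) (fun n : ℤ => (n : ℝ)) p 1 D H Eas D2 U2 U5 E4 Pi Q1 * (h^7*g^7*ea^2*es^2*ed^5) := by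
  have e1 : (((D*(h*g*ed)) * (((((((-2) * p.g1) + (4 * p.e1)) : ℤ) : ℝ) * ((((U2*(h^2*g^2*ed)) * (D2*(h^2*g^2*ed^2))) * (H*(h*g))) * (Eas*(ea*es)))) + (((((2 * p.g1) - (6 * p.e1)) : ℤ) : ℝ) * (E4*(h^5*g^5*ea*es*ed^3))))) + (((p.e1 : ℤ) : ℝ) * (((Pi*(h*g*ea*es)) * (U5*(h^5*g^5*ed^3))) * ed))) = ((D * (((((((-2) * p.g1) + (4 * p.e1)) : ℤ) : ℝ) * (((U2 * D2) * H) * Eas)) + (((((2 * p.g1) - (6 * p.e1)) : ℤ) : ℝ) * E4))) + (((p.e1 : ℤ) : ℝ) * ((Pi * U5) * 1))) * (h^6*g^6*ea*es*ed^4) := by ring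
  have e2 := st48_hom p h g ea es ed Pi Q1 ((D * (((((((-2) * p.g1) + (4 * p.e1)) : ℤ) : ℝ) * (((U2 * D2) * H) * Eas)) + (((((2 * p.g1) - (6 * p.e1)) : ℤ) : ℝ) * E4))) + (((p.e1 : ℤ) : ℝ) * ((Pi * U5) * 1)))
  rw [← e1] at e2
  exact e2

theorem st46_hom (p : Par) (h g ea es ed D H Hed Eas D2 U2 U5 E1 E4 E3 Pi R0 : ℝ) :
    st46 (· + ·) (· - ·) (· * ·) (fun n : ℤ => (n : ℝ)) p ed (D*(h*g*ed)) (H*(h*g)) (Hed*(h*g*ed)) (Eas*(ea*es)) (D2*(h^2*g^2*ed^2)) (U2*(h^2*g^2*ed)) (U5*(h^5*g^5*ed^3)) (E1*(h^2*g^2*ea*es)) (E4*(h^5*g^5*ea*es*ed^3)) (E3*(h^5*g^5*ea^2*es^2*ed^3)) (Pi*(h*g*ea*es)) (R0*(h^2*g^2*ea^2*es^2)) =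
    st46 (· + ·) (· - ·) (· * ·) (fun n : ℤ => (n : ℝ)) p 1 D H Hed Eas D2 U2 U5 E1 E4 E3 Pi R0 * (h^7*g^7*ea^2*es^2*ed^5) := by
  have e1 : ((((((D*(h*g*ed)) * (R0*(h^2*g^2*ea^2*es^2))) - ((((((((-2) * p.s0) - (8 * p.b1)) + (10 * p.g1)) - (12 * p.e1)) : ℤ) : ℝ) * ((E1*(h^2*g^2*ea*es)) * ((Hed*(h*g*ed)) * (Eas*(ea*es)))))) * (D2*(h^2*g^2*ed^2))) - ((((((4 * p.b1) - (6 * p.g1)) + (9 * p.e1)) : ℤ) : ℝ) * (E3*(h^5*g^5*ea^2*es^2*ed^3)))) * (D2*(h^2*g^2*ed^2))) = (((((D * R0) - ((((((((-2) * p.s0) - (8 * p.b1)) + (10 * p.g1)) - (12 * p.e1)) : ℤ) : ℝ) * (E1 * (Hed * Eas)))) * D2) - ((((((4 * p.b1) - (6 * p.g1)) + (9 * p.e1)) : ℤ) : ℝ) * E3)) * D2) * (h^7*g^7*ea^2*es^2*ed^5) := by ring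
  have e2 := st47_hom p h g ea es ed D H Eas D2 U2 U5 E4 Pi (((((D * R0) - ((((((((-2) * p.s0) - (8 * p.b1)) + (10 * p.g1)) - (12 * p.e1)) : ℤ) : ℝ) * (E1 * (Hed * Eas)))) * D2) - ((((((4 * p.b1) - (6 * p.g1)) + (9 * p.e1)) : ℤ) : ℝ) * E3)) * D2)
  rw [← e1] at e2
  exact e2

theorem st45_hom (p : Par) (h g ea es ed D H Hed Eas D2 U2 U5 E1 E4 E3 Pi RA RB gs ha : ℝ) :
    st45 (· + ·) (· - ·) (· * ·) (fun n : ℤ => (n : ℝ)) p ed (D*(h*g*ed)) (H*(h*g)) (Hed*(h*g*ed)) (Eas*(ea*es)) (D2*(h^2*g^2*ed^2)) (U2*(h^2*g^2*ed)) (U5*(h^5*g^5*ed^3)) (E1*(h^2*g^2*ea*es)) (E4*(h^5*g^5*ea*es*ed^3)) (E3*(h^5*g^5*ea^2*es^2*ed^3)) (Pi*(h*g*ea*es)) (RA*(h^2*ea^2)) (RB*(g^2*es^2)) (gs*(g*es)) (ha*(h*ea)) =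
    st45 (· + ·) (· - ·) (· * ·) (fun n : ℤ => (n : ℝ)) p 1 D H Hed Eas D2 U2 U5 E1 E4 E3 Pi RA RB gs ha * (h^7*g^7*ea^2*es^2*ed^5) := by
  have e1 : ((((RA*(h^2*ea^2)) * ((gs*(g*es)) * (gs*(g*es)))) + ((RB*(g^2*es^2)) * ((ha*(h*ea)) * (ha*(h*ea))))) - (((((((2 * p.s0) + (4 * p.b1)) - (4 * p.g1)) + (4 * p.e1)) : ℤ) : ℝ) * (((ha*(h*ea)) * (ha*(h*ea))) * ((gs*(g*es)) * (gs*(g*es)))))) = (((RA * (gs * gs)) + (RB * (ha * ha))) - (((((((2 * p.s0) + (4 * p.b1)) - (4 * p.g1)) + (4 * p.e1)) : ℤ) : ℝ) * ((ha * ha) * (gs * gs)))) * (h^2*g^2*ea^2*es^2) := by ring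
  have e2 := st46_hom p h g ea es ed D H Hed Eas D2 U2 U5 E1 E4 E3 Pi (((RA * (gs * gs)) + (RB * (ha * ha))) - (((((((2 * p.s0) + (4 * p.b1)) - (4 * p.g1)) + (4 * p.e1)) : ℤ) : ℝ) * ((ha * ha) * (gs * gs))))
  rw [← e1] at e2
  exact e2

theorem st44_hom (p : Par) (h g ea es ed D H Hed Eas D2 U2 U5 E1 E4 E3 Pi RA RB gs : ℝ) :
    st44 (· + ·) (· - ·) (· * ·) (fun n : ℤ => (n : ℝ)) p h ea ed (D*(h*g*ed)) (H*(h*g)) (Hed*(h*g*ed)) (Eas*(ea*es)) (D2*(h^2*g^2*ed^2)) (U2*(h^2*g^2*ed)) (U5*(h^5*g^5*ed^3)) (E1*(h^2*g^2*ea*es)) (E4*(h^5*g^5*ea*es*ed^3)) (E3*(h^5*g^5*ea^2*es^2*ed^3)) (Pi*(h*g*ea*es)) (RA*(h^2*ea^2)) (RB*(g^2*es^2)) (gs*(g*es)) =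
    st44 (· + ·) (· - ·) (· * ·) (fun n : ℤ => (n : ℝ)) p 1 1 1 D H Hed Eas D2 U2 U5 E1 E4 E3 Pi RA RB gs * (h^7*g^7*ea^2*es^2*ed^5) := by
  have e1 : (h * ea) = (1 * 1) * (h*ea) := by ring
  have e2 := st45_hom p h g ea es ed D H Hed Eas D2 U2 U5 E1 E4 E3 Pi RA RB gs (1 * 1)
  rw [← e1] at e2
  exact e2

theorem st43_hom (p : Par) (h g ea es ed D H Hed Eas D2 U2 U5 E1 E4 E3 Pi RA RB : ℝ) :
    st43 (· + ·) (· - ·) (· * ·) (fun n : ℤ => (n : ℝ)) p h g ea es ed (D*(h*g*ed)) (H*(h*g)) (Hed*(h*g*ed)) (Eas*(ea*es)) (D2*(h^2*g^2*ed^2)) (U2*(h^2*g^2*ed)) (U5*(h^5*g^5*ed^3)) (E1*(h^2*g^2*ea*es)) (E4*(h^5*g^5*ea*es*ed^3)) (E3*(h^5*g^5*ea^2*es^2*ed^3)) (Pi*(h*g*ea*es)) (RA*(h^2*ea^2)) (RB*(g^2*es^2)) =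
    st43 (· + ·) (· - ·) (· * ·) (fun n : ℤ => (n : ℝ)) p 1 1 1 1 1 D H Hed Eas D2 U2 U5 E1 E4 E3 Pi RA RB * (h^7*g^7*ea^2*es^2*ed^5) := by
  have e1 : (g * es) = (1 * 1) * (g*es) := by ring
  have e2 := st44_hom p h g ea es ed D H Hed Eas D2 U2 U5 E1 E4 E3 Pi RA RB (1 * 1)
  rw [← e1] at e2
  exact e2

theorem st42_hom (p : Par) (h g ea es ed B s D H Hed Eas D2 U2 U5 E1 E4 E3 Pi es2 RA : ℝ) :
    st42 (· + ·) (· - ·) (· * ·) (fun n : ℤ => (n : ℝ)) p h g ea es ed (B*(g)) (s*(g*es)) (D*(h*g*ed)) (H*(h*g)) (Hed*(h*g*ed)) (Eas*(ea*es)) (D2*(h^2*g^2*ed^2)) (U2*(h^2*g^2*ed)) (U5*(h^5*g^5*ed^3)) (E1*(h^2*g^2*ea*es)) (E4*(h^5*g^5*ea*es*ed^3)) (E3*(h^5*g^5*ea^2*es^2*ed^3)) (Pi*(h*g*ea*es)) (es2*(es^2)) (RA*(h^2*ea^2)) =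
    st42 (· + ·) (· - ·) (· * ·) (fun n : ℤ => (n : ℝ)) p 1 1 1 1 1 B s D H Hed Eas D2 U2 U5 E1 E4 E3 Pi es2 RA * (h^7*g^7*ea^2*es^2*ed^5) := by
  have e1 : (((((((p.y1 : ℤ) : ℝ) * ((B*(g)) * g)) + (((p.y2 : ℤ) : ℝ) * ((B*(g)) * (B*(g))))) * (es2*(es^2))) - (((p.y3 : ℤ) : ℝ) * (((B*(g)) * (s*(g*es))) * es))) + (((p.y4 : ℤ) : ℝ) * ((s*(g*es)) * (s*(g*es))))) = (((((((p.y1 : ℤ) : ℝ) * (B * 1)) + (((p.y2 : ℤ) : ℝ) * (B * B))) * es2) - (((p.y3 : ℤ) : ℝ) * ((B * s) * 1))) + (((p.y4 : ℤ) : ℝ) * (s * s))) * (g^2*es^2) := by ring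
  have e2 := st43_hom p h g ea es ed D H Hed Eas D2 U2 U5 E1 E4 E3 Pi RA (((((((p.y1 : ℤ) : ℝ) * (B * 1)) + (((p.y2 : ℤ) : ℝ) * (B * B))) * es2) - (((p.y3 : ℤ) : ℝ) * ((B * s) * 1))) + (((p.y4 : ℤ) : ℝ) * (s * s)))
  rw [← e1] at e2
  exact e2

theorem st41_hom (p : Par) (h g ea es ed A B t s D H Hed Eas D2 U2 U5 E1 E4 E3 Pi ea2 es2 : ℝ) :
    st41 (· + ·) (· - ·) (· * ·) (fun n : ℤ => (n : ℝ)) p h g ea es ed (A*(h)) (B*(g)) (t*(h*ea)) (s*(g*es)) (D*(h*g*ed)) (H*(h*g)) (Hed*(h*g*ed)) (Eas*(ea*es)) (D2*(h^2*g^2*ed^2)) (U2*(h^2*g^2*ed)) (U5*(h^5*g^5*ed^3)) (E1*(h^2*g^2*ea*es)) (E4*(h^5*g^5*ea*es*ed^3)) (E3*(h^5*g^5*ea^2*es^2*ed^3)) (Pi*(h*g*ea*es)) (ea2*(ea^2)) (es2*(es^2)) =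
    st41 (· + ·) (· - ·) (· * ·) (fun n : ℤ => (n : ℝ)) p 1 1 1 1 1 A B t s D H Hed Eas D2 U2 U5 E1 E4 E3 Pi ea2 es2 * (h^7*g^7*ea^2*es^2*ed^5) := by
  have e1 : ((((((((2 * p.s0) : ℤ) : ℝ) * ((A*(h)) * h)) + ((((4 * p.b2) : ℤ) : ℝ) * ((A*(h)) * (A*(h))))) * (ea2*(ea^2))) - ((((2 * p.g2) : ℤ) : ℝ) * (((A*(h)) * (t*(h*ea))) * ea))) + (((p.e2 : ℤ) : ℝ) * ((t*(h*ea)) * (t*(h*ea))))) = ((((((((2 * p.s0) : ℤ) : ℝ) * (A * 1)) + ((((4 * p.b2) : ℤ) : ℝ) * (A * A))) * ea2) - ((((2 * p.g2) : ℤ) : ℝ) * ((A * t) * 1))) + (((p.e2 : ℤ) : ℝ) * (t * t))) * (h^2*ea^2) := by ring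
  have e2 := st42_hom p h g ea es ed B s D H Hed Eas D2 U2 U5 E1 E4 E3 Pi es2 ((((((((2 * p.s0) : ℤ) : ℝ) * (A * 1)) + ((((4 * p.b2) : ℤ) : ℝ) * (A * A))) * ea2) - ((((2 * p.g2) : ℤ) : ℝ) * ((A * t) * 1))) + (((p.e2 : ℤ) : ℝ) * (t * t)))
  rw [← e1] at e2
  exact e2

theorem st40_hom (p : Par) (h g ea es ed A B t s D H Hed Eas D2 U2 U5 E1 E4 E3 Pi ea2 : ℝ) :
    st40 (· + ·) (· - ·) (· * ·) (fun n : ℤ => (n : ℝ)) p h g ea es ed (A*(h)) (B*(g)) (t*(h*ea)) (s*(g*es)) (D*(h*g*ed)) (H*(h*g)) (Hed*(h*g*ed)) (Eas*(ea*es)) (D2*(h^2*g^2*ed^2)) (U2*(h^2*g^2*ed)) (U5*(h^5*g^5*ed^3)) (E1*(h^2*g^2*ea*es)) (E4*(h^5*g^5*ea*es*ed^3)) (E3*(h^5*g^5*ea^2*es^2*ed^3)) (Pi*(h*g*ea*es)) (ea2*(ea^2)) =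
    st40 (· + ·) (· - ·) (· * ·) (fun n : ℤ => (n : ℝ)) p 1 1 1 1 1 A B t s D H Hed Eas D2 U2 U5 E1 E4 E3 Pi ea2 * (h^7*g^7*ea^2*es^2*ed^5) := by
  have e1 : (es * es) = (1 * 1) * (es^2) := by ring
  have e2 := st41_hom p h g ea es ed A B t s D H Hed Eas D2 U2 U5 E1 E4 E3 Pi ea2 (1 * 1)
  rw [← e1] at e2
  exact e2

theorem st39_hom (p : Par) (h g ea es ed A B t s D H Hed Eas D2 U2 U5 E1 E4 E3 Pi : ℝ) :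
    st39 (· + ·) (· - ·) (· * ·) (fun n : ℤ => (n : ℝ)) p h g ea es ed (A*(h)) (B*(g)) (t*(h*ea)) (s*(g*es)) (D*(h*g*ed)) (H*(h*g)) (Hed*(h*g*ed)) (Eas*(ea*es)) (D2*(h^2*g^2*ed^2)) (U2*(h^2*g^2*ed)) (U5*(h^5*g^5*ed^3)) (E1*(h^2*g^2*ea*es)) (E4*(h^5*g^5*ea*es*ed^3)) (E3*(h^5*g^5*ea^2*es^2*ed^3)) (Pi*(h*g*ea*es)) =
    st39 (· + ·) (· - ·) (· * ·) (fun n : ℤ => (n : ℝ)) p 1 1 1 1 1 A B t s D H Hed Eas D2 U2 U5 E1 E4 E3 Pi * (h^7*g^7*ea^2*es^2*ed^5) := by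
  have e1 : (ea * ea) = (1 * 1) * (ea^2) := by ring
  have e2 := st40_hom p h g ea es ed A B t s D H Hed Eas D2 U2 U5 E1 E4 E3 Pi (1 * 1)
  rw [← e1] at e2
  exact e2

theorem st38_hom (p : Par) (h g ea es ed A B t s D H Hed Eas D2 U2 U5 E1 E4 E3 Pa Pb : ℝ) :
    st38 (· + ·) (· - ·) (· * ·) (fun n : ℤ => (n : ℝ)) p h g ea es ed (A*(h)) (B*(g)) (t*(h*ea)) (s*(g*es)) (D*(h*g*ed)) (H*(h*g)) (Hed*(h*g*ed)) (Eas*(ea*es)) (D2*(h^2*g^2*ed^2)) (U2*(h^2*g^2*ed)) (U5*(h^5*g^5*ed^3)) (E1*(h^2*g^2*ea*es)) (E4*(h^5*g^5*ea*es*ed^3)) (E3*(h^5*g^5*ea^2*es^2*ed^3)) (Pa*(h*ea)) (Pb*(g*es)) =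
    st38 (· + ·) (· - ·) (· * ·) (fun n : ℤ => (n : ℝ)) p 1 1 1 1 1 A B t s D H Hed Eas D2 U2 U5 E1 E4 E3 Pa Pb * (h^7*g^7*ea^2*es^2*ed^5) := by
  have e1 : ((Pa*(h*ea)) * (Pb*(g*es))) = (Pa * Pb) * (h*g*ea*es) := by ring
  have e2 := st39_hom p h g ea es ed A B t s D H Hed Eas D2 U2 U5 E1 E4 E3 (Pa * Pb)
  rw [← e1] at e2
  exact e2

theorem st37_hom (p : Par) (h g ea es ed A B t s D H Hed Eas D2 U2 U5 E1 E4 E3 Pa : ℝ) :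
    st37 (· + ·) (· - ·) (· * ·) (fun n : ℤ => (n : ℝ)) p h g ea es ed (A*(h)) (B*(g)) (t*(h*ea)) (s*(g*es)) (D*(h*g*ed)) (H*(h*g)) (Hed*(h*g*ed)) (Eas*(ea*es)) (D2*(h^2*g^2*ed^2)) (U2*(h^2*g^2*ed)) (U5*(h^5*g^5*ed^3)) (E1*(h^2*g^2*ea*es)) (E4*(h^5*g^5*ea*es*ed^3)) (E3*(h^5*g^5*ea^2*es^2*ed^3)) (Pa*(h*ea)) =
    st37 (· + ·) (· - ·) (· * ·) (fun n : ℤ => (n : ℝ)) p 1 1 1 1 1 A B t s D H Hed Eas D2 U2 U5 E1 E4 E3 Pa * (h^7*g^7*ea^2*es^2*ed^5) := by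
  have e1 : (((g - (((3 : ℤ) : ℝ) * (B*(g)))) * es) + (s*(g*es))) = (((1 - (((3 : ℤ) : ℝ) * B)) * 1) + s) * (g*es) := by ring
  have e2 := st38_hom p h g ea es ed A B t s D H Hed Eas D2 U2 U5 E1 E4 E3 Pa (((1 - (((3 : ℤ) : ℝ) * B)) * 1) + s)
  rw [← e1] at e2
  exact e2

theorem st36_hom (p : Par) (h g ea es ed A B t s D H Hed Eas D2 U2 U5 E1 E4 E3 : ℝ) :
    st36 (· + ·) (· - ·) (· * ·) (fun n : ℤ => (n : ℝ)) p h g ea es ed (A*(h)) (B*(g)) (t*(h*ea)) (s*(g*es)) (D*(h*g*ed)) (H*(h*g)) (Hed*(h*g*ed)) (Eas*(ea*es)) (D2*(h^2*g^2*ed^2)) (U2*(h^2*g^2*ed)) (U5*(h^5*g^5*ed^3)) (E1*(h^2*g^2*ea*es)) (E4*(h^5*g^5*ea*es*ed^3)) (E3*(h^5*g^5*ea^2*es^2*ed^3)) =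
    st36 (· + ·) (· - ·) (· * ·) (fun n : ℤ => (n : ℝ)) p 1 1 1 1 1 A B t s D H Hed Eas D2 U2 U5 E1 E4 E3 * (h^7*g^7*ea^2*es^2*ed^5) := by
  have e1 : (((h - (((3 : ℤ) : ℝ) * (A*(h)))) * ea) + (t*(h*ea))) = (((1 - (((3 : ℤ) : ℝ) * A)) * 1) + t) * (h*ea) := by ring
  have e2 := st37_hom p h g ea es ed A B t s D H Hed Eas D2 U2 U5 E1 E4 E3 (((1 - (((3 : ℤ) : ℝ) * A)) * 1) + t)
  rw [← e1] at e2
  exact e2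

theorem st35_hom (p : Par) (h g ea es ed A B t s D H ed2 Hed Eas K0 D2 U2 U3 U5 v3 w3 E1 E4 G1 G2 G3 : ℝ) :
    st35 (· + ·) (· - ·) (· * ·) (fun n : ℤ => (n : ℝ)) p h g ea es ed (A*(h)) (B*(g)) (t*(h*ea)) (s*(g*es)) (D*(h*g*ed)) (H*(h*g)) (ed2*(ed^2)) (Hed*(h*g*ed)) (Eas*(ea*es)) (K0*(h*g)) (D2*(h^2*g^2*ed^2)) (U2*(h^2*g^2*ed)) (U3*(h^3*g^3*ed^2)) (U5*(h^5*g^5*ed^3)) (v3*(h^3*g^4*ea*es*ed)) (w3*(h^4*g^3*ea*es*ed)) (E1*(h^2*g^2*ea*es)) (E4*(h^5*g^5*ea*es*ed^3)) (G1*(h^2*g^2*ea*es*ed)) (G2*(h^3*g^3*ea*es*ed)) (G3*(h^2*g^2*ea*es*ed)) =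
    st35 (· + ·) (· - ·) (· * ·) (fun n : ℤ => (n : ℝ)) p 1 1 1 1 1 A B t s D H ed2 Hed Eas K0 D2 U2 U3 U5 v3 w3 E1 E4 G1 G2 G3 * (h^7*g^7*ea^2*es^2*ed^5) := by
  have e1 : ((((((((G1*(h^2*g^2*ea*es*ed)) * (D2*(h^2*g^2*ed^2))) * (H*(h*g))) + (((G2*(h^3*g^3*ea*es*ed)) * (D*(h*g*ed))) * (Hed*(h*g*ed)))) + ((G3*(h^2*g^2*ea*es*ed)) * (U3*(h^3*g^3*ed^2)))) * (Eas*(ea*es))) - ((((2 : ℤ) : ℝ) * ((K0*(h*g)) * (((v3*(h^3*g^4*ea*es*ed)) * h) + ((w3*(h^4*g^3*ea*es*ed)) * g)))) * ((Eas*(ea*es)) * (ed2*(ed^2))))) + (((((s*(g*es)) * (w3*(h^4*g^3*ea*es*ed))) * ea) + (((t*(h*ea)) * (v3*(h^3*g^4*ea*es*ed))) * es)) * ((ed2*(ed^2)) * (H*(h*g))))) = (((((((G1 * D2) * H) + ((G2 * D) * Hed)) + (G3 * U3)) * Eas) - ((((2 : ℤ) : ℝ) * (K0 * ((v3 * 1) + (w3 * 1)))) * (Eas * ed2))) + ((((s * w3) * 1) + ((t * v3) * 1)) * (ed2 * H)))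 * (h^5*g^5*ea^2*es^2*ed^3) := by ring
  have e2 := st36_hom p h g ea es ed A B t s D H Hed Eas D2 U2 U5 E1 E4 (((((((G1 * D2) * H) + ((G2 * D) * Hed)) + (G3 * U3)) * Eas) - ((((2 : ℤ) : ℝ) * (K0 * ((v3 * 1) + (w3 * 1)))) * (Eas * ed2))) + ((((s * w3) * 1) + ((t * v3) * 1)) * (ed2 * H)))
  rw [← e1] at e2
  exact e2

theorem st34_hom (p : Par) (h g ea es ed A B t s D H ed2 Hed Eas X ApB K0 D2 U2 U3 U5 v3 w3 E1 E4 X2 kap G1 G2 : ℝ) :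
    st34 (· + ·) (· - ·) (· * ·) (fun n : ℤ => (n : ℝ)) p h g ea es ed (A*(h)) (B*(g)) (t*(h*ea)) (s*(g*es)) (D*(h*g*ed)) (H*(h*g)) (ed2*(ed^2)) (Hed*(h*g*ed)) (Eas*(ea*es)) (X*(h*g)) (ApB*(h*g)) (K0*(h*g)) (D2*(h^2*g^2*ed^2)) (U2*(h^2*g^2*ed)) (U3*(h^3*g^3*ed^2)) (U5*(h^5*g^5*ed^3)) (v3*(h^3*g^4*ea*es*ed)) (w3*(h^4*g^3*ea*es*ed)) (E1*(h^2*g^2*ea*es)) (E4*(h^5*g^5*ea*es*ed^3)) (X2*(h*g)) (kap*(h*g*ea*es*ed)) (G1*(h^2*g^2*ea*es*ed)) (G2*(h^3*g^3*ea*es*ed)) =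
    st34 (· + ·) (· - ·) (· * ·) (fun n : ℤ => (n : ℝ)) p 1 1 1 1 1 A B t s D H ed2 Hed Eas X ApB K0 D2 U2 U3 U5 v3 w3 E1 E4 X2 kap G1 G2 * (h^7*g^7*ea^2*es^2*ed^5) := by
  have e1 : ((((((K0*(h*g)) * (K0*(h*g))) - ((ApB*(h*g)) * (H*(h*g)))) + ((((4 : ℤ) : ℝ) * ((X*(h*g)) * (ApB*(h*g)))) - ((X2*(h*g)) * (H*(h*g))))) * ((Eas*(ea*es)) * ed)) + (((2 : ℤ) : ℝ) * ((kap*(h*g*ea*es*ed)) * (H*(h*g))))) = (((((K0 * K0) - (ApB * H)) + ((((4 : ℤ) : ℝ) * (X * ApB)) - (X2 * H))) * (Eas * 1)) + (((2 : ℤ) : ℝ) * (kap * H))) * (h^2*g^2*ea*es*ed) := by ring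
  have e2 := st35_hom p h g ea es ed A B t s D H ed2 Hed Eas K0 D2 U2 U3 U5 v3 w3 E1 E4 G1 G2 (((((K0 * K0) - (ApB * H)) + ((((4 : ℤ) : ℝ) * (X * ApB)) - (X2 * H))) * (Eas * 1)) + (((2 : ℤ) : ℝ) * (kap * H)))
  rw [← e1] at e2
  exact e2

theorem st33_hom (p : Par) (h g ea es ed A B t s D H ed2 Hed Eas X ApB K0 D2 U2 U3 U5 V2 v3 w3 E1 E4 X2 kap G1 : ℝ) :
    st33 (· + ·) (· - ·) (· * ·) (fun n : ℤ => (n : ℝ)) p h g ea es ed (A*(h)) (B*(g)) (t*(h*ea)) (s*(g*es)) (D*(h*g*ed)) (H*(h*g)) (ed2*(ed^2)) (Hed*(h*g*ed)) (Eas*(ea*es)) (X*(h*g)) (ApB*(h*g)) (K0*(h*g)) (D2*(h^2*g^2*ed^2)) (U2*(h^2*g^2*ed)) (U3*(h^3*g^3*ed^2)) (U5*(h^5*g^5*ed^3)) (V2*(h^3*g^3*ea*es*ed)) (v3*(h^3*g^4*ea*es*ed)) (w3*(h^4*g^3*ea*es*ed)) (E1*(h^2*g^2*ea*es)) (E4*(h^5*g^5*ea*es*ed^3)) (X2*(h*g)) (kap*(h*g*ea*es*ed)) (G1*(h^2*g^2*ea*es*ed))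 =
    st33 (· + ·) (· - ·) (· * ·) (fun n : ℤ => (n : ℝ)) p 1 1 1 1 1 A B t s D H ed2 Hed Eas X ApB K0 D2 U2 U3 U5 V2 v3 w3 E1 E4 X2 kap G1 * (h^7*g^7*ea^2*es^2*ed^5) := by
  have e1 : ((((2 : ℤ) : ℝ) * (V2*(h^3*g^3*ea*es*ed))) + (((2 : ℤ) : ℝ) * (((((ApB*(h*g)) + (X*(h*g))) - (K0*(h*g))) * (U2*(h^2*g^2*ed))) * (Eas*(ea*es))))) = ((((2 : ℤ) : ℝ) * V2) + (((2 : ℤ) : ℝ) * ((((ApB + X) - K0) * U2) * Eas))) * (h^3*g^3*ea*es*ed) := by ring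
  have e2 := st34_hom p h g ea es ed A B t s D H ed2 Hed Eas X ApB K0 D2 U2 U3 U5 v3 w3 E1 E4 X2 kap G1 ((((2 : ℤ) : ℝ) * V2) + (((2 : ℤ) : ℝ) * ((((ApB + X) - K0) * U2) * Eas)))
  rw [← e1] at e2
  exact e2

theorem st32_hom (p : Par) (h g ea es ed A B t s D H ed2 Hed Eas X Y ApB K0 D2 U2 U3 U5 gg V2 v3 w3 E1 E4 X2 kap : ℝ) :
    st32 (· + ·) (· - ·) (· * ·) (fun n : ℤ => (n : ℝ)) p h g ea es ed (A*(h)) (B*(g)) (t*(h*ea)) (s*(g*es)) (D*(h*g*ed)) (H*(h*g)) (ed2*(ed^2)) (Hed*(h*g*ed)) (Eas*(ea*es)) (X*(h*g)) (Y*(h*g)) (ApB*(h*g)) (K0*(h*g)) (D2*(h^2*g^2*ed^2)) (U2*(h^2*g^2*ed)) (U3*(h^3*g^3*ed^2)) (U5*(h^5*g^5*ed^3)) (gg*(h^2*g^2*ea*es)) (V2*(h^3*g^3*ea*es*ed)) (v3*(h^3*g^4*ea*es*ed)) (w3*(h^4*g^3*ea*es*ed)) (E1*(h^2*g^2*ea*es)) (E4*(h^5*g^5*ea*es*ed^3)) (X2*(h*g)) (kap*(h*g*ea*es*ed)) =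
    st32 (· + ·) (· - ·) (· * ·) (fun n : ℤ => (n : ℝ)) p 1 1 1 1 1 A B t s D H ed2 Hed Eas X Y ApB K0 D2 U2 U3 U5 gg V2 v3 w3 E1 E4 X2 kap * (h^7*g^7*ea^2*es^2*ed^5) := by
  have e1 : (((((((H*(h*g)) + (((2 : ℤ) : ℝ) * (K0*(h*g)))) - (ApB*(h*g))) * (Y*(h*g))) * ((Eas*(ea*es)) * ed)) - (((D*(h*g*ed)) * (H*(h*g))) * (Eas*(ea*es)))) - (((2 : ℤ) : ℝ) * ((gg*(h^2*g^2*ea*es)) * ed))) = ((((((H + (((2 : ℤ) : ℝ) * K0)) - ApB) * Y) * (Eas * 1)) - ((D * H) * Eas)) - (((2 : ℤ) : ℝ) * (gg * 1))) * (h^2*g^2*ea*es*ed) := by ring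
  have e2 := st33_hom p h g ea es ed A B t s D H ed2 Hed Eas X ApB K0 D2 U2 U3 U5 V2 v3 w3 E1 E4 X2 kap ((((((H + (((2 : ℤ) : ℝ) * K0)) - ApB) * Y) * (Eas * 1)) - ((D * H) * Eas)) - (((2 : ℤ) : ℝ) * (gg * 1)))
  rw [← e1] at e2
  exact e2

theorem st31_hom (p : Par) (h g ea es ed A B t s D H ed2 Hed Eas X Y ApB K0 D2 U2 U3 U5 gg V2 v3 w3 E1 E4 X2 : ℝ) :
    st31 (· + ·) (· - ·) (· * ·) (fun n : ℤ => (n : ℝ)) p h g ea es ed (A*(h)) (B*(g)) (t*(h*ea)) (s*(g*es)) (D*(h*g*ed)) (H*(h*g)) (ed2*(ed^2)) (Hed*(h*g*ed)) (Eas*(ea*es)) (X*(h*g)) (Y*(h*g)) (ApB*(h*g)) (K0*(h*g)) (D2*(h^2*g^2*ed^2)) (U2*(h^2*g^2*ed)) (U3*(h^3*g^3*ed^2)) (U5*(h^5*g^5*ed^3)) (gg*(h^2*g^2*ea*es)) (V2*(h^3*g^3*ea*es*ed)) (v3*(h^3*g^4*ea*es*ed)) (w3*(h^4*g^3*ea*es*ed)) (E1*(h^2*g^2*ea*es)) (E4*(h^5*g^5*ea*es*ed^3)) (X2*(h*g)) =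
    st31 (· + ·) (· - ·) (· * ·) (fun n : ℤ => (n : ℝ)) p 1 1 1 1 1 A B t s D H ed2 Hed Eas X Y ApB K0 D2 U2 U3 U5 gg V2 v3 w3 E1 E4 X2 * (h^7*g^7*ea^2*es^2*ed^5) := by
  have e1 : (((((t*(h*ea)) * (s*(g*es))) * ed) - ((D*(h*g*ed)) * (Eas*(ea*es)))) + ((((H*(h*g)) - (((3 : ℤ) : ℝ) * (X*(h*g)))) * (Eas*(ea*es))) * ed)) = ((((t * s) * 1) - (D * Eas)) + (((H - (((3 : ℤ) : ℝ) * X)) * Eas) * 1)) * (h*g*ea*es*ed) := by ring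
  have e2 := st32_hom p h g ea es ed A B t s D H ed2 Hed Eas X Y ApB K0 D2 U2 U3 U5 gg V2 v3 w3 E1 E4 X2 ((((t * s) * 1) - (D * Eas)) + (((H - (((3 : ℤ) : ℝ) * X)) * Eas) * 1))
  rw [← e1] at e2
  exact e2

theorem st30_hom (p : Par) (h g ea es ed A B t s D H ed2 Hed Eas X Y ApB K0 D2 U2 U3 U5 gg V2 v3 w3 E1 E4 : ℝ) :
    st30 (· + ·) (· - ·) (· * ·) (fun n : ℤ => (n : ℝ)) p h g ea es ed (A*(h)) (B*(g)) (t*(h*ea)) (s*(g*es)) (D*(h*g*ed)) (H*(h*g)) (ed2*(ed^2)) (Hed*(h*g*ed)) (Eas*(ea*es)) (X*(h*g)) (Y*(h*g)) (ApB*(h*g)) (K0*(h*g)) (D2*(h^2*g^2*ed^2)) (U2*(h^2*g^2*ed)) (U3*(h^3*g^3*ed^2)) (U5*(h^5*g^5*ed^3)) (gg*(h^2*g^2*ea*es)) (V2*(h^3*g^3*ea*es*ed)) (v3*(h^3*g^4*ea*es*ed)) (w3*(h^4*g^3*ea*es*ed)) (E1*(h^2*g^2*ea*es)) (E4*(h^5*g^5*ea*es*ed^3)) =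
    st30 (· + ·) (· - ·) (· * ·) (fun n : ℤ => (n : ℝ)) p 1 1 1 1 1 A B t s D H ed2 Hed Eas X Y ApB K0 D2 U2 U3 U5 gg V2 v3 w3 E1 E4 * (h^7*g^7*ea^2*es^2*ed^5) := by
  have e1 : (((2 : ℤ) : ℝ) * (X*(h*g))) = (((2 : ℤ) : ℝ) * X) * (h*g) := by ring
  have e2 := st31_hom p h g ea es ed A B t s D H ed2 Hed Eas X Y ApB K0 D2 U2 U3 U5 gg V2 v3 w3 E1 E4 (((2 : ℤ) : ℝ) * X)
  rw [← e1] at e2
  exact e2

theorem st29_hom (p : Par) (h g ea es ed A B t s D H ed2 Hed Eas X Y ApB K0 D2 U2 U3 U4 U5 gg V2 v3 w3 V4 E1 : ℝ) :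
    st29 (· + ·) (· - ·) (· * ·) (fun n : ℤ => (n : ℝ)) p h g ea es ed (A*(h)) (B*(g)) (t*(h*ea)) (s*(g*es)) (D*(h*g*ed)) (H*(h*g)) (ed2*(ed^2)) (Hed*(h*g*ed)) (Eas*(ea*es)) (X*(h*g)) (Y*(h*g)) (ApB*(h*g)) (K0*(h*g)) (D2*(h^2*g^2*ed^2)) (U2*(h^2*g^2*ed)) (U3*(h^3*g^3*ed^2)) (U4*(h^4*g^4*ed^2)) (U5*(h^5*g^5*ed^3)) (gg*(h^2*g^2*ea*es)) (V2*(h^3*g^3*ea*es*ed)) (v3*(h^3*g^4*ea*es*ed)) (w3*(h^4*g^3*ea*es*ed)) (V4*(h^5*g^5*ea*es*ed^2)) (E1*(h^2*g^2*ea*es)) =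
    st29 (· + ·) (· - ·) (· * ·) (fun n : ℤ => (n : ℝ)) p 1 1 1 1 1 A B t s D H ed2 Hed Eas X Y ApB K0 D2 U2 U3 U4 U5 gg V2 v3 w3 V4 E1 * (h^7*g^7*ea^2*es^2*ed^5) := by
  have e1 : (((((((D2*(h^2*g^2*ed^2)) * (U2*(h^2*g^2*ed))) - ((D*(h*g*ed)) * (U3*(h^3*g^3*ed^2)))) * (H*(h*g))) + (((K0*(h*g)) * (U4*(h^4*g^4*ed^2))) * ed)) * (Eas*(ea*es))) - ((V4*(h^5*g^5*ea*es*ed^2)) * ed)) = ((((((D2 * U2) - (D * U3)) * H) + ((K0 * U4) * 1)) * Eas) - (V4 * 1)) * (h^5*g^5*ea*es*ed^3) := by ring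
  have e2 := st30_hom p h g ea es ed A B t s D H ed2 Hed Eas X Y ApB K0 D2 U2 U3 U5 gg V2 v3 w3 E1 ((((((D2 * U2) - (D * U3)) * H) + ((K0 * U4) * 1)) * Eas) - (V4 * 1))
  rw [← e1] at e2
  exact e2

theorem st28_hom (p : Par) (h g ea es ed A B t s D H ed2 Hed Eas X Y ApB K0 D2 U2 U3 U4 U5 gg V2 v3 w3 V4 : ℝ) :
    st28 (· + ·) (· - ·) (· * ·) (fun n : ℤ => (n : ℝ)) p h g ea es ed (A*(h)) (B*(g)) (t*(h*ea)) (s*(g*es)) (D*(h*g*ed)) (H*(h*g)) (ed2*(ed^2)) (Hed*(h*g*ed)) (Eas*(ea*es)) (X*(h*g)) (Y*(h*g)) (ApB*(h*g)) (K0*(h*g)) (D2*(h^2*g^2*ed^2)) (U2*(h^2*g^2*ed)) (U3*(h^3*g^3*ed^2)) (U4*(h^4*g^4*ed^2)) (U5*(h^5*g^5*ed^3)) (gg*(h^2*g^2*ea*es)) (V2*(h^3*g^3*ea*es*ed)) (v3*(h^3*g^4*ea*es*ed)) (w3*(h^4*g^3*ea*es*ed)) (V4*(h^5*g^5*ea*es*ed^2)) =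
    st28 (· + ·) (· - ·) (· * ·) (fun n : ℤ => (n : ℝ)) p 1 1 1 1 1 A B t s D H ed2 Hed Eas X Y ApB K0 D2 U2 U3 U4 U5 gg V2 v3 w3 V4 * (h^7*g^7*ea^2*es^2*ed^5) := by
  have e1 : ((((K0*(h*g)) * (Y*(h*g))) * (Eas*(ea*es))) - (gg*(h^2*g^2*ea*es))) = (((K0 * Y) * Eas) - gg) * (h^2*g^2*ea*es) := by ring
  have e2 := st29_hom p h g ea es ed A B t s D H ed2 Hed Eas X Y ApB K0 D2 U2 U3 U4 U5 gg V2 v3 w3 V4 (((K0 * Y) * Eas) - gg)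
  rw [← e1] at e2
  exact e2

theorem st27_hom (p : Par) (h g ea es ed A B t s D H ed2 Hed Eas X Y ApB K0 Y3 D2 YD U2 U3 U4 U5 gg ST V2 Bgq Agp v3 w3 : ℝ) :
    st27 (· + ·) (· - ·) (· * ·) (fun n : ℤ => (n : ℝ)) p h g ea es ed (A*(h)) (B*(g)) (t*(h*ea)) (s*(g*es)) (D*(h*g*ed)) (H*(h*g)) (ed2*(ed^2)) (Hed*(h*g*ed)) (Eas*(ea*es)) (X*(h*g)) (Y*(h*g)) (ApB*(h*g)) (K0*(h*g)) (Y3*(h^3*g^3)) (D2*(h^2*g^2*ed^2)) (YD*(h^2*g^2*ed)) (U2*(h^2*g^2*ed)) (U3*(h^3*g^3*ed^2)) (U4*(h^4*g^4*ed^2)) (U5*(h^5*g^5*ed^3)) (gg*(h^2*g^2*ea*es)) (ST*(h*g*ea*es)) (V2*(h^3*g^3*ea*es*ed)) (Bgq*(h^2*g^2*ea*es)) (Agp*(h^2*g^2*ea*es)) (v3*(h^3*g^4*ea*es*ed)) (w3*(h^4*g^3*ea*es*ed)) =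
    st27 (· + ·) (· - ·) (· * ·) (fun n : ℤ => (n : ℝ)) p 1 1 1 1 1 A B t s D H ed2 Hed Eas X Y ApB K0 Y3 D2 YD U2 U3 U4 U5 gg ST V2 Bgq Agp v3 w3 * (h^7*g^7*ea^2*es^2*ed^5) := by
  have e1 : ((((((gg*(h^2*g^2*ea*es)) - (((3 : ℤ) : ℝ) * ((ST*(h*g*ea*es)) * (H*(h*g))))) * (H*(h*g))) * (D2*(h^2*g^2*ed^2))) - (((9 : ℤ) : ℝ) * (((YD*(h^2*g^2*ed)) * (((((3 : ℤ) : ℝ) * (gg*(h^2*g^2*ea*es))) + (Bgq*(h^2*g^2*ea*es))) + (Agp*(h^2*g^2*ea*es)))) * (Hed*(h*g*ed))))) + (((27 : ℤ) : ℝ) * (((Y3*(h^3*g^3)) * (gg*(h^2*g^2*ea*es))) * (ed2*(ed^2))))) = (((((gg - (((3 : ℤ) : ℝ) * (ST * H))) * H) * D2) - (((9 : ℤ) : ℝ) * ((YD * (((((3 : ℤ) : ℝ) * gg) + Bgq) + Agp)) * Hed))) + (((27 : ℤ) : ℝ) * ((Y3 * gg) * ed2))) * (h^5*g^5*ea*es*ed^2) := by ring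
  have e2 := st28_hom p h g ea es ed A B t s D H ed2 Hed Eas X Y ApB K0 D2 U2 U3 U4 U5 gg V2 v3 w3 (((((gg - (((3 : ℤ) : ℝ) * (ST * H))) * H) * D2) - (((9 : ℤ) : ℝ) * ((YD * (((((3 : ℤ) : ℝ) * gg) + Bgq) + Agp)) * Hed))) + (((27 : ℤ) : ℝ) * ((Y3 * gg) * ed2)))
  rw [← e1] at e2
  exact e2

theorem st26_hom (p : Par) (h g ea es ed A B t s D H ed2 Hed Eas X Y ApB K0 Y2 Y3 D2 YD U2 U3 U4 U5 gq gg ST V2 Bgq Agp v3 : ℝ) :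
    st26 (· + ·) (· - ·) (· * ·) (fun n : ℤ => (n : ℝ)) p h g ea es ed (A*(h)) (B*(g)) (t*(h*ea)) (s*(g*es)) (D*(h*g*ed)) (H*(h*g)) (ed2*(ed^2)) (Hed*(h*g*ed)) (Eas*(ea*es)) (X*(h*g)) (Y*(h*g)) (ApB*(h*g)) (K0*(h*g)) (Y2*(h^2*g^2)) (Y3*(h^3*g^3)) (D2*(h^2*g^2*ed^2)) (YD*(h^2*g^2*ed)) (U2*(h^2*g^2*ed)) (U3*(h^3*g^3*ed^2)) (U4*(h^4*g^4*ed^2)) (U5*(h^5*g^5*ed^3)) (gq*(h^2*g*ea*es)) (gg*(h^2*g^2*ea*es)) (ST*(h*g*ea*es)) (V2*(h^3*g^3*ea*es*ed)) (Bgq*(h^2*g^2*ea*es)) (Agp*(h^2*g^2*ea*es)) (v3*(h^3*g^4*ea*es*ed)) =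
    st26 (· + ·) (· - ·) (· * ·) (fun n : ℤ => (n : ℝ)) p 1 1 1 1 1 A B t s D H ed2 Hed Eas X Y ApB K0 Y2 Y3 D2 YD U2 U3 U4 U5 gq gg ST V2 Bgq Agp v3 * (h^7*g^7*ea^2*es^2*ed^5) := by
  have e1 : ((((9 : ℤ) : ℝ) * (((Y2*(h^2*g^2)) * (gq*(h^2*g*ea*es))) * ed)) - ((((((6 : ℤ) : ℝ) * ((gq*(h^2*g*ea*es)) * g)) + (((3 : ℤ) : ℝ) * (Agp*(h^2*g^2*ea*es)))) * (D*(h*g*ed))) * h)) = ((((9 : ℤ) : ℝ) * ((Y2 * gq) * 1)) - ((((((6 : ℤ) : ℝ) * (gq * 1)) + (((3 : ℤ) : ℝ) * Agp)) * D) * 1)) * (h^4*g^3*ea*es*ed) := by ring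
  have e2 := st27_hom p h g ea es ed A B t s D H ed2 Hed Eas X Y ApB K0 Y3 D2 YD U2 U3 U4 U5 gg ST V2 Bgq Agp v3 ((((9 : ℤ) : ℝ) * ((Y2 * gq) * 1)) - ((((((6 : ℤ) : ℝ) * (gq * 1)) + (((3 : ℤ) : ℝ) * Agp)) * D) * 1))
  rw [← e1] at e2
  exact e2

theorem st25_hom (p : Par) (h g ea es ed A B t s D H ed2 Hed Eas X Y ApB K0 Y2 Y3 D2 YD U2 U3 U4 U5 gp gq gg ST V2 Bgq Agp : ℝ) :
    st25 (· + ·) (· - ·) (· * ·) (fun n : ℤ => (n : ℝ)) p h g ea es ed (A*(h)) (B*(g)) (t*(h*ea)) (s*(g*es)) (D*(h*g*ed)) (H*(h*g)) (ed2*(ed^2)) (Hed*(h*g*ed)) (Eas*(ea*es)) (X*(h*g)) (Y*(h*g)) (ApB*(h*g)) (K0*(h*g)) (Y2*(h^2*g^2)) (Y3*(h^3*g^3)) (D2*(h^2*g^2*ed^2)) (YD*(h^2*g^2*ed)) (U2*(h^2*g^2*ed)) (U3*(h^3*g^3*ed^2)) (U4*(h^4*g^4*ed^2)) (U5*(h^5*g^5*ed^3)) (gp*(h*g^2*ea*es)) (gq*(h^2*g*ea*es)) (gg*(h^2*g^2*ea*es)) (ST*(h*g*ea*es))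 (V2*(h^3*g^3*ea*es*ed)) (Bgq*(h^2*g^2*ea*es)) (Agp*(h^2*g^2*ea*es)) =
    st25 (· + ·) (· - ·) (· * ·) (fun n : ℤ => (n : ℝ)) p 1 1 1 1 1 A B t s D H ed2 Hed Eas X Y ApB K0 Y2 Y3 D2 YD U2 U3 U4 U5 gp gq gg ST V2 Bgq Agp * (h^7*g^7*ea^2*es^2*ed^5) := by
  have e1 : ((((9 : ℤ) : ℝ) * (((Y2*(h^2*g^2)) * (gp*(h*g^2*ea*es))) * ed)) - ((((((6 : ℤ) : ℝ) * ((gp*(h*g^2*ea*es)) * h)) + (((3 : ℤ) : ℝ) * (Bgq*(h^2*g^2*ea*es)))) * (D*(h*g*ed))) * g)) = ((((9 : ℤ) : ℝ) * ((Y2 * gp) * 1)) - ((((((6 : ℤ) : ℝ) * (gp * 1)) + (((3 : ℤ) : ℝ) * Bgq)) * D) * 1)) * (h^3*g^4*ea*es*ed) := by ring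
  have e2 := st26_hom p h g ea es ed A B t s D H ed2 Hed Eas X Y ApB K0 Y2 Y3 D2 YD U2 U3 U4 U5 gq gg ST V2 Bgq Agp ((((9 : ℤ) : ℝ) * ((Y2 * gp) * 1)) - ((((((6 : ℤ) : ℝ) * (gp * 1)) + (((3 : ℤ) : ℝ) * Bgq)) * D) * 1))
  rw [← e1] at e2
  exact e2

theorem st24_hom (p : Par) (h g ea es ed A B t s D H ed2 Hed Eas X Y ApB K0 Y2 Y3 D2 YD U2 U3 U4 U5 gp gq gg ST V2 Bgq : ℝ) :
    st24 (· + ·) (· - ·) (· * ·) (fun n : ℤ => (n : ℝ)) p h g ea es ed (A*(h)) (B*(g)) (t*(h*ea)) (s*(g*es)) (D*(h*g*ed)) (H*(h*g)) (ed2*(ed^2)) (Hed*(h*g*ed)) (Eas*(ea*es)) (X*(h*g)) (Y*(h*g)) (ApB*(h*g)) (K0*(h*g)) (Y2*(h^2*g^2)) (Y3*(h^3*g^3)) (D2*(h^2*g^2*ed^2)) (YD*(h^2*g^2*ed)) (U2*(h^2*g^2*ed)) (U3*(h^3*g^3*ed^2)) (U4*(h^4*g^4*ed^2)) (U5*(h^5*g^5*ed^3)) (gp*(h*g^2*ea*es)) (gq*(h^2*g*ea*es)) (gg*(h^2*g^2*ea*es)) (ST*(h*g*ea*es))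 (V2*(h^3*g^3*ea*es*ed)) (Bgq*(h^2*g^2*ea*es)) =
    st24 (· + ·) (· - ·) (· * ·) (fun n : ℤ => (n : ℝ)) p 1 1 1 1 1 A B t s D H ed2 Hed Eas X Y ApB K0 Y2 Y3 D2 YD U2 U3 U4 U5 gp gq gg ST V2 Bgq * (h^7*g^7*ea^2*es^2*ed^5) := by
  have e1 : ((A*(h)) * (gp*(h*g^2*ea*es))) = (A * gp) * (h^2*g^2*ea*es) := by ring
  have e2 := st25_hom p h g ea es ed A B t s D H ed2 Hed Eas X Y ApB K0 Y2 Y3 D2 YD U2 U3 U4 U5 gp gq gg ST V2 Bgq (A * gp)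
  rw [← e1] at e2
  exact e2

theorem st23_hom (p : Par) (h g ea es ed A B t s D H ed2 Hed Eas X Y ApB K0 Y2 Y3 D2 YD U2 U3 U4 U5 gp gq gg ST V2 : ℝ) :
    st23 (· + ·) (· - ·) (· * ·) (fun n : ℤ => (n : ℝ)) p h g ea es ed (A*(h)) (B*(g)) (t*(h*ea)) (s*(g*es)) (D*(h*g*ed)) (H*(h*g)) (ed2*(ed^2)) (Hed*(h*g*ed)) (Eas*(ea*es)) (X*(h*g)) (Y*(h*g)) (ApB*(h*g)) (K0*(h*g)) (Y2*(h^2*g^2)) (Y3*(h^3*g^3)) (D2*(h^2*g^2*ed^2)) (YD*(h^2*g^2*ed)) (U2*(h^2*g^2*ed)) (U3*(h^3*g^3*ed^2)) (U4*(h^4*g^4*ed^2)) (U5*(h^5*g^5*ed^3)) (gp*(h*g^2*ea*es)) (gq*(h^2*g*ea*es)) (gg*(h^2*g^2*ea*es)) (ST*(h*g*ea*es)) (V2*(h^3*g^3*ea*es*ed)) =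
    st23 (· + ·) (· - ·) (· * ·) (fun n : ℤ => (n : ℝ)) p 1 1 1 1 1 A B t s D H ed2 Hed Eas X Y ApB K0 Y2 Y3 D2 YD U2 U3 U4 U5 gp gq gg ST V2 * (h^7*g^7*ea^2*es^2*ed^5) := by
  have e1 : ((B*(g)) * (gq*(h^2*g*ea*es))) = (B * gq) * (h^2*g^2*ea*es) := by ring
  have e2 := st24_hom p h g ea es ed A B t s D H ed2 Hed Eas X Y ApB K0 Y2 Y3 D2 YD U2 U3 U4 U5 gp gq gg ST V2 (B * gq)
  rw [← e1] at e2
  exact e2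

theorem st22_hom (p : Par) (h g ea es ed A B t s D H ed2 Hed Eas X Y ApB K0 Y2 Y3 D2 YD U2 U3 U4 U5 gp gq gg ST : ℝ) :
    st22 (· + ·) (· - ·) (· * ·) (fun n : ℤ => (n : ℝ)) p h g ea es ed (A*(h)) (B*(g)) (t*(h*ea)) (s*(g*es)) (D*(h*g*ed)) (H*(h*g)) (ed2*(ed^2)) (Hed*(h*g*ed)) (Eas*(ea*es)) (X*(h*g)) (Y*(h*g)) (ApB*(h*g)) (K0*(h*g)) (Y2*(h^2*g^2)) (Y3*(h^3*g^3)) (D2*(h^2*g^2*ed^2)) (YD*(h^2*g^2*ed)) (U2*(h^2*g^2*ed)) (U3*(h^3*g^3*ed^2)) (U4*(h^4*g^4*ed^2)) (U5*(h^5*g^5*ed^3)) (gp*(h*g^2*ea*es)) (gq*(h^2*g*ea*es)) (gg*(h^2*g^2*ea*es)) (ST*(h*g*ea*es)) =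
    st22 (· + ·) (· - ·) (· * ·) (fun n : ℤ => (n : ℝ)) p 1 1 1 1 1 A B t s D H ed2 Hed Eas X Y ApB K0 Y2 Y3 D2 YD U2 U3 U4 U5 gp gq gg ST * (h^7*g^7*ea^2*es^2*ed^5) := by
  have e1 : ((((ST*(h*g*ea*es)) * (D*(h*g*ed))) * (H*(h*g))) + (((3 : ℤ) : ℝ) * (((Y*(h*g)) * (gg*(h^2*g^2*ea*es))) * ed))) = (((ST * D) * H) + (((3 : ℤ) : ℝ) * ((Y * gg) * 1))) * (h^3*g^3*ea*es*ed) := by ring
  have e2 := st23_hom p h g ea es ed A B t s D H ed2 Hed Eas X Y ApB K0 Y2 Y3 D2 YD U2 U3 U4 U5 gp gq gg ST (((ST * D) * H) + (((3 : ℤ) : ℝ) * ((Y * gg) * 1)))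
  rw [← e1] at e2
  exact e2

theorem st21_hom (p : Par) (h g ea es ed A B t s D H ed2 Hed Eas X Y ApB K0 Y2 Y3 D2 YD U2 U3 U4 U5 As Bt gp gq gg : ℝ) :
    st21 (· + ·) (· - ·) (· * ·) (fun n : ℤ => (n : ℝ)) p h g ea es ed (A*(h)) (B*(g)) (t*(h*ea)) (s*(g*es)) (D*(h*g*ed)) (H*(h*g)) (ed2*(ed^2)) (Hed*(h*g*ed)) (Eas*(ea*es)) (X*(h*g)) (Y*(h*g)) (ApB*(h*g)) (K0*(h*g)) (Y2*(h^2*g^2)) (Y3*(h^3*g^3)) (D2*(h^2*g^2*ed^2)) (YD*(h^2*g^2*ed)) (U2*(h^2*g^2*ed)) (U3*(h^3*g^3*ed^2)) (U4*(h^4*g^4*ed^2)) (U5*(h^5*g^5*ed^3)) (As*(h*g*es)) (Bt*(h*g*ea)) (gp*(h*g^2*ea*es)) (gq*(h^2*g*ea*es)) (gg*(h^2*g^2*ea*es)) =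
    st21 (· + ·) (· - ·) (· * ·) (fun n : ℤ => (n : ℝ)) p 1 1 1 1 1 A B t s D H ed2 Hed Eas X Y ApB K0 Y2 Y3 D2 YD U2 U3 U4 U5 As Bt gp gq gg * (h^7*g^7*ea^2*es^2*ed^5) := by
  have e1 : (((As*(h*g*es)) * ea) + ((Bt*(h*g*ea)) * es)) = ((As * 1) + (Bt * 1)) * (h*g*ea*es) := by ring
  have e2 := st22_hom p h g ea es ed A B t s D H ed2 Hed Eas X Y ApB K0 Y2 Y3 D2 YD U2 U3 U4 U5 gp gq gg ((As * 1) + (Bt * 1))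
  rw [← e1] at e2
  exact e2

theorem st20_hom (p : Par) (h g ea es ed A B t s D H ed2 Hed Eas X Y ApB K0 Y2 Y3 D2 YD U2 U3 U4 U5 As Bt gp gq : ℝ) :
    st20 (· + ·) (· - ·) (· * ·) (fun n : ℤ => (n : ℝ)) p h g ea es ed (A*(h)) (B*(g)) (t*(h*ea)) (s*(g*es)) (D*(h*g*ed)) (H*(h*g)) (ed2*(ed^2)) (Hed*(h*g*ed)) (Eas*(ea*es)) (X*(h*g)) (Y*(h*g)) (ApB*(h*g)) (K0*(h*g)) (Y2*(h^2*g^2)) (Y3*(h^3*g^3)) (D2*(h^2*g^2*ed^2)) (YD*(h^2*g^2*ed)) (U2*(h^2*g^2*ed)) (U3*(h^3*g^3*ed^2)) (U4*(h^4*g^4*ed^2)) (U5*(h^5*g^5*ed^3)) (As*(h*g*es)) (Bt*(h*g*ea)) (gp*(h*g^2*ea*es)) (gq*(h^2*g*ea*es)) =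
    st20 (· + ·) (· - ·) (· * ·) (fun n : ℤ => (n : ℝ)) p 1 1 1 1 1 A B t s D H ed2 Hed Eas X Y ApB K0 Y2 Y3 D2 YD U2 U3 U4 U5 As Bt gp gq * (h^7*g^7*ea^2*es^2*ed^5) := by
  have e1 : (((gp*(h*g^2*ea*es)) * h) + ((gq*(h^2*g*ea*es)) * g)) = ((gp * 1) + (gq * 1)) * (h^2*g^2*ea*es) := by ring
  have e2 := st21_hom p h g ea es ed A B t s D H ed2 Hed Eas X Y ApB K0 Y2 Y3 D2 YD U2 U3 U4 U5 As Bt gp gq ((gp * 1) + (gq * 1))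
  rw [← e1] at e2
  exact e2

theorem st19_hom (p : Par) (h g ea es ed A B t s D H ed2 Hed Eas X Y ApB K0 Y2 Y3 D2 YD U2 U3 U4 U5 As Bt gp : ℝ) :
    st19 (· + ·) (· - ·) (· * ·) (fun n : ℤ => (n : ℝ)) p h g ea es ed (A*(h)) (B*(g)) (t*(h*ea)) (s*(g*es)) (D*(h*g*ed)) (H*(h*g)) (ed2*(ed^2)) (Hed*(h*g*ed)) (Eas*(ea*es)) (X*(h*g)) (Y*(h*g)) (ApB*(h*g)) (K0*(h*g)) (Y2*(h^2*g^2)) (Y3*(h^3*g^3)) (D2*(h^2*g^2*ed^2)) (YD*(h^2*g^2*ed)) (U2*(h^2*g^2*ed)) (U3*(h^3*g^3*ed^2)) (U4*(h^4*g^4*ed^2)) (U5*(h^5*g^5*ed^3)) (As*(h*g*es)) (Bt*(h*g*ea)) (gp*(h*g^2*ea*es)) =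
    st19 (· + ·) (· - ·) (· * ·) (fun n : ℤ => (n : ℝ)) p 1 1 1 1 1 A B t s D H ed2 Hed Eas X Y ApB K0 Y2 Y3 D2 YD U2 U3 U4 U5 As Bt gp * (h^7*g^7*ea^2*es^2*ed^5) := by
  have e1 : ((((A*(h)) * (As*(h*g*es))) * ea) - (((Bt*(h*g*ea)) * h) * es)) = (((A * As) * 1) - ((Bt * 1) * 1)) * (h^2*g*ea*es) := by ring
  have e2 := st20_hom p h g ea es ed A B t s D H ed2 Hed Eas X Y ApB K0 Y2 Y3 D2 YD U2 U3 U4 U5 As Bt gp (((A * As) * 1) - ((Bt * 1) * 1))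
  rw [← e1] at e2
  exact e2

theorem st18_hom (p : Par) (h g ea es ed A B t s D H ed2 Hed Eas X Y ApB K0 Y2 Y3 D2 YD U2 U3 U4 U5 As Bt : ℝ) :
    st18 (· + ·) (· - ·) (· * ·) (fun n : ℤ => (n : ℝ)) p h g ea es ed (A*(h)) (B*(g)) (t*(h*ea)) (s*(g*es)) (D*(h*g*ed)) (H*(h*g)) (ed2*(ed^2)) (Hed*(h*g*ed)) (Eas*(ea*es)) (X*(h*g)) (Y*(h*g)) (ApB*(h*g)) (K0*(h*g)) (Y2*(h^2*g^2)) (Y3*(h^3*g^3)) (D2*(h^2*g^2*ed^2)) (YD*(h^2*g^2*ed)) (U2*(h^2*g^2*ed)) (U3*(h^3*g^3*ed^2)) (U4*(h^4*g^4*ed^2)) (U5*(h^5*g^5*ed^3)) (As*(h*g*es)) (Bt*(h*g*ea)) =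
    st18 (· + ·) (· - ·) (· * ·) (fun n : ℤ => (n : ℝ)) p 1 1 1 1 1 A B t s D H ed2 Hed Eas X Y ApB K0 Y2 Y3 D2 YD U2 U3 U4 U5 As Bt * (h^7*g^7*ea^2*es^2*ed^5) := by
  have e1 : ((((B*(g)) * (Bt*(h*g*ea))) * es) - (((As*(h*g*es)) * g) * ea)) = (((B * Bt) * 1) - ((As * 1) * 1)) * (h*g^2*ea*es) := by ring
  have e2 := st19_hom p h g ea es ed A B t s D H ed2 Hed Eas X Y ApB K0 Y2 Y3 D2 YD U2 U3 U4 U5 As Bt (((B * Bt) * 1) - ((As * 1) * 1))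
  rw [← e1] at e2
  exact e2

theorem st17_hom (p : Par) (h g ea es ed A B t s D H ed2 Hed Eas X Y ApB K0 Y2 Y3 D2 YD U2 U3 U4 U5 As : ℝ) :
    st17 (· + ·) (· - ·) (· * ·) (fun n : ℤ => (n : ℝ)) p h g ea es ed (A*(h)) (B*(g)) (t*(h*ea)) (s*(g*es)) (D*(h*g*ed)) (H*(h*g)) (ed2*(ed^2)) (Hed*(h*g*ed)) (Eas*(ea*es)) (X*(h*g)) (Y*(h*g)) (ApB*(h*g)) (K0*(h*g)) (Y2*(h^2*g^2)) (Y3*(h^3*g^3)) (D2*(h^2*g^2*ed^2)) (YD*(h^2*g^2*ed)) (U2*(h^2*g^2*ed)) (U3*(h^3*g^3*ed^2)) (U4*(h^4*g^4*ed^2)) (U5*(h^5*g^5*ed^3)) (As*(h*g*es)) =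
    st17 (· + ·) (· - ·) (· * ·) (fun n : ℤ => (n : ℝ)) p 1 1 1 1 1 A B t s D H ed2 Hed Eas X Y ApB K0 Y2 Y3 D2 YD U2 U3 U4 U5 As * (h^7*g^7*ea^2*es^2*ed^5) := by
  have e1 : ((B*(g)) * (t*(h*ea))) = (B * t) * (h*g*ea) := by ring
  have e2 := st18_hom p h g ea es ed A B t s D H ed2 Hed Eas X Y ApB K0 Y2 Y3 D2 YD U2 U3 U4 U5 As (B * t)
  rw [← e1] at e2
  exact e2

theorem st16_hom (p : Par) (h g ea es ed A B t s D H ed2 Hed Eas X Y ApB K0 Y2 Y3 D2 YD U2 U3 U4 U5 : ℝ) :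
    st16 (· + ·) (· - ·) (· * ·) (fun n : ℤ => (n : ℝ)) p h g ea es ed (A*(h)) (B*(g)) (t*(h*ea)) (s*(g*es)) (D*(h*g*ed)) (H*(h*g)) (ed2*(ed^2)) (Hed*(h*g*ed)) (Eas*(ea*es)) (X*(h*g)) (Y*(h*g)) (ApB*(h*g)) (K0*(h*g)) (Y2*(h^2*g^2)) (Y3*(h^3*g^3)) (D2*(h^2*g^2*ed^2)) (YD*(h^2*g^2*ed)) (U2*(h^2*g^2*ed)) (U3*(h^3*g^3*ed^2)) (U4*(h^4*g^4*ed^2)) (U5*(h^5*g^5*ed^3)) =
    st16 (· + ·) (· - ·) (· * ·) (fun n : ℤ => (n : ℝ)) p 1 1 1 1 1 A B t s D H ed2 Hed Eas X Y ApB K0 Y2 Y3 D2 YD U2 U3 U4 U5 * (h^7*g^7*ea^2*es^2*ed^5) := by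
  have e1 : ((A*(h)) * (s*(g*es))) = (A * s) * (h*g*es) := by ring
  have e2 := st17_hom p h g ea es ed A B t s D H ed2 Hed Eas X Y ApB K0 Y2 Y3 D2 YD U2 U3 U4 U5 (A * s)
  rw [← e1] at e2
  exact e2

theorem st15_hom (p : Par) (h g ea es ed A B t s D H ed2 Hed Eas X Y ApB K0 Y2 Y3 D2 YD U2 U3 U4 : ℝ) :
    st15 (· + ·) (· - ·) (· * ·) (fun n : ℤ => (n : ℝ)) p h g ea es ed (A*(h)) (B*(g)) (t*(h*ea)) (s*(g*es)) (D*(h*g*ed)) (H*(h*g)) (ed2*(ed^2)) (Hed*(h*g*ed)) (Eas*(ea*es)) (X*(h*g)) (Y*(h*g)) (ApB*(h*g)) (K0*(h*g)) (Y2*(h^2*g^2)) (Y3*(h^3*g^3)) (D2*(h^2*g^2*ed^2)) (YD*(h^2*g^2*ed)) (U2*(h^2*g^2*ed)) (U3*(h^3*g^3*ed^2)) (U4*(h^4*g^4*ed^2)) =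
    st15 (· + ·) (· - ·) (· * ·) (fun n : ℤ => (n : ℝ)) p 1 1 1 1 1 A B t s D H ed2 Hed Eas X Y ApB K0 Y2 Y3 D2 YD U2 U3 U4 * (h^7*g^7*ea^2*es^2*ed^5) := by
  have e1 : (((((((((15 : ℤ) : ℝ) * (Y2*(h^2*g^2))) + (((45 : ℤ) : ℝ) * ((Y*(h*g)) * (H*(h*g))))) * (Hed*(h*g*ed))) - (((5 : ℤ) : ℝ) * ((D*(h*g*ed)) * ((H*(h*g)) * (H*(h*g)))))) * (D2*(h^2*g^2*ed^2))) - (((135 : ℤ) : ℝ) * (((Y2*(h^2*g^2)) * (YD*(h^2*g^2*ed))) * ((Hed*(h*g*ed)) * ed)))) + (((81 : ℤ) : ℝ) * (((Y3*(h^3*g^3)) * (Y2*(h^2*g^2))) * ((ed2*(ed^2)) * ed)))) = (((((((((15 : ℤ) : ℝ) * Y2) + (((45 : ℤ) : ℝ) * (Y * H))) * Hed) - (((5 : ℤ) : ℝ) * (D * (H * H)))) * D2) - (((135 : ℤ) : ℝ) * ((Y2 * YD) * (Hed * 1)))) + (((81 : ℤ) : ℝ) * ((Y3 * Y2) * (ed2 * 1)))) * (h^5*g^5*ed^3) := by ring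
  have e2 := st16_hom p h g ea es ed A B t s D H ed2 Hed Eas X Y ApB K0 Y2 Y3 D2 YD U2 U3 U4 (((((((((15 : ℤ) : ℝ) * Y2) + (((45 : ℤ) : ℝ) * (Y * H))) * Hed) - (((5 : ℤ) : ℝ) * (D * (H * H)))) * D2) - (((135 : ℤ) : ℝ) * ((Y2 * YD) * (Hed * 1)))) + (((81 : ℤ) : ℝ) * ((Y3 * Y2) * (ed2 * 1))))
  rw [← e1] at e2
  exact e2

theorem st14_hom (p : Par) (h g ea es ed A B t s D H ed2 Hed Eas X Y ApB K0 Y2 Y3 D2 YD U2 U3 : ℝ) :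
    st14 (· + ·) (· - ·) (· * ·) (fun n : ℤ => (n : ℝ)) p h g ea es ed (A*(h)) (B*(g)) (t*(h*ea)) (s*(g*es)) (D*(h*g*ed)) (H*(h*g)) (ed2*(ed^2)) (Hed*(h*g*ed)) (Eas*(ea*es)) (X*(h*g)) (Y*(h*g)) (ApB*(h*g)) (K0*(h*g)) (Y2*(h^2*g^2)) (Y3*(h^3*g^3)) (D2*(h^2*g^2*ed^2)) (YD*(h^2*g^2*ed)) (U2*(h^2*g^2*ed)) (U3*(h^3*g^3*ed^2)) =
    st14 (· + ·) (· - ·) (· * ·) (fun n : ℤ => (n : ℝ)) p 1 1 1 1 1 A B t s D H ed2 Hed Eas X Y ApB K0 Y2 Y3 D2 YD U2 U3 * (h^7*g^7*ea^2*es^2*ed^5) := by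
  have e1 : ((((((((4 : ℤ) : ℝ) * (Y*(h*g))) + (((6 : ℤ) : ℝ) * (H*(h*g)))) * (H*(h*g))) * (D2*(h^2*g^2*ed^2))) - (((36 : ℤ) : ℝ) * (((Y*(h*g)) * (YD*(h^2*g^2*ed))) * (Hed*(h*g*ed))))) + (((27 : ℤ) : ℝ) * (((Y2*(h^2*g^2)) * (Y2*(h^2*g^2))) * (ed2*(ed^2))))) = ((((((((4 : ℤ) : ℝ) * Y) + (((6 : ℤ) : ℝ) * H)) * H) * D2) - (((36 : ℤ) : ℝ) * ((Y * YD) * Hed))) + (((27 : ℤ) : ℝ) * ((Y2 * Y2) * ed2))) * (h^4*g^4*ed^2) := by ring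
  have e2 := st15_hom p h g ea es ed A B t s D H ed2 Hed Eas X Y ApB K0 Y2 Y3 D2 YD U2 U3 ((((((((4 : ℤ) : ℝ) * Y) + (((6 : ℤ) : ℝ) * H)) * H) * D2) - (((36 : ℤ) : ℝ) * ((Y * YD) * Hed))) + (((27 : ℤ) : ℝ) * ((Y2 * Y2) * ed2)))
  rw [← e1] at e2
  exact e2

theorem st13_hom (p : Par) (h g ea es ed A B t s D H ed2 Hed Eas X Y ApB K0 Y2 Y3 D2 YD U2 : ℝ) :
    st13 (· + ·) (· - ·) (· * ·) (fun n : ℤ => (n : ℝ)) p h g ea es ed (A*(h)) (B*(g)) (t*(h*ea)) (s*(g*es)) (D*(h*g*ed)) (H*(h*g)) (ed2*(ed^2)) (Hed*(h*g*ed)) (Eas*(ea*es)) (X*(h*g)) (Y*(h*g)) (ApB*(h*g)) (K0*(h*g)) (Y2*(h^2*g^2)) (Y3*(h^3*g^3)) (D2*(h^2*g^2*ed^2)) (YD*(h^2*g^2*ed)) (U2*(h^2*g^2*ed)) =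
    st13 (· + ·) (· - ·) (· * ·) (fun n : ℤ => (n : ℝ)) p 1 1 1 1 1 A B t s D H ed2 Hed Eas X Y ApB K0 Y2 Y3 D2 YD U2 * (h^7*g^7*ea^2*es^2*ed^5) := by
  have e1 : (((H*(h*g)) * ((D2*(h^2*g^2*ed^2)) - (((9 : ℤ) : ℝ) * ((YD*(h^2*g^2*ed)) * ed)))) + (((9 : ℤ) : ℝ) * ((Y3*(h^3*g^3)) * (ed2*(ed^2))))) = ((H * (D2 - (((9 : ℤ) : ℝ) * (YD * 1)))) + (((9 : ℤ) : ℝ) * (Y3 * ed2))) * (h^3*g^3*ed^2) := by ring
  have e2 := st14_hom p h g ea es ed A B t s D H ed2 Hed Eas X Y ApB K0 Y2 Y3 D2 YD U2 ((H * (D2 - (((9 : ℤ) : ℝ) * (YD * 1)))) + (((9 : ℤ) : ℝ) * (Y3 * ed2)))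
  rw [← e1] at e2
  exact e2

theorem st12_hom (p : Par) (h g ea es ed A B t s D H ed2 Hed Eas X Y ApB K0 Y2 Y3 D2 YD : ℝ) :
    st12 (· + ·) (· - ·) (· * ·) (fun n : ℤ => (n : ℝ)) p h g ea es ed (A*(h)) (B*(g)) (t*(h*ea)) (s*(g*es)) (D*(h*g*ed)) (H*(h*g)) (ed2*(ed^2)) (Hed*(h*g*ed)) (Eas*(ea*es)) (X*(h*g)) (Y*(h*g)) (ApB*(h*g)) (K0*(h*g)) (Y2*(h^2*g^2)) (Y3*(h^3*g^3)) (D2*(h^2*g^2*ed^2)) (YD*(h^2*g^2*ed)) =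
    st12 (· + ·) (· - ·) (· * ·) (fun n : ℤ => (n : ℝ)) p 1 1 1 1 1 A B t s D H ed2 Hed Eas X Y ApB K0 Y2 Y3 D2 YD * (h^7*g^7*ea^2*es^2*ed^5) := by
  have e1 : ((((3 : ℤ) : ℝ) * ((Y2*(h^2*g^2)) * ed)) - (((2 : ℤ) : ℝ) * ((D*(h*g*ed)) * (H*(h*g))))) = ((((3 : ℤ) : ℝ) * (Y2 * 1)) - (((2 : ℤ) : ℝ) * (D * H))) * (h^2*g^2*ed) := by ring
  have e2 := st13_hom p h g ea es ed A B t s D H ed2 Hed Eas X Y ApB K0 Y2 Y3 D2 YD ((((3 : ℤ) : ℝ) * (Y2 * 1)) - (((2 : ℤ) : ℝ) * (D * H)))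
  rw [← e1] at e2
  exact e2

theorem st11_hom (p : Par) (h g ea es ed A B t s D H ed2 Hed Eas X Y ApB K0 Y2 Y3 D2 : ℝ) :
    st11 (· + ·) (· - ·) (· * ·) (fun n : ℤ => (n : ℝ)) p h g ea es ed (A*(h)) (B*(g)) (t*(h*ea)) (s*(g*es)) (D*(h*g*ed)) (H*(h*g)) (ed2*(ed^2)) (Hed*(h*g*ed)) (Eas*(ea*es)) (X*(h*g)) (Y*(h*g)) (ApB*(h*g)) (K0*(h*g)) (Y2*(h^2*g^2)) (Y3*(h^3*g^3)) (D2*(h^2*g^2*ed^2)) =
    st11 (· + ·) (· - ·) (· * ·) (fun n : ℤ => (n : ℝ)) p 1 1 1 1 1 A B t s D H ed2 Hed Eas X Y ApB K0 Y2 Y3 D2 * (h^7*g^7*ea^2*es^2*ed^5) := by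
  have e1 : ((Y*(h*g)) * (D*(h*g*ed))) = (Y * D) * (h^2*g^2*ed) := by ring
  have e2 := st12_hom p h g ea es ed A B t s D H ed2 Hed Eas X Y ApB K0 Y2 Y3 D2 (Y * D)
  rw [← e1] at e2
  exact e2

theorem st10_hom (p : Par) (h g ea es ed A B t s D H ed2 Hed Eas X Y ApB K0 Y2 Y3 : ℝ) :
    st10 (· + ·) (· - ·) (· * ·) (fun n : ℤ => (n : ℝ)) p h g ea es ed (A*(h)) (B*(g)) (t*(h*ea)) (s*(g*es)) (D*(h*g*ed)) (H*(h*g)) (ed2*(ed^2)) (Hed*(h*g*ed)) (Eas*(ea*es)) (X*(h*g)) (Y*(h*g)) (ApB*(h*g)) (K0*(h*g)) (Y2*(h^2*g^2)) (Y3*(h^3*g^3)) =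
    st10 (· + ·) (· - ·) (· * ·) (fun n : ℤ => (n : ℝ)) p 1 1 1 1 1 A B t s D H ed2 Hed Eas X Y ApB K0 Y2 Y3 * (h^7*g^7*ea^2*es^2*ed^5) := by
  have e1 : ((D*(h*g*ed)) * (D*(h*g*ed))) = (D * D) * (h^2*g^2*ed^2) := by ring
  have e2 := st11_hom p h g ea es ed A B t s D H ed2 Hed Eas X Y ApB K0 Y2 Y3 (D * D)
  rw [← e1] at e2
  exact e2

theorem st9_hom (p : Par) (h g ea es ed A B t s D H ed2 Hed Eas X Y ApB K0 Y2 : ℝ) :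
    st9 (· + ·) (· - ·) (· * ·) (fun n : ℤ => (n : ℝ)) p h g ea es ed (A*(h)) (B*(g)) (t*(h*ea)) (s*(g*es)) (D*(h*g*ed)) (H*(h*g)) (ed2*(ed^2)) (Hed*(h*g*ed)) (Eas*(ea*es)) (X*(h*g)) (Y*(h*g)) (ApB*(h*g)) (K0*(h*g)) (Y2*(h^2*g^2)) =
    st9 (· + ·) (· - ·) (· * ·) (fun n : ℤ => (n : ℝ)) p 1 1 1 1 1 A B t s D H ed2 Hed Eas X Y ApB K0 Y2 * (h^7*g^7*ea^2*es^2*ed^5) := by
  have e1 : ((Y2*(h^2*g^2)) * (Y*(h*g))) = (Y2 * Y) * (h^3*g^3) := by ring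
  have e2 := st10_hom p h g ea es ed A B t s D H ed2 Hed Eas X Y ApB K0 Y2 (Y2 * Y)
  rw [← e1] at e2
  exact e2

theorem st8_hom (p : Par) (h g ea es ed A B t s D H ed2 Hed Eas X Y ApB K0 : ℝ) :
    st8 (· + ·) (· - ·) (· * ·) (fun n : ℤ => (n : ℝ)) p h g ea es ed (A*(h)) (B*(g)) (t*(h*ea)) (s*(g*es)) (D*(h*g*ed)) (H*(h*g)) (ed2*(ed^2)) (Hed*(h*g*ed)) (Eas*(ea*es)) (X*(h*g)) (Y*(h*g)) (ApB*(h*g)) (K0*(h*g)) =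
    st8 (· + ·) (· - ·) (· * ·) (fun n : ℤ => (n : ℝ)) p 1 1 1 1 1 A B t s D H ed2 Hed Eas X Y ApB K0 * (h^7*g^7*ea^2*es^2*ed^5) := by
  have e1 : ((Y*(h*g)) * (Y*(h*g))) = (Y * Y) * (h^2*g^2) := by ring
  have e2 := st9_hom p h g ea es ed A B t s D H ed2 Hed Eas X Y ApB K0 (Y * Y)
  rw [← e1] at e2
  exact e2

theorem st7_hom (p : Par) (h g ea es ed A B t s D H ed2 Hed Eas X Y ApB : ℝ) :
    st7 (· + ·) (· - ·) (· * ·) (fun n : ℤ => (n : ℝ)) p h g ea es ed (A*(h)) (B*(g)) (t*(h*ea)) (s*(g*es)) (D*(h*g*ed)) (H*(h*g)) (ed2*(ed^2)) (Hed*(h*g*ed)) (Eas*(ea*es)) (X*(h*g)) (Y*(h*g)) (ApB*(h*g)) =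
    st7 (· + ·) (· - ·) (· * ·) (fun n : ℤ => (n : ℝ)) p 1 1 1 1 1 A B t s D H ed2 Hed Eas X Y ApB * (h^7*g^7*ea^2*es^2*ed^5) := by
  have e1 : ((Y*(h*g)) - (ApB*(h*g))) = (Y - ApB) * (h*g) := by ring
  have e2 := st8_hom p h g ea es ed A B t s D H ed2 Hed Eas X Y ApB (Y - ApB)
  rw [← e1] at e2
  exact e2

theorem st6_hom (p : Par) (h g ea es ed A B t s D H ed2 Hed Eas X Y : ℝ) :
    st6 (· + ·) (· - ·) (· * ·) (fun n : ℤ => (n : ℝ)) p h g ea es ed (A*(h)) (B*(g)) (t*(h*ea)) (s*(g*es)) (D*(h*g*ed)) (H*(h*g)) (ed2*(ed^2)) (Hed*(h*g*ed)) (Eas*(ea*es)) (X*(h*g)) (Y*(h*g)) =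
    st6 (· + ·) (· - ·) (· * ·) (fun n : ℤ => (n : ℝ)) p 1 1 1 1 1 A B t s D H ed2 Hed Eas X Y * (h^7*g^7*ea^2*es^2*ed^5) := by
  have e1 : (((A*(h)) * g) + ((B*(g)) * h)) = ((A * 1) + (B * 1)) * (h*g) := by ring
  have e2 := st7_hom p h g ea es ed A B t s D H ed2 Hed Eas X Y ((A * 1) + (B * 1))
  rw [← e1] at e2
  exact e2

theorem st5_hom (p : Par) (h g ea es ed A B t s D H ed2 Hed Eas X : ℝ) :
    st5 (· + ·) (· - ·) (· * ·) (fun n : ℤ => (n : ℝ)) p h g ea es ed (A*(h)) (B*(g)) (t*(h*ea)) (s*(g*es)) (D*(h*g*ed)) (H*(h*g)) (ed2*(ed^2)) (Hed*(h*g*ed)) (Eas*(ea*es)) (X*(h*g)) =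
    st5 (· + ·) (· - ·) (· * ·) (fun n : ℤ => (n : ℝ)) p 1 1 1 1 1 A B t s D H ed2 Hed Eas X * (h^7*g^7*ea^2*es^2*ed^5) := by
  have e1 : ((H*(h*g)) - (X*(h*g))) = (H - X) * (h*g) := by ring
  have e2 := st6_hom p h g ea es ed A B t s D H ed2 Hed Eas X (H - X)
  rw [← e1] at e2
  exact e2

theorem st4_hom (p : Par) (h g ea es ed A B t s D H ed2 Hed Eas : ℝ) :
    st4 (· + ·) (· - ·) (· * ·) (fun n : ℤ => (n : ℝ)) p h g ea es ed (A*(h)) (B*(g)) (t*(h*ea)) (s*(g*es)) (D*(h*g*ed)) (H*(h*g)) (ed2*(ed^2)) (Hed*(h*g*ed)) (Eas*(ea*es)) =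
    st4 (· + ·) (· - ·) (· * ·) (fun n : ℤ => (n : ℝ)) p 1 1 1 1 1 A B t s D H ed2 Hed Eas * (h^7*g^7*ea^2*es^2*ed^5) := by
  have e1 : ((A*(h)) * (B*(g))) = (A * B) * (h*g) := by ring
  have e2 := st5_hom p h g ea es ed A B t s D H ed2 Hed Eas (A * B)
  rw [← e1] at e2
  exact e2

theorem st3_hom (p : Par) (h g ea es ed A B t s D H ed2 Hed : ℝ) :
    st3 (· + ·) (· - ·) (· * ·) (fun n : ℤ => (n : ℝ)) p h g ea es ed (A*(h)) (B*(g)) (t*(h*ea)) (s*(g*es)) (D*(h*g*ed)) (H*(h*g)) (ed2*(ed^2)) (Hed*(h*g*ed)) =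
    st3 (· + ·) (· - ·) (· * ·) (fun n : ℤ => (n : ℝ)) p 1 1 1 1 1 A B t s D H ed2 Hed * (h^7*g^7*ea^2*es^2*ed^5) := by
  have e1 : (ea * es) = (1 * 1) * (ea*es) := by ring
  have e2 := st4_hom p h g ea es ed A B t s D H ed2 Hed (1 * 1)
  rw [← e1] at e2
  exact e2

theorem st2_hom (p : Par) (h g ea es ed A B t s D H ed2 : ℝ) :
    st2 (· + ·) (· - ·) (· * ·) (fun n : ℤ => (n : ℝ)) p h g ea es ed (A*(h)) (B*(g)) (t*(h*ea)) (s*(g*es)) (D*(h*g*ed)) (H*(h*g)) (ed2*(ed^2)) =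
    st2 (· + ·) (· - ·) (· * ·) (fun n : ℤ => (n : ℝ)) p 1 1 1 1 1 A B t s D H ed2 * (h^7*g^7*ea^2*es^2*ed^5) := by
  have e1 : ((H*(h*g)) * ed) = (H * 1) * (h*g*ed) := by ring
  have e2 := st3_hom p h g ea es ed A B t s D H ed2 (H * 1)
  rw [← e1] at e2
  exact e2

theorem st1_hom (p : Par) (h g ea es ed A B t s D H : ℝ) :
    st1 (· + ·) (· - ·) (· * ·) (fun n : ℤ => (n : ℝ)) p h g ea es ed (A*(h)) (B*(g)) (t*(h*ea)) (s*(g*es)) (D*(h*g*ed)) (H*(h*g)) =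
    st1 (· + ·) (· - ·) (· * ·) (fun n : ℤ => (n : ℝ)) p 1 1 1 1 1 A B t s D H * (h^7*g^7*ea^2*es^2*ed^5) := by
  have e1 : (ed * ed) = (1 * 1) * (ed^2) := by ring
  have e2 := st2_hom p h g ea es ed A B t s D H (1 * 1)
  rw [← e1] at e2
  exact e2

theorem st0_hom (p : Par) (h g ea es ed A B t s D : ℝ) :
    st0 (· + ·) (· - ·) (· * ·) (fun n : ℤ => (n : ℝ)) p h g ea es ed (A*(h)) (B*(g)) (t*(h*ea)) (s*(g*es)) (D*(h*g*ed)) =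
    st0 (· + ·) (· - ·) (· * ·) (fun n : ℤ => (n : ℝ)) p 1 1 1 1 1 A B t s D * (h^7*g^7*ea^2*es^2*ed^5) := by
  have e1 : (h * g) = (1 * 1) * (h*g) := by ring
  have e2 := st1_hom p h g ea es ed A B t s D (1 * 1)
  rw [← e1] at e2
  exact e2


theorem psiH_rel {R S : Type*} {Rel : R → S → Prop} {ad sb ml : R → R → R} {c : ℤ → R}
    {ad' sb' ml' : S → S → S} {c' : ℤ → S} (cl : Closed Rel ad sb ml c ad' sb' ml' c') (p : Par)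
    {h : R} {h' : S} (hh : Rel h h') {g : R} {g' : S} (hg : Rel g g') {ea : R} {ea' : S} (hea : Rel ea ea') {es : R} {es' : S} (hes : Rel es es') {ed : R} {ed' : S} (hed : Rel ed ed') {A : R} {A' : S} (hA : Rel A A') {B : R} {B' : S} (hB : Rel B B') {t : R} {t' : S} (ht : Rel t t') {s : R} {s' : S} (hs : Rel s s') {D : R} {D' : S} (hD : Rel D D') :
    Rel (psiH ad sb ml c p h g ea es ed A B t s D) (psiH ad' sb' ml' c' p h' g' ea' es' ed' A' B' t' s' D') :=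
  st0_rel cl p hh hg hea hes hed hA hB ht hs hD


/-- the real polynomial -/
noncomputable def psiR (p : Par) (A B t s D : ℝ) : ℝ :=
  psiH (· + ·) (· - ·) (· * ·) (fun n : ℤ => (n : ℝ)) p 1 1 1 1 1 A B t s D

theorem psiH_hom (p : Par) (h g ea es ed A B t s D : ℝ) :
    psiH (· + ·) (· - ·) (· * ·) (fun n : ℤ => (n : ℝ)) p h g ea es ed (A*h) (B*g) (t*(h*ea)) (s*(g*es)) (D*(h*g*ed)) =
    psiR p A B t s D * (h^7*g^7*ea^2*es^2*ed^5) :=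
  st0_hom p h g ea es ed A B t s D

end Vale.Agent.P154
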